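import Crest.Agent.X212.Met55.Mix
import Crest.Agent.X212.Int54.Link

/-! The Riemannian `Fr` of a frame; rotations; weights; families. -/

set_option linter.unusedSectionVars false

open scoped Manifold ContDiff Topology ENNReal
open Set Filter Function Module Matrix MeasureTheory

noncomputable section
namespace Crest.Agent.X212.Met55

open Sob92 Pj41 An Cyl58 Prm93

variable {E : Type} [NormedAddCommGroup E] [NormedSpace ℝ E] [FiniteDimensional ℝ E]
  [MeasurableSpace E] [BorelSpace E]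
  {H : Type} [TopologicalSpace H] {I : ModelWithCorners ℝ E H} [I.Boundaryless]
  {M : Type} [TopologicalSpace M] [ChartedSpace H M] [IsManifold I ∞ M]
  [MeasurableSpace M] [BorelSpace M] [T2Space M]
  {E' : Type} [NormedAddCommGroup E'] [NormedSpace ℝ E'] [FiniteDimensional ℝ E']
  [MeasurableSpace E'] [BorelSpace E']
  {H' : Type} [TopologicalSpace H'] {I' : ModelWithCorners ℝ E' H'} [I'.Boundaryless]
  {M' : Type} [TopologicalSpace M'] [ChartedSpace H' M'] [IsManifold I' ∞ M']
  [MeasurableSpace M'] [BorelSpace M'] [T2Space M']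
  {V : Type} [NormedAddCommGroup V] [NormedSpace ℝ V] {ι κ : Type} [Fintype ι] [Fintype κ]

theorem pre_fAt (F : Pre I M ι) (x : M) : FAt F.e x := ⟨fun a => F.sm a x, pre_sp F x⟩

theorem locFin_of_dens {μ : Measure M} (h : ∀ x₀, ∃ O ρ, HasDens I μ x₀ O ρ ∧
    ContinuousOn ρ (extChartAt I x₀ '' O)) : IsLocallyFiniteMeasure μ := by
  refine ⟨fun x => ?_⟩
  obtain ⟨O, ρ, h1, h2⟩ := h x
  have ho := isOpen_img h1.1 h1.2.2.1
  obtain ⟨K, hK, hxK, hKt⟩ := exists_compact_subset ho (mem_image_of_mem _ h1.2.1)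
  refine ⟨extChartAt I x ⁻¹' K ∩ O, inter_mem ((continuousAt_extChartAt x).preimage_mem_nhds
    (mem_interior_iff_mem_nhds.1 hxK)) (h1.1.mem_nhds h1.2.1), ?_⟩
  rw [← Measure.restrict_apply' h1.1.measurableSet,
    ← Measure.map_apply_of_aemeasurable (dens_aem h1) hK.measurableSet, h1.2.2.2,
    withDensity_apply _ hK.measurableSet, Measure.restrict_restrict hK.measurableSet,
    inter_eq_left.2 hKt]
  exact ((h2.mono hKt).integrableOn_compact hK).lintegral_lt_top

/-- a new frame for the same measure -/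
def reFr (F : Pre I M ι) (e : κ → VF I M) (he : ∀ x, FAt e x) : Pre I M κ :=
  ⟨e, F.μ, fun a x => (he x).sm a, fun x => sp_iff.1 (he x).sp, F.fin, F.dens⟩

theorem hasDens_wt {μ : Measure M} {p : M} {O : Set M} {ρ : E → ℝ} (h : HasDens I μ p O ρ)
    (hρ : ContinuousOn ρ (extChartAt I p '' O)) (h0 : ∀ y ∈ extChartAt I p '' O, 0 ≤ ρ y)
    {w : M → ℝ} (hw : Continuous w) :
    HasDens I (μ.withDensity fun x => ENNReal.ofReal (w x)) p O
      fun y => ρ y * w ((extChartAt I p).symm y) := by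
  refine ⟨h.1, h.2.1, h.2.2.1, ?_⟩
  have hm := (isOpen_img h.1 h.2.2.1).measurableSet
  have hc : ContinuousOn (fun y => w ((extChartAt I p).symm y)) (extChartAt I p '' O) :=
    hw.comp_continuousOn ((continuousOn_extChartAt_symm p).mono (by
      rintro _ ⟨x, hx, rfl⟩; exact (extChartAt I p).map_source (h.2.2.1 hx)))
  have a1 := (hc.aemeasurable (μ := leb E) hm).ennreal_ofReal
  have a2 := (hρ.aemeasurable (μ := leb E) hm).ennreal_ofReal
  have a3 : AEMeasurable (fun y => ENNReal.ofReal (w ((extChartAt I p).symm y)))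
      ((μ.restrict O).map (extChartAt I p)) := by
    rw [h.2.2.2]; exact a1.mono_ac (withDensity_absolutelyContinuous _ _)
  have e1 : (((leb E).restrict (extChartAt I p '' O)).withDensity fun y =>
      ENNReal.ofReal (ρ y * w ((extChartAt I p).symm y))) = ((μ.restrict O).map
        (extChartAt I p)).withDensity fun y => ENNReal.ofReal (w ((extChartAt I p).symm y)) := by
    rw [h.2.2.2, ← withDensity_mul₀ a2 a1]
    refine withDensity_congr_ae ?_
    filter_upwards [ae_restrict_mem hm] with y hy using ENNReal.ofReal_mul (h0 y hy)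
  rw [e1, restrict_withDensity h.1.measurableSet]
  refine Measure.ext fun s hs => ?_
  rw [Measure.map_apply_of_aemeasurable ((dens_aem h).mono_ac
    (withDensity_absolutelyContinuous _ _)) hs, withDensity_apply _ hs,
    ← lintegral_indicator hs, lintegral_map' (a3.indicator hs) (dens_aem h),
    withDensity_apply₀ _ ((dens_aem h).nullMeasurableSet_preimage hs),
    ← lintegral_indicator₀ ((dens_aem h).nullMeasurableSet_preimage hs)]
  refine setLIntegral_congr_fun h.1.measurableSet fun x hx => ?_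
  by_cases hxs : extChartAt I p x ∈ s
  · simp only [indicator_of_mem hxs, indicator_of_mem (show x ∈ extChartAt I p ⁻¹' s from hxs),
      (extChartAt I p).left_inv (h.2.2.1 hx)]
  · simp only [indicator_of_notMem hxs,
      indicator_of_notMem (show x ∉ extChartAt I p ⁻¹' s from hxs)]

theorem wt_dens (F : Pre I M ι) {w : M → ℝ} (hw : Sm I w) (h0 : ∀ x, 0 < w x) (x₀ : M) :
    ∃ O ρ, HasDens I (F.μ.withDensity fun x => ENNReal.ofReal (w x)) x₀ O ρ ∧
      ContDiffOn ℝ ∞ ρ (extChartAt I x₀ '' O) ∧ ∀ y ∈ extChartAt I x₀ '' O, 0 < ρ y := by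
  obtain ⟨O, ρ, h1, h2, h3⟩ := F.dens x₀
  refine ⟨O, _, hasDens_wt h1 h2.continuousOn (fun y hy => (h3 y hy).le) hw.continuous,
    h2.mul ?_, fun y hy => mul_pos (h3 y hy) (h0 _)⟩
  rintro _ ⟨y, hy, rfl⟩
  exact (chart_contDiffAt le_rfl (by simpa using h1.2.2.1 hy) (hw y)).contDiffWithinAt

/-- the same frame with a weighted measure -/
def wt (F : Pre I M ι) (w : M → ℝ) (hw : Sm I w) (h0 : ∀ x, 0 < w x) : Pre I M ι where
  e := F.e
  μ := F.μ.withDensity fun x => ENNReal.ofReal (w x)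
  sm := F.sm
  span := F.span
  fin := haveI := locFin_of_dens fun x => let ⟨O, ρ, h1, h2, _⟩ := wt_dens F hw h0 x
      ⟨O, ρ, h1, h2.continuousOn⟩
    inferInstance
  dens := wt_dens F hw h0

theorem integral_wt (μ : Measure M) {w : M → ℝ} (hw : Continuous w) (h0 : ∀ x, 0 ≤ w x)
    (g : M → V) : ∫ x, g x ∂(μ.withDensity fun x => ENNReal.ofReal (w x)) = ∫ x, w x • g x ∂μ := by
  refine (integral_withDensity_eq_integral_smul hw.measurable.real_toNNReal g).trans ?_
  refine integral_congr_ae (.of_forall fun x => ?_)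
  show (w x).toNNReal • _ = _
  rw [NNReal.smul_def, Real.coe_toNNReal _ (h0 x)]

theorem dvg_wt (F : Pre I M ι) {w : M → ℝ} (hw : Sm I w) (h0 : ∀ x, 0 < w x) {X : VF I M}
    (hX : ∀ x, VAt I X x) (x : M) :
    dvg (wt F w hw h0) X x = dvg F X x + dv I X w x / w x := by
  obtain ⟨a1, a2⟩ := dvg_spec (F := F) isOpen_univ fun y _ => hX y
  refine dvg_eq isOpen_univ (fun y _ => hX y) (d := fun x => dvg F X x + dv I X w x / w x)
    (fun f h1 h2 _ => ?_) (fun y _ => (a1 y trivial).add
      (FSm.mul' (dv_smoothAt (hX y) (hw y)) (FSm.inv' (hw y) (h0 y).ne'))) (mem_univ x)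
  have e := a2 (fun y => w y * f y) (hw.smul h1) h2.mul_left (subset_univ _)
  have c1 : Continuous (dv I X w) := (dv_smooth hX hw).continuous
  have c2 : Continuous (dv I X f) := (dv_smooth hX h1).continuous
  have c3 : Continuous (dvg F X) := continuous_iff_continuousAt.2 fun y =>
    (a1 y trivial).continuousAt
  have i1 : Integrable (fun y => dv I X w y * f y) F.μ :=
    (c1.mul h1.continuous).integrable_of_hasCompactSupport h2.mul_left
  have i2 : Integrable (fun y => w y * dv I X f y) F.μ :=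
    (hw.continuous.mul c2).integrable_of_hasCompactSupport (dv_hcs h2).mul_left
  have i3 : Integrable (fun y => dvg F X y * (w y * f y)) F.μ :=
    (c3.mul (hw.continuous.mul h1.continuous)).integrable_of_hasCompactSupport
      h2.mul_left.mul_left
  rw [funext fun y => dv_mul (X := X) (hw y) (h1 y), integral_add i1 i2] at e
  change ∫ y, _ ∂(F.μ.withDensity _) = -∫ y, _ ∂(F.μ.withDensity _)
  rw [integral_wt _ hw.continuous fun y => (h0 y).le, integral_wt _ hw.continuous fun y => (h0 y).le]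
  have e2 : ∫ y, w y • ((dvg F X y + dv I X w y / w y) * f y) ∂F.μ =
      ∫ y, dvg F X y * (w y * f y) ∂F.μ + ∫ y, dv I X w y * f y ∂F.μ := by
    rw [← integral_add i3 i1]
    refine integral_congr_ae (.of_forall fun y => ?_)
    have := (h0 y).ne'
    simp only [smul_eq_mul]; field_simp
  rw [e2]
  simp only [smul_eq_mul]; linarith

/-- divergence of a multiple -/
theorem dvg_smul (F : Pre I M ι) {f : M → ℝ} (hf : Sm I f) {X : VF I M} (hX : ∀ x, VAt I X x)
    (x : M) : dvg F (fun y => f y • X y) x = dv I X f x + f x * dvg F X x := by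
  obtain ⟨a1, a2⟩ := dvg_spec (F := F) isOpen_univ fun y _ => hX y
  refine dvg_eq isOpen_univ (fun y _ => (hX y).smul (hf y))
    (d := fun x => dv I X f x + f x * dvg F X x) (fun g h1 h2 _ => ?_)
    (fun y _ => (dv_smoothAt (hX y) (hf y)).add (FSm.mul' (hf y) (a1 y trivial))) (mem_univ x)
  have e := a2 (fun y => f y * g y) (hf.smul h1) h2.mul_left (subset_univ _)
  have c3 : Continuous (dvg F X) := continuous_iff_continuousAt.2 fun y =>
    (a1 y trivial).continuousAt
  have i1 : Integrable (fun y => dv I X f y * g y) F.μ :=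
    ((dv_smooth hX hf).continuous.mul h1.continuous).integrable_of_hasCompactSupport h2.mul_left
  have i2 : Integrable (fun y => f y * dv I X g y) F.μ :=
    (hf.continuous.mul (dv_smooth hX h1).continuous).integrable_of_hasCompactSupport
      (dv_hcs h2).mul_left
  have i3 : Integrable (fun y => dvg F X y * (f y * g y)) F.μ :=
    (c3.mul (hf.continuous.mul h1.continuous)).integrable_of_hasCompactSupport
      h2.mul_left.mul_left
  rw [funext fun y => dv_mul (X := X) (hf y) (h1 y), integral_add i1 i2] at e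
  have e2 : ∫ y, (dv I X f y + f y * dvg F X y) * g y ∂F.μ =
      ∫ y, dv I X f y * g y ∂F.μ + ∫ y, dvg F X y * (f y * g y) ∂F.μ := by
    rw [← integral_add i1 i3]
    exact integral_congr_ae (.of_forall fun y => by ring)
  rw [e2, funext fun y => dv_vsmul f X g y]
  simp only [smul_eq_mul]; linarith

variable [SecondCountableTopology M] [SecondCountableTopology M']

theorem rf_dens {e : ι → VF I M} (he : ∀ x, FAt e x) (x₀ : M) :
    ∃ O ρ, HasDens I (Int54.dens I (Int54.rf e)) x₀ O ρ ∧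
      ContDiffOn ℝ ∞ ρ (extChartAt I x₀ '' O) ∧ ∀ y ∈ extChartAt I x₀ '' O, 0 < ρ y := by
  refine ⟨_, fun y => rjb (finBasis ℝ E) (inc I x₀ e ((extChartAt I x₀).symm y)),
    Int54.hasDens_congr (Int54.hasDens _ (isOpen_extChartAt_source x₀)
      (mem_extChartAt_source x₀) subset_rfl) fun y hy => ?_, ?_, ?_⟩
  · rw [(extChartAt I x₀).image_source_eq_target] at hy
    exact Int54.abs_cd_unit hy (Int54.isU_rf (he _).sp)
  · rintro _ ⟨y, hy, rfl⟩
    have hy' : y ∈ (chartAt H x₀).source := by simpa using hy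
    exact (chart_contDiffAt le_rfl hy' (sm_rjb hy' (he y).sm (he y).sp)).contDiffWithinAt
  · rintro _ ⟨y, hy, rfl⟩
    beta_reduce
    rw [(extChartAt I x₀).left_inv hy]
    exact (sp_inc (by simpa using hy) (he y).sp).rjb_pos

/-- a frame with its Riemannian measure -/
def ofFrame (e : ι → VF I M) (he : ∀ x, FAt e x) : Pre I M ι where
  e := e
  μ := Int54.dens I (Int54.rf e)
  sm a x := (he x).sm a
  span x := sp_iff.1 (he x).sp
  fin := haveI := locFin_of_dens fun x => let ⟨O, ρ, h1, h2, _⟩ := rf_dens he x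
      ⟨O, ρ, h1, h2.continuousOn⟩
    inferInstance
  dens := rf_dens he

/-- **the Riemannian `Fr` of a frame** -/
def rFr (e : ι → VF I M) (he : ∀ x, FAt e x) : Fr I M ι := toFr (ofFrame e he)

@[simp] theorem rFr_e (e : ι → VF I M) (he : ∀ x, FAt e x) : (rFr e he).e = e := rfl

theorem rFr_P (e : ι → VF I M) (he : ∀ x, FAt e x) (a b : ι) (x : M) :
    (rFr e he).P a b x = fP e x a b := rfl

theorem rFr_vol (e : ι → VF I M) (he : ∀ x, FAt e x) : (rFr e he).IsVol :=
  Int54.isVol_iff_rf.2 rfl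

theorem vol_ext {F G : Fr I M ι} (hF : F.IsVol) (hG : G.IsVol) (h : F.e = G.e) : F = G :=
  fr_ext (pre_ext h (by rw [Int54.isVol_iff_rf.1 hF, Int54.isVol_iff_rf.1 hG, h]))

theorem exists_fr [CompactSpace M] : ∃ (N : ℕ) (F : Fr I M (Fin N)), F.IsVol :=
  let ⟨N, f, h⟩ := exists_frame (I := I) (M := M); ⟨N, rFr f h, rFr_vol f h⟩

/-- two Riemannian measures differ by the quotient of the densities -/
theorem vol_eq_wt {F : Pre I M ι} {G : Pre I M κ} (hF : F.IsVol) (hG : G.IsVol) {w : M → ℝ}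
    (hw : Continuous w) (h : ∀ x, rj G.e x = w x * rj F.e x) :
    G.μ = F.μ.withDensity fun x => ENNReal.ofReal (w x) := by
  refine Int54.ext_loc fun x => ⟨(extChartAt I x).source, extChartAt_source_mem_nhds x, ?_⟩
  have key : ∀ {ι : Type} [Fintype ι] {F : Pre I M ι}, F.IsVol → HasDens I F.μ x
      (extChartAt I x).source fun y => |Int54.cd I x (Int54.rf F.e) y| := fun hF => by
    rw [Int54.isVol_iff_rf.1 hF]
    exact Int54.hasDens _ (isOpen_extChartAt_source x) (mem_extChartAt_source x) subset_rfl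
  have h1 : ContinuousOn (fun y => |Int54.cd I x (Int54.rf F.e) y|)
      (extChartAt I x '' (extChartAt I x).source) := by
    refine ContinuousOn.congr (f := fun y => rjb (finBasis ℝ E)
      (inc I x F.e ((extChartAt I x).symm y))) ?_ fun y hy => ?_
    · rintro _ ⟨y, hy, rfl⟩
      have hy' : y ∈ (chartAt H x).source := by simpa using hy
      exact (chart_contDiffAt le_rfl hy' (sm_rjb hy' (pre_fAt F y).sm
        (pre_sp F y))).continuousAt.continuousWithinAt
    · rw [(extChartAt I x).image_source_eq_target] at hy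
      exact Int54.abs_cd_unit hy (Int54.isU_rf (pre_sp F _))
  refine Int54.restrict_eq_of_hasDens (key hG) (Int54.hasDens_congr
    (hasDens_wt (key hF) h1 (fun _ _ => abs_nonneg _) hw) fun y _ => ?_)
  have h2 := h ((extChartAt I x).symm y)
  have h3 : 0 < w ((extChartAt I x).symm y) :=
    (mul_pos_iff_of_pos_right (pre_sp F _).rjb_pos).1 (lt_of_lt_of_eq (pre_sp G _).rjb_pos h2)
  simp only [Int54.cd_eq, Int54.rf, map_smul, Int54.tp_vol0, smul_eq_mul, mul_one, abs_mul]
  change _ * |rj F.e _| * _ = _ * |rj G.e _|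
  rw [h2, abs_mul, abs_of_pos h3]; ring

section iso
variable {φ : OpenPartialHomeomorph M M'}

theorem iso_vol {F : Pre I M ι} {F' : Pre I' M' ι} (hF : F.IsVol) (hF' : F'.IsVol)
    (h1 : ContMDiffOn I I' ∞ φ φ.source) (h2 : ContMDiffOn I' I ∞ φ.symm φ.target)
    (he : ∀ a, ∀ x ∈ φ.source, mfderiv I I' φ x (F.e a x) = F'.e a (φ x)) : Iso F F' φ := by
  rcases φ.source.eq_empty_or_nonempty with h | ⟨x, hx⟩
  · exact ⟨h1, h2, he, by rw [← φ.image_source_eq_target, h]; simp⟩
  · exact Int54.iso_of_vol (Int54.finrank_of_ld (ld_of_oph h1 h2 hx)) hF' hF h1 h2 he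

/-- the rotation between two frames along an isometry -/
def rotU (F : Pre I M ι) (F' : Pre I' M' κ) (φ : M → M') (x : M) (b : κ) (a : ι) : ℝ :=
  fM F.e (fun b => pbv I I' φ (F'.e b)) x a b

/-- the frame and measure part of `GEq` for an isometry -/
theorem rot_spec {F : Fr I M ι} {F' : Fr I' M' κ} (hF : F.IsVol) (hF' : F'.IsVol)
    (h1 : ContMDiffOn I I' ∞ φ φ.source) (h2 : ContMDiffOn I' I ∞ φ.symm φ.target)
    (hc : ∀ x ∈ φ.source, Co (fun a => dmp I I' φ x (atx F.e x a)) (atx F'.e (φ x))) :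
    (∀ b a, ContMDiffOn I 𝓘(ℝ, ℝ) ∞ (fun x => rotU F.toPre F'.toPre φ x b a) φ.source) ∧
    (∀ x ∈ φ.source, ∀ a a', ∑ b, rotU F.toPre F'.toPre φ x b a * rotU F.toPre F'.toPre φ x b a'
      = F.P a a' x) ∧
    (∀ x ∈ φ.source, ∀ b b', ∑ a, rotU F.toPre F'.toPre φ x b a * rotU F.toPre F'.toPre φ x b' a
      = F'.P b b' (φ x)) ∧
    (∀ x ∈ φ.source, ∀ b, mfderiv I I' φ x (∑ a, rotU F.toPre F'.toPre φ x b a • F.e a x)
      = F'.e b (φ x)) ∧
    (F.μ.restrict φ.source).map φ = F'.μ.restrict φ.target := by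
  have hl := fun x hx => ld_of_oph h1 h2 (x := x) hx
  have hr : ∀ x ∈ φ.source, ∀ b, mfderiv I I' φ x (pbv I I' φ (F'.e b) x) = F'.e b (φ x) :=
    fun x hx b => pbv_rel (hl x hx) _
  have hco : ∀ x ∈ φ.source, Co (atx F.e x) (atx (fun b => pbv I I' φ (F'.e b)) x) := fun x hx =>
    Co.of_map (A := dmp I I' φ x) (ld_bij (hl x hx)) (by rw [← atx_rel (hr x hx)]; exact hc x hx)
  refine ⟨fun b a x hx => (msm_fM (pre_fAt _ x) ((pre_fAt F'.toPre _).pbv (hl x hx)).sm a
    b).contMDiffWithinAt, fun x hx a a' => ?_, fun x hx b b' => ?_, fun x hx b => ?_, ?_⟩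
  · rw [fr_P, ← (fM_rot (pre_sp _ x) (hco x hx)).1]; rfl
  · rw [fr_P, ← fP_rel (hl x hx) ((pre_fAt F'.toPre _).pbv (hl x hx)).sp (hr x hx),
      ← (fM_rot (pre_sp _ x) (hco x hx)).2]; rfl
  · rw [← hr x hx b]
    exact congrArg _ (sum_fM (pre_sp _ x) _ b)
  · rcases φ.source.eq_empty_or_nonempty with h | ⟨x, hx⟩
    · rw [← φ.image_source_eq_target, h]; simp
    · exact Int54.map_vol_ph (Int54.finrank_of_ld (hl x hx)) hF' hF h1 hc

end iso

/-! ### families -/

section fam
omit [SecondCountableTopology M]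
variable {T : Type} [NormedAddCommGroup T] [NormedSpace ℝ T] {t : T} {x : M} {F : T → Fr I M ι}

theorem jAt_P (h : ∀ a, VJ I (fun s => (F s).e a) t x) (a b : ι) :
    JAt I (fun s => (F s).P a b) t x :=
  JAt.congr (f := fun s y => fP (F s).e y a b) (mJ_fP (e := fun s => (F s).e) h (pre_sp _ x) a b)
    (.of_forall fun _ => fr_P _ _ _ _)

theorem jAt_c (h : ∀ a, VJ I (fun s => (F s).e a) t x) (a b l : ι) :
    JAt I (fun s => (F s).c a b l) t x :=
  JAt.congr (jAt_fT (e := fun s => (F s).e) h (pre_sp _ x) (vJ_br (h a) (h b)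
    (.of_forall fun z => ⟨(F z.1).sm a _, (F z.1).sm b _⟩)) l) (.of_forall fun _ => fr_c _ _ _ _ _)

theorem jAt_dv (h : ∀ a, VJ I (fun s => (F s).e a) t x) (hv : ∀ᶠ s in 𝓝 t, (F s).IsVol) (a : ι) :
    JAt I (fun s => (F s).dv a) t x := by
  refine JAt.congr (f := fun s y => ∑ b, ∑ l, (F s).c b a l y * (F s).P l b y)
    (FSm.sum' fun b _ => FSm.sum' fun l _ => FSm.mul' (jAt_c h b a l) (jAt_P h l b)) ?_
  filter_upwards [continuousAt_fst.eventually hv] with z hz using dv_vol hz a z.2

theorem jAt_D (h : ∀ a, VJ I (fun s => (F s).e a) t x) {u : T → M → V} (hu : JAt I u t x) (a : ι) :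
    JAt I (fun s => (F s).D a (u s)) t x := JAt.dv' (h a) hu

theorem jAt_Gam (h : ∀ a, VJ I (fun s => (F s).e a) t x) (a b k : ι) :
    JAt I (fun s => (F s).Gam a b k) t x :=
  ((((((jAt_D h (jAt_P h b k) a).add (jAt_D h (jAt_P h a k) b)).sub (jAt_D h (jAt_P h a b) k)).add
    (jAt_c h a b k)).sub (jAt_c h a k b)).sub (jAt_c h b k a)).div_const 2

end fam

end Crest.Agent.X212.Met55
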