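import Crest.Agent.X212.Met55.Vf
import Crest.Agent.X212.An.Defs

/-! The divergence of a vector field for a measure with smooth positive density. -/

set_option linter.unusedSectionVars false

open scoped Manifold ContDiff Topology ENNReal
open Set Filter Function MeasureTheory Module

noncomputable section
namespace Crest.Agent.X212.Met55

open Sob92 Pj41 An

variable {E : Type} [NormedAddCommGroup E] [NormedSpace ℝ E] [FiniteDimensional ℝ E]
  {H : Type} [TopologicalSpace H] {I : ModelWithCorners ℝ E H}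
  {M : Type} [TopologicalSpace M] [ChartedSpace H M] [IsManifold I ∞ M]
  {V : Type} [NormedAddCommGroup V] [NormedSpace ℝ V]

variable (I) in
/-- the components of a vector field in the chart at `p` -/
def cp (p : M) (X : VF I M) (i : Fin (finrank ℝ E)) (x : M) : ℝ :=
  (finBasis ℝ E).repr (dv I X (extChartAt I p) x) i

theorem cp_sm {p x : M} (hx : x ∈ (chartAt H p).source) {X : VF I M} (hX : VAt I X x)
    (i : Fin (finrank ℝ E)) : FSm I (cp I p X i) x :=
  ((finBasis ℝ E).coord i).toContinuousLinearMap.contDiff.contDiffAt.comp_contMDiffAt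
    ((vAt_iff hx).1 hX)

theorem sum_cp {p x : M} (hx : x ∈ (chartAt H p).source) (X : VF I M) :
    ∑ i, cp I p X i x • cf I p (finBasis ℝ E i) x = X x := by
  refine tan_ext (X := fun y => ∑ i, cp I p X i y • cf I p (finBasis ℝ E i) y) hx ?_
  rw [dv_vcomb]
  simp only [dv_cf hx]
  exact (finBasis ℝ E).sum_repr _

theorem dv_cp {p x : M} (hx : x ∈ (chartAt H p).source) (X : VF I M) (u : M → V) :
    dv I X u x = ∑ i, cp I p X i x • dv I (cf I p (finBasis ℝ E i)) u x := by
  rw [← dv_vcomb]; exact dv_vcongr (sum_cp hx X).symm u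

variable (I) in
/-- the divergence in the chart at `p`, for the density `r` -/
def ldv (p : M) (r : M → ℝ) (X : VF I M) (x : M) : ℝ :=
  (r x)⁻¹ * ∑ i, dv I (cf I p (finBasis ℝ E i)) (fun y => r y * cp I p X i y) x

theorem ldv_sm {p x : M} (hx : x ∈ (chartAt H p).source) {X : VF I M} (hX : VAt I X x)
    {r : M → ℝ} (hr : FSm I r x) (h0 : r x ≠ 0) : FSm I (ldv I p r X) x :=
  (hr.inv' h0).mul' (FSm.sum' fun i _ => dv_smoothAt (vAt_cf hx _) (hr.mul' (cp_sm hx hX i)))

/-- a cut-off times a locally smooth function -/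
theorem sm_cut {χ : M → ℝ} {g : M → V} {U : Set M} (hχ : Sm I χ) (hU : tsupport χ ⊆ U)
    (hg : ∀ x ∈ U, FSm I g x) : Sm I fun y => χ y • g y := fun x => by
  by_cases hx : x ∈ tsupport χ
  · exact (hχ x).smul (hg x (hU hx))
  · refine (contMDiffAt_const (c := 0)).congr_of_eventuallyEq ?_
    filter_upwards [notMem_tsupport_iff_eventuallyEq.1 hx] with y hy
    simp [hy]

theorem cont_cut {f g : M → ℝ} {U : Set M} (hf : Continuous f) (hU : tsupport f ⊆ U)
    (hg : ∀ x ∈ U, ContinuousAt g x) : Continuous fun x => g x * f x :=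
  continuous_iff_continuousAt.2 fun x => by
    by_cases hx : x ∈ tsupport f
    · exact (hg x (hU hx)).mul hf.continuousAt
    · refine continuousAt_const (y := (0 : ℝ)) |>.congr ?_
      filter_upwards [notMem_tsupport_iff_eventuallyEq.1 hx] with y hy
      simp [hy]

theorem cont_dv {X : VF I M} {U : Set M} (hX : ∀ x ∈ U, VAt I X x) {f : M → V} (hf : Sm I f)
    (hU : tsupport f ⊆ U) : Sm I (dv I X f) := fun x => by
  by_cases hx : x ∈ tsupport f
  · exact dv_smoothAt (hX x (hU hx)) (hf x)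
  · exact contMDiffAt_const.congr_of_eventuallyEq
      (notMem_tsupport_iff_eventuallyEq.1 fun h => hx (tsupport_dv f h))

theorem dv_mul {X : VF I M} {f g : M → ℝ} {x : M} (hf : FSm I f x) (hg : FSm I g x) :
    dv I X (fun y => f y * g y) x = dv I X f x * g x + f x * dv I X g x :=
  dv_smul (hf.mdifferentiableAt (by simp)) (hg.mdifferentiableAt (by simp))

variable [T2Space M]

/-- a bump at `x` inside a neighbourhood -/
theorem exists_bump {x : M} {O : Set M} (hO : O ∈ 𝓝 x) : ∃ χ : M → ℝ, Sm I χ ∧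
    HasCompactSupport χ ∧ tsupport χ ⊆ O ∧ (∀ y, 0 ≤ χ y ∧ χ y ≤ 1) ∧ χ =ᶠ[𝓝 x] 1 := by
  obtain ⟨f, -, hf⟩ := (SmoothBumpFunction.nhds_basis_tsupport (I := I) x).mem_iff.1 hO
  exact ⟨f, f.contMDiff, f.hasCompactSupport, hf, fun y => ⟨f.nonneg, f.le_one⟩,
    f.eventuallyEq_one⟩

/-- an additive property of test functions that holds locally holds -/
theorem loc_induction {p : (M → V) → Prop} (h0 : p 0) {U : Set M}
    (hadd : ∀ f g, Sm I f → HasCompactSupport f → tsupport f ⊆ U → Sm I g → HasCompactSupport g →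
      tsupport g ⊆ U → p f → p g → p (f + g))
    (hloc : ∀ x ∈ U, ∃ O ∈ 𝓝 x, ∀ f, Sm I f → HasCompactSupport f →
      tsupport f ⊆ O → tsupport f ⊆ U → p f)
    {f : M → V} (hf : Sm I f) (hc : HasCompactSupport f) (hU : tsupport f ⊆ U) : p f := by
  classical
  choose! O hO hp using hloc
  have hb : ∀ x ∈ U, ∃ χ : M → ℝ, Sm I χ ∧ tsupport χ ⊆ O x ∧ χ =ᶠ[𝓝 x] 1 := fun x hx => by
    obtain ⟨χ, h1, -, h2, -, h3⟩ := exists_bump (I := I) (hO x hx)
    exact ⟨χ, h1, h2, h3⟩
  choose! χ h1 h2 h3 using hb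
  obtain ⟨t, ht, hcov⟩ := hc.isCompact.elim_nhds_subcover (fun x => {y | χ x =ᶠ[𝓝 y] 1})
    fun x hx => (h3 x (hU hx)).eventually_nhds
  have ht' : ∀ x ∈ t, x ∈ U := fun x hx => hU (ht x hx)
  clear ht
  induction t using Finset.induction_on generalizing f with
  | empty =>
    have : f = 0 := by
      funext x; by_contra h
      simpa using hcov (subset_tsupport _ h)
    rwa [this]
  | insert a t ha ih =>
    have haU := ht' a (Finset.mem_insert_self _ _)
    have e : f = (fun y => χ a y • f y) + fun y => (1 - χ a y) • f y := by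
      funext y; simp [← add_smul]
    have s1 : Sm I fun y => χ a y • f y := (h1 a haU).smul hf
    have s2 : Sm I fun y => (1 - χ a y) • f y := (contMDiff_const.sub (h1 a haU)).smul hf
    have t1 : tsupport (fun y => χ a y • f y) ⊆ tsupport f := tsupport_smul_subset_right _ _
    have t2 : tsupport (fun y => (1 - χ a y) • f y) ⊆ tsupport f := tsupport_smul_subset_right _ _
    have c1 := hc.of_isClosed_subset (isClosed_tsupport _) t1
    have c2 := hc.of_isClosed_subset (isClosed_tsupport _) t2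
    rw [e]
    refine hadd _ _ s1 c1 (t1.trans hU) s2 c2 (t2.trans hU) (hp a haU _ s1 c1 ((tsupport_smul_subset_left _ _).trans
      (h2 a haU)) (t1.trans hU)) (ih s2 c2 (t2.trans hU) (fun y hy => ?_)
        fun x hx => ht' x (Finset.mem_insert_of_mem hx))
    have := hcov (t2 hy)
    rw [Finset.set_biUnion_insert] at this
    refine this.resolve_left fun h => ?_
    refine notMem_tsupport_iff_eventuallyEq.2 ?_ hy
    filter_upwards [h] with z hz
    simp [hz]

variable [MeasurableSpace E] [BorelSpace E] [I.Boundaryless] [MeasurableSpace M] [BorelSpace M]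

instance : (leb E).IsAddHaarMeasure := by unfold leb; infer_instance

section chart
variable {μ : Measure M} {p : M} {O : Set M} {ρ : E → ℝ}

theorem isOpen_img (hO : IsOpen O) (hs : O ⊆ (extChartAt I p).source) :
    IsOpen (extChartAt I p '' O) := by
  rw [(extChartAt I p).image_eq_target_inter_inv_preimage hs]
  exact (continuousOn_extChartAt_symm p).isOpen_inter_preimage (isOpen_extChartAt_target p) hO

theorem dens_aem (h : HasDens I μ p O ρ) : AEMeasurable (extChartAt I p) (μ.restrict O) :=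
  ((continuousOn_extChartAt p).mono h.2.2.1).aemeasurable h.1.measurableSet

/-- integrals in the chart -/
theorem dens_integral (h : HasDens I μ p O ρ) (hρ : ContinuousOn ρ (extChartAt I p '' O))
    (hp : ∀ y ∈ extChartAt I p '' O, 0 ≤ ρ y) {g : M → V} (hg : ContinuousOn g O) :
    ∫ x in O, g x ∂μ = ∫ y in extChartAt I p '' O, ρ y • g ((extChartAt I p).symm y) ∂leb E := by
  have hm := (isOpen_img h.1 h.2.2.1).measurableSet
  have hc : ContinuousOn (fun y => g ((extChartAt I p).symm y)) (extChartAt I p '' O) := by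
    refine hg.comp ((continuousOn_extChartAt_symm p).mono ?_) ?_
    · rintro _ ⟨x, hx, rfl⟩; exact (extChartAt I p).map_source (h.2.2.1 hx)
    · rintro _ ⟨x, hx, rfl⟩; rwa [(extChartAt I p).left_inv (h.2.2.1 hx)]
  have h1 : ∫ x in O, g x ∂μ = ∫ x in O, g ((extChartAt I p).symm (extChartAt I p x)) ∂μ :=
    setIntegral_congr_fun h.1.measurableSet fun x hx => by
      simp only [(extChartAt I p).left_inv (h.2.2.1 hx)]
  have h2 : AEStronglyMeasurable (fun y => g ((extChartAt I p).symm y))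
      ((μ.restrict O).map (extChartAt I p)) := by
    rw [h.2.2.2]
    exact (hc.aestronglyMeasurable hm).mono_ac (withDensity_absolutelyContinuous _ _)
  rw [h1, ← integral_map (dens_aem h) h2, h.2.2.2]
  have h3 := integral_withDensity_eq_integral_smul₀
    (hρ.aemeasurable (μ := leb E) hm).real_toNNReal (fun y => g ((extChartAt I p).symm y))
  refine h3.trans (setIntegral_congr_fun hm fun y hy => ?_)
  show (ρ y).toNNReal • _ = _
  rw [NNReal.smul_def, Real.coe_toNNReal _ (hp y hy)]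

theorem dens_pos (h : HasDens I μ p O ρ) (hρ : ContinuousOn ρ (extChartAt I p '' O))
    (hp : ∀ y ∈ extChartAt I p '' O, 0 < ρ y) {U : Set M} (hU : IsOpen U) (hx : p ∈ U) :
    μ U ≠ 0 := by
  intro h0
  have hm := (isOpen_img h.1 h.2.2.1).measurableSet
  have hs : U ∩ O ⊆ (extChartAt I p).source := fun x hx => h.2.2.1 hx.2
  have ho := isOpen_img (hU.inter h.1) hs
  have h1 : (μ.restrict O).map (extChartAt I p) (extChartAt I p '' (U ∩ O)) = 0 := by
    rw [Measure.map_apply_of_aemeasurable (dens_aem h) ho.measurableSet,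
      Measure.restrict_apply' h.1.measurableSet]
    refine measure_mono_null ?_ h0
    rintro x ⟨⟨z, hz, e⟩, hx⟩
    exact (extChartAt I p).injOn (hs hz) (h.2.2.1 hx) e ▸ hz.1
  rw [h.2.2.2, withDensity_apply_eq_zero' (hρ.aemeasurable hm).ennreal_ofReal,
    Measure.restrict_apply' hm] at h1
  refine ho.measure_ne_zero (leb E) ⟨_, p, ⟨hx, h.2.1⟩, rfl⟩ (measure_mono_null ?_ h1)
  intro y hy
  have hy' := image_mono inter_subset_right hy
  exact ⟨⟨(ENNReal.ofReal_pos.2 (hp y hy')).ne', hy⟩, hy'⟩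

/-- the basic integration by parts -/
theorem ibp_cf (h : HasDens I μ p O ρ) (hρ : ContinuousOn ρ (extChartAt I p '' O))
    (hp : ∀ y ∈ extChartAt I p '' O, 0 < ρ y) {w : M → ℝ} (hw : Sm I w)
    (hc : HasCompactSupport w) (hO : tsupport w ⊆ O) (v : E) :
    ∫ x in O, (ρ (extChartAt I p x))⁻¹ * dv I (cf I p v) w x ∂μ = 0 := by
  have hs : ∀ x ∈ O, x ∈ (chartAt H p).source := fun x hx => by simpa using h.2.2.1 hx
  have ho := isOpen_img h.1 h.2.2.1
  set W := extChartAt I p '' O
  set g : E → ℝ := W.indicator (w ∘ (extChartAt I p).symm) with hg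
  have hK : IsCompact (extChartAt I p '' tsupport w) :=
    hc.isCompact.image_of_continuousOn ((continuousOn_extChartAt p).mono (hO.trans h.2.2.1))
  have hsup : tsupport g ⊆ extChartAt I p '' tsupport w := by
    refine closure_minimal (fun y hy => ?_) hK.isClosed
    rw [hg, support_indicator] at hy
    obtain ⟨⟨x, hx, rfl⟩, h2⟩ := hy
    rw [mem_support, comp_apply, (extChartAt I p).left_inv (h.2.2.1 hx)] at h2
    exact ⟨x, subset_tsupport _ h2, rfl⟩
  have hev : ∀ y ∈ W, g =ᶠ[𝓝 y] w ∘ (extChartAt I p).symm := fun y hy => by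
    filter_upwards [ho.mem_nhds hy] with z hz using indicator_of_mem hz _
  have hgs : ContDiff ℝ 1 g := contDiff_iff_contDiffAt.2 fun y => by
    by_cases hy : y ∈ W
    · obtain ⟨x, hx, rfl⟩ := hy
      exact (chart_contDiffAt (by simp) (hs x hx) ((hw x).of_le (by simp))).congr_of_eventuallyEq
        (hev _ ⟨x, hx, rfl⟩)
    · exact contDiffAt_const.congr_of_eventuallyEq (notMem_tsupport_iff_eventuallyEq.1
        fun h' => hy (image_mono hO (hsup h')))
  have hgc : HasCompactSupport g := hK.of_isClosed_subset (isClosed_tsupport _) hsup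
  have hcont : ContinuousOn (fun x => (ρ (extChartAt I p x))⁻¹ * dv I (cf I p v) w x) O := by
    refine ContinuousOn.mul (ContinuousOn.inv₀ (hρ.comp ((continuousOn_extChartAt p).mono
      h.2.2.1) (mapsTo_image _ _)) fun x hx => (hp _ ⟨x, hx, rfl⟩).ne') fun x hx => ?_
    exact (dv_smoothAt (vAt_cf (hs x hx) v) (hw x)).continuousAt.continuousWithinAt
  rw [dens_integral h hρ (fun y hy => (hp y hy).le) hcont]
  have h1 : ∫ y in W, fderiv ℝ g y v ∂leb E = ∫ y, fderiv ℝ g y v ∂leb E := by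
    refine setIntegral_eq_integral_of_forall_compl_eq_zero fun y hy => ?_
    have : y ∉ tsupport g := fun h' => hy (image_mono hO (hsup h'))
    rw [(notMem_tsupport_iff_eventuallyEq.1 this).fderiv_eq]; simp
  have h2 := integral_mul_fderiv_eq_neg_fderiv_mul_of_integrable (μ := leb E)
    (f := fun _ : E => (1 : ℝ)) (g := g) (v := v) (by simp)
    (by simpa using ((hgs.continuous_fderiv (by simp)).clm_apply
      continuous_const).integrable_of_hasCompactSupport (hgc.fderiv_apply ℝ v))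
    (by simpa using hgs.continuous.integrable_of_hasCompactSupport hgc)
    (fun _ _ => differentiableAt_const _) fun y _ => hgs.differentiable (by simp) y
  simp only [one_mul, fderiv_fun_const, Pi.zero_apply, zero_apply, zero_mul,
    integral_zero, neg_zero] at h2
  rw [← h2, ← h1]
  refine setIntegral_congr_fun ho.measurableSet ?_
  rintro _ ⟨x, hx, rfl⟩
  have h3 := chart_differentiableAt (hs x hx) ((hw x).mdifferentiableAt (by simp))
  simp only [(extChartAt I p).left_inv (h.2.2.1 hx)]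
  rw [(of_chart_hasFDerivAt (hs x hx) h3.hasFDerivAt).2, dv_cf (hs x hx),
    (hev _ ⟨x, hx, rfl⟩).fderiv_eq, smul_eq_mul, mul_inv_cancel_left₀ (hp _ ⟨x, hx, rfl⟩).ne']

end chart

variable (I) in
/-- `d` is the divergence of `X` on `U` -/
def IsDiv (μ : Measure M) (X : VF I M) (d : M → ℝ) (U : Set M) : Prop :=
  ∀ f : M → ℝ, Sm I f → HasCompactSupport f → tsupport f ⊆ U →
    ∫ x, dv I X f x ∂μ = -∫ x, d x * f x ∂μ

theorem IsDiv.mono {μ : Measure M} {X : VF I M} {d : M → ℝ} {U U' : Set M} (h : IsDiv I μ X d U)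
    (hU : U' ⊆ U) : IsDiv I μ X d U' := fun f h1 h2 h3 => h f h1 h2 (h3.trans hU)

theorem IsDiv.congr {μ : Measure M} {X X' : VF I M} {d d' : M → ℝ} {U : Set M}
    (h : IsDiv I μ X d U) (hX : ∀ x ∈ U, X' x = X x) (hd : EqOn d' d U) : IsDiv I μ X' d' U := by
  intro f h1 h2 h3
  have e1 : dv I X' f = dv I X f := funext fun x => by
    by_cases hx : x ∈ tsupport f
    · exact dv_vcongr (hX x (h3 hx)) f
    · rw [dv_eq_zero_of_notMem hx, dv_eq_zero_of_notMem hx]
  have e2 : (fun x => d' x * f x) = fun x => d x * f x := funext fun x => by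
    by_cases hx : x ∈ tsupport f
    · rw [hd (h3 hx)]
    · simp [image_eq_zero_of_notMem_tsupport hx]
  rw [e1, e2]; exact h f h1 h2 h3

theorem isDiv_ldv {μ : Measure M} [IsFiniteMeasureOnCompacts μ] {p : M} {O : Set M} {ρ : E → ℝ}
    (h : HasDens I μ p O ρ) (hρ : ContDiffOn ℝ ∞ ρ (extChartAt I p '' O))
    (hp : ∀ y ∈ extChartAt I p '' O, 0 < ρ y) {X : VF I M} (hX : ∀ x ∈ O, VAt I X x) :
    IsDiv I μ X (ldv I p (fun x => ρ (extChartAt I p x)) X) O := by
  intro f hf hc hO
  have hs : ∀ x ∈ O, x ∈ (chartAt H p).source := fun x hx => by simpa using h.2.2.1 hx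
  set r : M → ℝ := fun x => ρ (extChartAt I p x)
  have hr : ∀ x ∈ O, FSm I r x := fun x hx =>
    (hρ.contDiffAt ((isOpen_img h.1 h.2.2.1).mem_nhds ⟨x, hx, rfl⟩)).comp_contMDiffAt
      (contMDiffAt_extChartAt' (hs x hx))
  have h0 : ∀ x ∈ O, r x ≠ 0 := fun x hx => (hp _ ⟨x, hx, rfl⟩).ne'
  let w : Fin (finrank ℝ E) → M → ℝ := fun i x => f x • (r x * cp I p X i x)
  have hw : ∀ i, Sm I (w i) := fun i =>
    sm_cut hf hO fun x hx => (hr x hx).mul' (cp_sm (hs x hx) (hX x hx) i)
  have tw : ∀ i, tsupport (w i) ⊆ tsupport f := fun i => tsupport_smul_subset_left _ _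
  have cw : ∀ i, HasCompactSupport (w i) := fun i =>
    hc.of_isClosed_subset (isClosed_tsupport _) (tw i)
  have i1 : Integrable (dv I X f) μ :=
    (cont_dv hX hf hO).continuous.integrable_of_hasCompactSupport (dv_hcs hc)
  have i2 : Integrable (fun x => ldv I p r X x * f x) μ :=
    (cont_cut hf.continuous hO fun x hx => (ldv_sm (hs x hx) (hX x hx) (hr x hx)
      (h0 x hx)).continuousAt).integrable_of_hasCompactSupport hc.mul_left
  have i3 : ∀ i, Integrable (fun x => (r x)⁻¹ * dv I (cf I p (finBasis ℝ E i)) (w i) x) μ :=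
    fun i => (cont_cut (cont_dv (fun x hx => vAt_cf (hs x hx) _) (hw i)
      ((tw i).trans hO)).continuous ((tsupport_dv _).trans ((tw i).trans hO)) fun x hx =>
        ((hr x hx).inv' (h0 x hx)).continuousAt).integrable_of_hasCompactSupport
          (dv_hcs (cw i)).mul_left
  rw [eq_neg_iff_add_eq_zero, ← integral_add i1 i2,
    ← setIntegral_eq_integral_of_forall_compl_eq_zero (s := O)]
  · have h1 := Finset.sum_eq_zero (s := Finset.univ) fun i _ =>
      ibp_cf h hρ.continuousOn hp (hw i) (cw i) ((tw i).trans hO) (finBasis ℝ E i)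
    rw [← integral_finsetSum _ fun i _ => (i3 i).restrict] at h1
    rw [← h1]
    refine setIntegral_congr_fun h.1.measurableSet fun x hx => ?_
    have e : ∀ i, dv I (cf I p (finBasis ℝ E i)) (w i) x =
        dv I (cf I p (finBasis ℝ E i)) f x * (r x * cp I p X i x) +
          f x * dv I (cf I p (finBasis ℝ E i)) (fun y => r y * cp I p X i y) x := fun i =>
      dv_mul (hf x) ((hr x hx).mul' (cp_sm (hs x hx) (hX x hx) i))
    change _ = ∑ i, (r x)⁻¹ * _
    simp only [e, ldv, mul_add, Finset.sum_add_distrib]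
    rw [dv_cp (hs x hx) X f, Finset.mul_sum, Finset.sum_mul]
    congr 1 <;> refine Finset.sum_congr rfl fun i _ => ?_
    · have := h0 x hx
      rw [smul_eq_mul]; field_simp
    · ring
  · intro x hx
    have : x ∉ tsupport f := fun h' => hx (hO h')
    rw [dv_eq_zero_of_notMem this, image_eq_zero_of_notMem_tsupport this]; simp

theorem IsDiv.unique {μ : Measure M} [IsFiniteMeasureOnCompacts μ] [μ.IsOpenPosMeasure]
    {X : VF I M} {d d' : M → ℝ} {U : Set M} (hU : IsOpen U) (h : IsDiv I μ X d U)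
    (h' : IsDiv I μ X d' U) (hd : ∀ x ∈ U, FSm I d x) (hd' : ∀ x ∈ U, FSm I d' x) :
    EqOn d d' U := by
  intro x hx
  obtain ⟨χ, h1, h2, h3, h4, h5⟩ := exists_bump (I := I) (hU.mem_nhds hx)
  let f : M → ℝ := fun y => χ y • (d y - d' y)
  have hf : Sm I f := sm_cut h1 h3 fun y hy => (hd y hy).sub (hd' y hy)
  have tf : tsupport f ⊆ tsupport χ := tsupport_smul_subset_left _ _
  have cf : HasCompactSupport f := h2.of_isClosed_subset (isClosed_tsupport _) tf
  have c1 := cont_cut hf.continuous (tf.trans h3) fun y hy => (hd y hy).continuousAt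
  have c2 := cont_cut hf.continuous (tf.trans h3) fun y hy => (hd' y hy).continuousAt
  have e := (h f hf cf (tf.trans h3)).symm.trans (h' f hf cf (tf.trans h3))
  rw [neg_inj, ← sub_eq_zero, ← integral_sub (c1.integrable_of_hasCompactSupport cf.mul_left)
    (c2.integrable_of_hasCompactSupport cf.mul_left)] at e
  by_contra hne
  refine ((c1.sub c2).integral_pos_of_hasCompactSupport_nonneg_nonzero (μ := μ) (x := x)
    (cf.mul_left.sub cf.mul_left) (fun y => ?_) ?_).ne' e
  · have : d y * f y - d' y * f y = χ y * (d y - d' y) ^ 2 := by simp only [f, smul_eq_mul]; ring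
    change 0 ≤ d y * f y - d' y * f y
    rw [this]; exact mul_nonneg (h4 y).1 (sq_nonneg _)
  · have : d x * f x - d' x * f x = χ x * (d x - d' x) ^ 2 := by simp only [f, smul_eq_mul]; ring
    change d x * f x - d' x * f x ≠ 0
    rw [this, h5.self_of_nhds]
    simpa [sub_eq_zero] using hne

/-- the divergence is a local notion -/
theorem isDiv_of_loc {μ : Measure M} [IsFiniteMeasureOnCompacts μ] {X : VF I M} {d : M → ℝ}
    {U : Set M} (hX : ∀ x ∈ U, VAt I X x) (hd : ∀ x ∈ U, ContinuousAt d x)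
    (h : ∀ x ∈ U, ∃ O ∈ 𝓝 x, IsDiv I μ X d O) : IsDiv I μ X d U := by
  intro f hf hc hU
  refine loc_induction (I := I) (U := U) (p := fun f =>
    ∫ x, dv I X f x ∂μ = -∫ x, d x * f x ∂μ) (by simp) ?_ ?_ hf hc hU
  · intro f g h1 h2 h3 h4 h5 h6 h7 h8
    have e : dv I X (f + g) = fun x => dv I X f x + dv I X g x := funext fun x =>
      dv_add ((h1 x).mdifferentiableAt (by simp)) ((h4 x).mdifferentiableAt (by simp))
    simp only [e, Pi.add_apply, mul_add]
    rw [integral_add ((cont_dv hX h1 h3).continuous.integrable_of_hasCompactSupport (dv_hcs h2))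
      ((cont_dv hX h4 h6).continuous.integrable_of_hasCompactSupport (dv_hcs h5)),
      integral_add ((cont_cut h1.continuous h3 hd).integrable_of_hasCompactSupport h2.mul_left)
      ((cont_cut h4.continuous h6 hd).integrable_of_hasCompactSupport h5.mul_left), h7, h8]
    ring
  · intro x hx
    obtain ⟨O, hO, h'⟩ := h x hx
    exact ⟨O, hO, fun f h1 h2 h3 _ => h' f h1 h2 h3⟩

/-! ### the divergence for the measure of a `Pre` -/

variable {ι : Type} [Fintype ι] (F : Pre I M ι)

instance : F.μ.IsOpenPosMeasure := ⟨fun U hU ⟨x, hx⟩ => by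
  obtain ⟨O, ρ, h1, h2, h3⟩ := F.dens x
  exact dens_pos h1 h2.continuousOn h3 hU hx⟩

/-- the divergence of `X` for the measure of `F` -/
def dvg (X : VF I M) (x : M) : ℝ :=
  ldv I x (fun y => (F.dens x).choose_spec.choose (extChartAt I x y)) X x

theorem exists_ldv (x : M) : ∃ O, IsOpen O ∧ x ∈ O ∧ ∃ r : M → ℝ, ∀ X : VF I M,
    dvg F X x = ldv I x r X x ∧ ∀ U, IsOpen U → (∀ y ∈ U, VAt I X y) →
      IsDiv I F.μ X (ldv I x r X) (O ∩ U) ∧ ∀ y ∈ O ∩ U, FSm I (ldv I x r X) y := by
  obtain ⟨h1, h2, h3⟩ := (F.dens x).choose_spec.choose_spec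
  set O := (F.dens x).choose
  set ρ := (F.dens x).choose_spec.choose
  refine ⟨O, h1.1, h1.2.1, fun y => ρ (extChartAt I x y), fun X => ⟨rfl, fun U hU hX => ?_⟩⟩
  have hs : ∀ y ∈ O, y ∈ (chartAt H x).source := fun y hy => by simpa using h1.2.2.1 hy
  have hl : ∀ y ∈ O ∩ U, FSm I (ldv I x (fun y => ρ (extChartAt I x y)) X) y := fun y hy =>
    ldv_sm (hs y hy.1) (hX y hy.2) ((h2.contDiffAt ((isOpen_img h1.1 h1.2.2.1).mem_nhds
      ⟨y, hy.1, rfl⟩)).comp_contMDiffAt (contMDiffAt_extChartAt' (hs y hy.1)))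
        (h3 _ ⟨y, hy.1, rfl⟩).ne'
  refine ⟨isDiv_of_loc (fun y hy => hX y hy.2) (fun y hy => (hl y hy).continuousAt)
    fun y hy => ?_, hl⟩
  obtain ⟨χ, c1, -, c3, -, c5⟩ := exists_bump (I := I) ((h1.1.inter hU).mem_nhds hy)
  have h4 := isDiv_ldv h1 h2 h3 (X := fun z => χ z • X z) fun z _ =>
    VAt.cutoff (c1 z) c3 fun hz => hX z hz.2
  refine ⟨O ∩ {z | χ =ᶠ[𝓝 z] 1}, inter_mem (h1.1.mem_nhds hy.1) c5.eventually_nhds,
    (h4.mono inter_subset_left).congr (fun z hz => ?_) fun z hz => ?_⟩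
  · rw [hz.2.self_of_nhds]; simp
  · unfold ldv
    congr 1
    refine Finset.sum_congr rfl fun i _ => dv_congr ?_
    filter_upwards [hz.2] with w hw
    simp only [cp]
    rw [dv_vsmul, hw]; simp

variable {F}

theorem dvg_eq {X : VF I M} {U : Set M} (hU : IsOpen U) (hX : ∀ y ∈ U, VAt I X y) {d : M → ℝ}
    (h : IsDiv I F.μ X d U) (hd : ∀ y ∈ U, FSm I d y) : EqOn (dvg F X) d U := by
  intro x hx
  obtain ⟨O, h1, h2, r, h3⟩ := exists_ldv F x
  obtain ⟨h4, h5⟩ := (h3 X).2 U hU hX
  rw [(h3 X).1]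
  exact h4.unique (h1.inter hU) (h.mono inter_subset_right) h5 (fun y hy => hd y hy.2) ⟨h2, hx⟩

theorem dvg_spec {X : VF I M} {U : Set M} (hU : IsOpen U) (hX : ∀ y ∈ U, VAt I X y) :
    (∀ y ∈ U, FSm I (dvg F X) y) ∧ IsDiv I F.μ X (dvg F X) U := by
  have key : ∀ x ∈ U, ∃ O ∈ 𝓝 x, FSm I (dvg F X) x ∧ IsDiv I F.μ X (dvg F X) O := by
    intro x hx
    obtain ⟨O, h1, h2, r, h3⟩ := exists_ldv F x
    obtain ⟨h4, h5⟩ := (h3 X).2 U hU hX
    have h6 := dvg_eq (h1.inter hU) (fun y hy => hX y hy.2) h4 h5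
    have h7 := (h1.inter hU).mem_nhds ⟨h2, hx⟩
    exact ⟨_, h7, (h5 x ⟨h2, hx⟩).congr_of_eventuallyEq (eventuallyEq_of_mem h7 h6),
      h4.congr (fun _ _ => rfl) h6⟩
  have h1 : ∀ y ∈ U, FSm I (dvg F X) y := fun y hy => (key y hy).choose_spec.2.1
  exact ⟨h1, isDiv_of_loc hX (fun y hy => (h1 y hy).continuousAt) fun y hy =>
    let ⟨O, h2, _, h3⟩ := key y hy; ⟨O, h2, h3⟩⟩

end Crest.Agent.X212.Met55
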