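import Crest.Agent.X212.Met55.Lin
import Crest.Agent.X212.Met55.Div

/-! `Pre ⇒ Fr`: existence and uniqueness of the projector, the brackets and the divergences;
transport under `Iso`; the divergence of the Riemannian measure. -/

set_option linter.unusedSectionVars false

open scoped Manifold ContDiff Topology ENNReal
open Set Filter Function MeasureTheory Module Matrix

noncomputable section
namespace Crest.Agent.X212.Met55

open Sob92 Pj41 An

variable {E : Type} [NormedAddCommGroup E] [NormedSpace ℝ E] [FiniteDimensional ℝ E]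
  {H : Type} [TopologicalSpace H] {I : ModelWithCorners ℝ E H}
  {M : Type} [TopologicalSpace M] [ChartedSpace H M] [IsManifold I ∞ M]
  {E' : Type} [NormedAddCommGroup E'] [NormedSpace ℝ E'] [FiniteDimensional ℝ E']
  {H' : Type} [TopologicalSpace H'] {I' : ModelWithCorners ℝ E' H'}
  {M' : Type} [TopologicalSpace M'] [ChartedSpace H' M'] [IsManifold I' ∞ M']
  {V : Type} [NormedAddCommGroup V] [NormedSpace ℝ V] {ι κ : Type} [Fintype ι] [Fintype κ]

theorem sp_iff {E : Type*} [AddCommGroup E] [Module ℝ E] {v : ι → E} :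
    Sp v ↔ Submodule.span ℝ (range v) = ⊤ := by
  simp only [Sp, Submodule.eq_top_iff', Submodule.mem_span_range_iff_exists_fun, eq_comm]

/-- the family at a point, as vectors of the model space -/
abbrev atx (e : ι → VF I M) (x : M) : ι → E := fun a => e a x

variable (I) in
/-- the family in the chart at `p` -/
abbrev inc (p : M) (e : ι → VF I M) (x : M) : ι → E := fun a => dv I (e a) (extChartAt I p) x

/-- the projector of a frame -/
def fP (e : ι → VF I M) (x : M) : Matrix ι ι ℝ := prj (finBasis ℝ E) (atx e x)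

/-- the coefficients of a vector field in a frame -/
def fT (e : ι → VF I M) (X : VF I M) (x : M) : ι → ℝ := th (finBasis ℝ E) (atx e x) (X x)

/-- the Riemannian density of a frame -/
def rj (e : ι → VF I M) (x : M) : ℝ := rjb (finBasis ℝ E) (atx e x)

section frame
variable {e : ι → VF I M} {p x : M}

/-- the differential of the chart as a linear map of the model space -/
abbrev dch (I : ModelWithCorners ℝ E H) (p x : M) : E →ₗ[ℝ] E :=
  (show E →L[ℝ] E from mfderiv I 𝓘(ℝ, E) (extChartAt I p) x).toLinearMap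

theorem sp_inc (hx : x ∈ (chartAt H p).source) (hs : Sp (atx e x)) : Sp (inc I p e x) :=
  hs.map (A := dch I p x) (bij_chart hx).2

theorem fP_chart (hx : x ∈ (chartAt H p).source) (hs : Sp (atx e x)) :
    fP e x = prj (finBasis ℝ E) (inc I p e x) :=
  (hs.prj_map (A := dch I p x) (bij_chart hx) _ _).symm

theorem fT_chart (hx : x ∈ (chartAt H p).source) (hs : Sp (atx e x)) (X : VF I M) :
    fT e X x = th (finBasis ℝ E) (inc I p e x) (dv I X (extChartAt I p) x) :=
  (hs.th_map (A := dch I p x) (bij_chart hx) _ _ _).symm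

theorem msm_fm (hx : x ∈ (chartAt H p).source) (he : ∀ a, VAt I (e a) x) :
    MSm I (fun y => fm (finBasis ℝ E) (inc I p e y)) x := fun i a => cp_sm hx (he a) i

theorem msm_gm (hx : x ∈ (chartAt H p).source) (he : ∀ a, VAt I (e a) x) :
    MSm I (fun y => gm (finBasis ℝ E) (inc I p e y)) x := (msm_fm hx he).mul (msm_fm hx he).transpose

theorem msm_ri (hx : x ∈ (chartAt H p).source) (he : ∀ a, VAt I (e a) x) (hs : Sp (atx e x)) :
    MSm I (fun y => ri (finBasis ℝ E) (inc I p e y)) x :=
  (msm_fm hx he).transpose.mul ((msm_gm hx he).inv (sp_inc hx hs).det_pos.ne')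

theorem sm_rjb (hx : x ∈ (chartAt H p).source) (he : ∀ a, VAt I (e a) x) (hs : Sp (atx e x)) :
    FSm I (fun y => rjb (finBasis ℝ E) (inc I p e y)) x :=
  FSm.inv' ((Real.contDiffAt_sqrt (sp_inc hx hs).det_pos.ne').comp_contMDiffAt
    (f := fun y => (gm (finBasis ℝ E) (inc I p e y)).det) (msm_gm hx he).det)
    (Real.sqrt_pos.2 (sp_inc hx hs).det_pos).ne'

theorem sp_eventually (he : ∀ a, VAt I (e a) x) (hs : Sp (atx e x)) :
    ∀ᶠ y in 𝓝 x, Sp (atx e y) := by
  have hx := mem_chart_source H x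
  filter_upwards [(msm_gm hx he).det.continuousAt.eventually_ne (sp_inc hx hs).det_pos.ne',
    (chartAt H x).open_source.mem_nhds hx] with y h1 h2
  intro w
  obtain ⟨c, hc⟩ := sp_of_unit h1.isUnit (dch I x y w)
  refine ⟨c, (bij_chart (I := I) h2).1 (hc.trans ?_)⟩
  change _ = dch I x y _
  simp only [map_sum, map_smul]; rfl

theorem msm_fP (he : ∀ a, VAt I (e a) x) (hs : Sp (atx e x)) : MSm I (fP e) x := by
  have hx := mem_chart_source H x
  refine ((msm_ri hx he hs).mul (msm_fm hx he)).congr ?_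
  filter_upwards [sp_eventually he hs, (chartAt H x).open_source.mem_nhds hx] with y h1 h2
  exact fP_chart h2 h1

theorem sm_fT (he : ∀ a, VAt I (e a) x) (hs : Sp (atx e x)) {X : VF I M} (hX : VAt I X x) (a : ι) :
    FSm I (fun y => fT e X y a) x := by
  have hx := mem_chart_source H x
  refine ((msm_ri hx he hs).mulVec (v := fun y i => cp I x X i y) (cp_sm hx hX)
    a).congr_of_eventuallyEq ?_
  filter_upwards [sp_eventually he hs, (chartAt H x).open_source.mem_nhds hx] with y h1 h2
  exact congrFun (fT_chart h2 h1 X) a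

theorem sum_fT (hs : Sp (atx e x)) (X : VF I M) : ∑ a, fT e X x a • e a x = X x := hs.sum_th _

theorem dv_fT (hs : Sp (atx e x)) (X : VF I M) (u : M → V) :
    dv I X u x = ∑ a, fT e X x a • dv I (e a) u x := by
  rw [← dv_vcomb (fun a y => fT e X y a)]; exact dv_vcongr (sum_fT hs X).symm u

end frame

/-- a tangent vector is determined by its action on scalar functions -/
theorem tan_ext' {X Y : VF I M} {x : M}
    (h : ∀ f : M → ℝ, FSm I f x → dv I X f x = dv I Y f x) : X x = Y x := by
  refine tan_ext (mem_chart_source H x) ((finBasis ℝ E).ext_elem fun i => ?_)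
  have hφ : FSm I (extChartAt I x) x := contMDiffAt_extChartAt
  let L := ((finBasis ℝ E).coord i).toContinuousLinearMap
  have := h (fun y => L (extChartAt I x y)) (L.contDiff.contDiffAt.comp_contMDiffAt hφ)
  rwa [dv_clm L (hφ.mdifferentiableAt (by simp)), dv_clm L (hφ.mdifferentiableAt (by simp))] at this

theorem ld_of_oph {φ : OpenPartialHomeomorph M M'} (h1 : ContMDiffOn I I' ∞ φ φ.source)
    (h2 : ContMDiffOn I' I ∞ φ.symm φ.target) {x : M} (hx : x ∈ φ.source) :
    IsLocalDiffeomorphAt I I' ∞ φ x :=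
  ⟨⟨φ.toPartialEquiv, φ.open_source, φ.open_target, h1, h2⟩, hx, fun _ _ => rfl⟩

/-- the differential as a linear map of the model spaces -/
abbrev dmp (I : ModelWithCorners ℝ E H) (I' : ModelWithCorners ℝ E' H') (f : M → M') (x : M) :
    E →ₗ[ℝ] E' := (show E →L[ℝ] E' from mfderiv I I' f x).toLinearMap

theorem fP_rel {f : M → M'} {x : M} (h : IsLocalDiffeomorphAt I I' ∞ f x) {e : ι → VF I M}
    {e' : ι → VF I' M'} (hs : Sp (atx e x)) (hr : ∀ a, mfderiv I I' f x (e a x) = e' a (f x)) :
    fP e x = fP e' (f x) := by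
  have : atx e' (f x) = fun a => dmp I I' f x (atx e x a) := funext fun a => (hr a).symm
  rw [fP, fP, this, hs.prj_map (A := dmp I I' f x) (ld_bij h) (finBasis ℝ E)]

theorem fT_rel {f : M → M'} {x : M} (h : IsLocalDiffeomorphAt I I' ∞ f x) {e : ι → VF I M}
    {e' : ι → VF I' M'} (hs : Sp (atx e x)) (hr : ∀ a, mfderiv I I' f x (e a x) = e' a (f x))
    {X : VF I M} {X' : VF I' M'} (hX : mfderiv I I' f x (X x) = X' (f x)) :
    fT e X x = fT e' X' (f x) := by
  have : atx e' (f x) = fun a => dmp I I' f x (atx e x a) := funext fun a => (hr a).symm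
  rw [fT, fT, this, ← hX]
  exact (hs.th_map (A := dmp I I' f x) (ld_bij h) _ _ _).symm

variable [MeasurableSpace E] [BorelSpace E] [MeasurableSpace E'] [BorelSpace E']
  [MeasurableSpace M] [MeasurableSpace M']

theorem pre_sp (F : Pre I M ι) (x : M) : Sp (atx F.e x) := sp_iff.2 (F.span x)

theorem fr_isP (F : Fr I M ι) (x : M) : IsP (atx F.e x) (Matrix.of fun a b => F.P a b x) :=
  ⟨by ext a b; exact F.P_symm b a x, fun a => F.P_e a x, fun c hc => funext (F.P_ker x c hc)⟩

theorem fr_P (F : Fr I M ι) (a b : ι) (x : M) : F.P a b x = fP F.e x a b :=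
  congrFun (congrFun ((fr_isP F x).eq_prj (pre_sp F.toPre x) (finBasis ℝ E)) a) b

variable [I.Boundaryless] [I'.Boundaryless]

theorem fr_br (F : Fr I M ι) (a b : ι) (x : M) :
    ∑ l, F.c a b l x • F.e l x = br I (F.e a) (F.e b) x := by
  refine tan_ext' (X := fun y => ∑ l, F.c a b l y • F.e l y) fun f hf => ?_
  rw [dv_vcomb, dv_br (F.sm a x) (F.sm b x) (hf.of_le two_le)]
  exact (F.br a b f x (hf.of_le two_le)).symm

theorem fr_c (F : Fr I M ι) (a b l : ι) (x : M) :
    F.c a b l x = fT F.e (br I (F.e a) (F.e b)) x l :=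
  congrFun ((fr_isP F x).eq_th (pre_sp F.toPre x) (finBasis ℝ E) (c := fun l => F.c a b l x)
    (funext fun l => F.c_P a b l x) (fr_br F a b x)) l

variable [BorelSpace M] [T2Space M] [BorelSpace M'] [T2Space M']

theorem fr_dv (F : Fr I M ι) (a : ι) (x : M) : F.dv a x = dvg F.toPre (F.e a) x :=
  (dvg_eq isOpen_univ (fun y _ => F.sm a y) (fun f h1 h2 _ => F.ibp a f h1 h2)
    (fun y _ => F.dv_sm a y) (mem_univ x)).symm

/-- **every `Pre` is a `Fr`** -/
def toFr (F : Pre I M ι) : Fr I M ι where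
  toPre := F
  P a b x := fP F.e x a b
  c a b l x := fT F.e (br I (F.e a) (F.e b)) x l
  dv a := dvg F (F.e a)
  P_sm a b x := msm_fP (fun a => F.sm a x) (pre_sp F x) a b
  c_sm a b l x := sm_fT (fun a => F.sm a x) (pre_sp F x)
    (vAt_br isOpen_univ (fun y _ => F.sm a y) (fun y _ => F.sm b y) (mem_univ x)) l
  dv_sm a x := (dvg_spec isOpen_univ fun y _ => F.sm a y).1 x (mem_univ x)
  P_symm a b _ := prj_symm a b
  P_e a x := (pre_sp F x).sum_prj a
  P_ker x ξ h a := congrFun ((pre_sp F x).isP.ker ξ h) a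
  c_P a b l x := congrFun ((pre_sp F x).prj_th (br I (F.e a) (F.e b) x)) l
  br a b f x hf := (dv_br (F.sm a x) (F.sm b x) hf).symm.trans (dv_fT (pre_sp F x) _ f)
  ibp a f h1 h2 := (dvg_spec isOpen_univ fun y _ => F.sm a y).2 f h1 h2 (subset_univ _)

@[simp] theorem toFr_toPre (F : Pre I M ι) : (toFr F).toPre = F := rfl

theorem toFr_eq (F : Fr I M ι) : toFr F.toPre = F := by
  have h1 : (toFr F.toPre).P = F.P := by funext a b x; exact (fr_P F a b x).symm
  have h2 : (toFr F.toPre).c = F.c := by funext a b l x; exact (fr_c F a b l x).symm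
  have h3 : (toFr F.toPre).dv = F.dv := by funext a x; exact (fr_dv F a x).symm
  cases F
  simp only [toFr] at h1 h2 h3 ⊢
  congr

theorem fr_ext {F G : Fr I M ι} (h : F.toPre = G.toPre) : F = G := by
  rw [← toFr_eq F, h, toFr_eq]

theorem pre_ext {F G : Pre I M ι} (he : F.e = G.e) (hμ : F.μ = G.μ) : F = G := by
  cases F; cases G; simp only at he hμ; subst he hμ; rfl

/-! ### transport under `Iso` -/

section iso
variable {φ : OpenPartialHomeomorph M M'}

theorem iso_ld {F : Pre I M ι} {F' : Pre I' M' ι} (h : Iso F F' φ) {x : M} (hx : x ∈ φ.source) :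
    IsLocalDiffeomorphAt I I' ∞ φ x := ld_of_oph h.sm h.sm' hx

theorem iso_P {F : Fr I M ι} {F' : Fr I' M' ι} (h : Iso F.toPre F'.toPre φ) {x : M}
    (hx : x ∈ φ.source) (a b : ι) : F.P a b x = F'.P a b (φ x) := by
  rw [fr_P, fr_P, fP_rel (iso_ld h hx) (pre_sp _ x) fun a => h.e a x hx]

theorem iso_c {F : Fr I M ι} {F' : Fr I' M' ι} (h : Iso F.toPre F'.toPre φ) {x : M}
    (hx : x ∈ φ.source) (a b l : ι) : F.c a b l x = F'.c a b l (φ x) := by
  have hr : ∀ a, ∀ᶠ y in 𝓝 x, mfderiv I I' φ y (F.e a y) = F'.e a (φ y) := fun a => by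
    filter_upwards [φ.open_source.mem_nhds hx] with y hy using h.e a y hy
  rw [fr_c, fr_c, fT_rel (iso_ld h hx) (pre_sp _ x) (fun a => h.e a x hx)
    (br_rel (iso_ld h hx).contMDiffAt (F.sm a x) (F.sm b x) (F'.sm a _) (F'.sm b _) (hr a) (hr b))]

/-- integrals under a measure preserving partial homeomorphism -/
theorem integral_oph [SecondCountableTopology V] {μ : Measure M} {μ' : Measure M'}
    (hμ : (μ.restrict φ.source).map φ = μ'.restrict φ.target) {g : M → V}
    (hg : ContinuousOn g φ.source) :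
    ∫ x in φ.source, g x ∂μ = ∫ y in φ.target, g (φ.symm y) ∂μ' := by
  have h1 : ∫ x in φ.source, g x ∂μ = ∫ x in φ.source, g (φ.symm (φ x)) ∂μ :=
    setIntegral_congr_fun φ.open_source.measurableSet fun x hx => by simp only [φ.left_inv hx]
  rw [h1, ← hμ, integral_map (φ.continuousOn.aemeasurable φ.open_source.measurableSet)]
  rw [hμ]
  exact (hg.comp φ.continuousOn_symm φ.symm.mapsTo).aestronglyMeasurable
    φ.open_target.measurableSet

omit [BorelSpace M] [BorelSpace M'] in
theorem tsupport_pull {f : M' → V} (hc : HasCompactSupport f) (hs : tsupport f ⊆ φ.target) :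
    IsCompact (φ.symm '' tsupport f) ∧ tsupport (pull φ f) ⊆ φ.symm '' tsupport f := by
  have hK : IsCompact (φ.symm '' tsupport f) :=
    hc.isCompact.image_of_continuousOn (φ.continuousOn_symm.mono hs)
  refine ⟨hK, closure_minimal (fun x hx => ?_) hK.isClosed⟩
  rw [pull, support_indicator] at hx
  exact ⟨φ x, subset_tsupport _ hx.2, φ.left_inv hx.1⟩

omit [BorelSpace M] [BorelSpace M'] in
theorem pull_ev (f : M' → V) {x : M} (hx : x ∈ φ.source) : pull φ f =ᶠ[𝓝 x] f ∘ φ := by
  filter_upwards [φ.open_source.mem_nhds hx] with y hy using indicator_of_mem hy _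

omit [BorelSpace M] [BorelSpace M'] in
theorem sm_pull (h1 : ContMDiffOn I I' ∞ φ φ.source) {f : M' → V} (hf : Sm I' f)
    (hc : HasCompactSupport f) (hs : tsupport f ⊆ φ.target) :
    Sm I (pull φ f) ∧ HasCompactSupport (pull φ f) ∧ tsupport (pull φ f) ⊆ φ.source := by
  obtain ⟨hK, h2⟩ := tsupport_pull hc hs
  have h3 : tsupport (pull φ f) ⊆ φ.source := h2.trans (by
    rintro _ ⟨y, hy, rfl⟩; exact φ.map_target (hs hy))
  refine ⟨fun x => ?_, hK.of_isClosed_subset (isClosed_tsupport _) h2, h3⟩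
  by_cases hx : x ∈ φ.source
  · exact ((hf _).comp x (h1.contMDiffAt (φ.open_source.mem_nhds hx))).congr_of_eventuallyEq
      (pull_ev f hx)
  · exact contMDiffAt_const.congr_of_eventuallyEq
      (notMem_tsupport_iff_eventuallyEq.1 fun h => hx (h3 h))

theorem IsDiv.pull {μ : Measure M} {μ' : Measure M'} (h1 : ContMDiffOn I I' ∞ φ φ.source)
    (h2 : ContMDiffOn I' I ∞ φ.symm φ.target)
    (hμ : (μ.restrict φ.source).map φ = μ'.restrict φ.target) {X : VF I M} {X' : VF I' M'}
    (hX : ∀ x ∈ φ.source, VAt I X x)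
    (hr : ∀ x ∈ φ.source, mfderiv I I' φ x (X x) = X' (φ x)) {d : M' → ℝ}
    (hd : ContinuousOn d φ.target) (h : IsDiv I' μ' X' d φ.target) :
    IsDiv I μ X (d ∘ φ) φ.source := by
  intro f hf hc hs
  obtain ⟨a1, a2, a3⟩ := sm_pull (φ := φ.symm) h2 hf hc hs
  have e := h _ a1 a2 a3
  have n1 : ∀ x, x ∉ φ.source → x ∉ tsupport f := fun x hx h => hx (hs h)
  have n2 : ∀ x, x ∉ φ.target → x ∉ tsupport (An.pull φ.symm f) := fun x hx h => hx (a3 h)
  rw [← setIntegral_eq_integral_of_forall_compl_eq_zero (s := φ.target)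
      fun x hx => dv_eq_zero_of_notMem (n2 x hx),
    ← setIntegral_eq_integral_of_forall_compl_eq_zero (s := φ.target) (f := fun x => d x * _)
      fun x hx => by simp [image_eq_zero_of_notMem_tsupport (n2 x hx)]] at e
  rw [← setIntegral_eq_integral_of_forall_compl_eq_zero (s := φ.source)
      fun x hx => dv_eq_zero_of_notMem (n1 x hx),
    ← setIntegral_eq_integral_of_forall_compl_eq_zero (s := φ.source) (f := fun x => (d ∘ φ) x * _)
      fun x hx => by simp [image_eq_zero_of_notMem_tsupport (n1 x hx)],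
    integral_oph hμ (cont_dv hX hf hs).continuous.continuousOn,
    integral_oph hμ (g := fun x => (d ∘ φ) x * f x)
      ((hd.comp φ.continuousOn φ.mapsTo).mul hf.continuous.continuousOn)]
  convert e using 1
  · refine setIntegral_congr_fun φ.open_target.measurableSet fun y hy => ?_
    have hx := φ.map_target hy
    have h3 : f =ᶠ[𝓝 (φ.symm y)] An.pull φ.symm f ∘ φ := by
      filter_upwards [φ.open_source.mem_nhds hx] with z hz
      rw [Function.comp_apply, (pull_ev (φ := φ.symm) f (φ.map_source hz)).self_of_nhds,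
        Function.comp_apply,
        φ.left_inv hz]
    change dv I X f (φ.symm y) = _
    rw [dv_congr h3, dv_rel ((h1.contMDiffAt (φ.open_source.mem_nhds hx)).mdifferentiableAt
      (by simp)) (hr _ hx) ((a1 _).mdifferentiableAt (by simp)), φ.right_inv hy]
  · congr 1
    refine setIntegral_congr_fun φ.open_target.measurableSet fun y hy => ?_
    simp only [Function.comp_apply, φ.right_inv hy, (pull_ev (φ := φ.symm) f hy).self_of_nhds]

theorem dvg_rel {F : Pre I M ι} {F' : Pre I' M' κ} (h1 : ContMDiffOn I I' ∞ φ φ.source)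
    (h2 : ContMDiffOn I' I ∞ φ.symm φ.target)
    (hμ : (F.μ.restrict φ.source).map φ = F'.μ.restrict φ.target) {X : VF I M} {X' : VF I' M'}
    (hX : ∀ x ∈ φ.source, VAt I X x)
    (hr : ∀ x ∈ φ.source, mfderiv I I' φ x (X x) = X' (φ x)) {x : M} (hx : x ∈ φ.source) :
    dvg F X x = dvg F' X' (φ x) := by
  have hX' : ∀ y ∈ φ.target, VAt I' X' y := fun y hy => by
    have hx := φ.map_target hy
    rw [← φ.right_inv hy]
    refine (vAt_rel (ld_of_oph h1 h2 hx) ?_).1 (hX _ hx)
    filter_upwards [φ.open_source.mem_nhds hx] with z hz using hr z hz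
  obtain ⟨a1, a2⟩ := dvg_spec (F := F') φ.open_target hX'
  exact dvg_eq φ.open_source hX (a2.pull h1 h2 hμ hX hr
    fun y hy => (a1 y hy).continuousAt.continuousWithinAt) (fun y hy =>
      (a1 _ (φ.map_source hy)).comp y (h1.contMDiffAt (φ.open_source.mem_nhds hy))) hx

theorem iso_dv {F : Fr I M ι} {F' : Fr I' M' ι} (h : Iso F.toPre F'.toPre φ) {x : M}
    (hx : x ∈ φ.source) (a : ι) : F.dv a x = F'.dv a (φ x) := by
  rw [fr_dv, fr_dv, dvg_rel h.sm h.sm' h.μ (fun y _ => F.sm a y) (h.e a) hx]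

end iso

/-! ### the divergence of the Riemannian measure -/

section jacobi
variable {n : Type} [Fintype n] [DecidableEq n]

theorem differentiable_det : Differentiable ℝ fun B : n → n → ℝ => Matrix.det (Matrix.of B) := by
  simp only [det_apply', of_apply]
  fun_prop

theorem fderiv_det {A : Matrix n n ℝ} (h : IsUnit A.det) (B : Matrix n n ℝ) :
    fderiv ℝ (fun B : n → n → ℝ => Matrix.det (Matrix.of B)) A B = A.det * (A⁻¹ * B).trace := by
  have h0 : ∀ B : Matrix n n ℝ, HasDerivAt (fun t : ℝ => (1 + t • B).det) B.trace 0 := fun B => by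
    rw [funext fun t : ℝ => Matrix.det_one_add_smul t B]
    have h0 : HasDerivAt (fun t : ℝ => t) 1 0 := hasDerivAt_id 0
    refine (((h0.const_mul B.trace).const_add 1).add ((Polynomial.hasDerivAt _ (0 : ℝ)).mul
      (h0.pow 2))).congr_deriv ?_
    simp
  let A' : n → n → ℝ := A
  let B' : n → n → ℝ := B
  have h3 : HasDerivAt (fun t : ℝ => A' + t • B') B' 0 := by
    simpa using ((hasDerivAt_id (0 : ℝ)).smul_const B').const_add A'
  have h4 := (differentiable_det (A' + (0 : ℝ) • B')).hasFDerivAt.comp_hasDerivAt (0 : ℝ) h3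
  have h6 : ((fun B : n → n → ℝ => Matrix.det (Matrix.of B)) ∘ fun t : ℝ => A' + t • B')
      = fun t : ℝ => A.det * (1 + t • (A⁻¹ * B)).det := by
    ext t
    rw [← Matrix.det_mul, Matrix.mul_add, Matrix.mul_one, Matrix.mul_smul, ← Matrix.mul_assoc,
      Matrix.mul_nonsing_inv _ h, Matrix.one_mul]
    rfl
  rw [h6, zero_smul, add_zero] at h4
  exact h4.unique ((h0 _).const_mul _)

omit [MeasurableSpace M] [BorelSpace M] [T2Space M] in
/-- Jacobi's formula -/
theorem dv_det {A : M → Matrix n n ℝ} {x : M} (hA : MSm I A x) (h : IsUnit (A x).det) (X : VF I M) :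
    dv I X (fun y => (A y).det) x =
      (A x).det * ((A x)⁻¹ * Matrix.of fun i j => dv I X (fun y => A y i j) x).trace := by
  have h1 := (MSm.iff_pi.1 hA).mdifferentiableAt (by simp)
  have h2 := dv_comp (e := X) h1 (differentiable_det _).hasFDerivAt
  have h3 : dv I X (fun y i j => A y i j) x = fun i j => dv I X (fun y => A y i j) x := by
    funext i j
    exact (dv_clm ((ContinuousLinearMap.proj (R := ℝ) (φ := fun _ : n => ℝ) j).comp
      (ContinuousLinearMap.proj (R := ℝ) (φ := fun _ : n => n → ℝ) i)) h1).symm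
  rw [h3] at h2
  exact h2.trans (fderiv_det h _)

end jacobi

omit [MeasurableSpace M] [BorelSpace M] [T2Space M] in
theorem ldv_rjb {e : ι → VF I M} {p x : M} (hx : x ∈ (chartAt H p).source)
    (he : ∀ a, VAt I (e a) x) (hs : Sp (atx e x)) {X : VF I M} (hX : VAt I X x) :
    ldv I p (fun y => rjb (finBasis ℝ E) (inc I p e y)) X x = ∑ b, fT e (br I (e b) X) x b := by
  have hs' := sp_inc hx hs
  set b := finBasis ℝ E
  set A : M → Matrix _ ι ℝ := fun y => fm b (inc I p e y)
  set G : M → Matrix _ _ ℝ := fun y => gm b (inc I p e y)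
  set R := ri b (inc I p e x)
  set r : M → ℝ := fun y => rjb b (inc I p e y)
  have hA : MSm I A x := msm_fm hx he
  have hG : MSm I G x := msm_gm hx he
  have hr : FSm I r x := sm_rjb hx he hs
  have h0 : 0 < r x := hs'.rjb_pos
  have hd : 0 < (G x).det := hs'.det_pos
  set A' : Matrix _ ι ℝ := Matrix.of fun i a => dv I X (fun y => A y i a) x
  -- the logarithmic derivative of the density
  have h1 : dv I X r x = -(r x * (R * A').trace) := by
    have g1 : HasDerivAt (fun t : ℝ => (√t)⁻¹) (-(1 / (2 * √(G x).det)) / √(G x).det ^ 2)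
        (G x).det := (Real.hasDerivAt_sqrt hd.ne').inv (Real.sqrt_pos.2 hd).ne'
    have g2 := dv_comp (e := X) (hG.det.mdifferentiableAt (by simp)) g1.hasFDerivAt
    have g3 : (Matrix.of fun i j => dv I X (fun y => G y i j) x) = A' * (A x)ᵀ + A x * A'ᵀ := by
      ext i j
      simp only [of_apply, G, gm, mul_apply, transpose_apply, Matrix.add_apply,
        ← Finset.sum_add_distrib]
      rw [dv_sum _ fun a _ => ((hA i a).mul' (hA j a)).mdifferentiableAt (by simp)]
      exact Finset.sum_congr rfl fun a _ => dv_mul (hA i a) (hA j a)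
    have g4 : ((G x)⁻¹ * (A' * (A x)ᵀ + A x * A'ᵀ)).trace = 2 * (R * A').trace := by
      have : ((G x)⁻¹)ᵀ = (G x)⁻¹ := by rw [transpose_nonsing_inv, gm_transpose]
      rw [Matrix.mul_add, trace_add, ← trace_transpose ((G x)⁻¹ * (A x * A'ᵀ)), transpose_mul,
        transpose_mul, transpose_transpose, this, ← Matrix.mul_assoc, trace_mul_comm _ (A x)ᵀ,
        Matrix.mul_assoc A', trace_mul_comm A', ← Matrix.mul_assoc, two_mul]
      rfl
    rw [dv_det hG hd.ne'.isUnit, g3, g4] at g2
    refine g2.trans ?_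
    have := Real.sqrt_pos.2 hd
    simp only [ContinuousLinearMap.toSpanSingleton_apply, smul_eq_mul, r, rjb, Real.sq_sqrt hd.le]
    change _ = -((√(G x).det)⁻¹ * _)
    field_simp
  have h2 : ∀ i, ∀ u : M → ℝ, dv I (cf I p (b i)) u x = ∑ a, R a i * dv I (e a) u x := by
    intro i u
    rw [dv_fT hs, fT_chart hx hs, dv_cf hx]
    refine Finset.sum_congr rfl fun a _ => ?_
    simp [th, R, b, mulVec, dotProduct, Finsupp.single_apply]
  have hφ : FSm I (extChartAt I p) x := contMDiffAt_extChartAt' hx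
  have h3 : ∀ {Y Z : VF I M}, VAt I Z x → ∀ i, b.repr (dv I Y (dv I Z (extChartAt I p)) x) i =
      dv I Y (cp I p Z i) x := fun hZ i =>
    (dv_clm (b.coord i).toContinuousLinearMap (((vAt_iff hx).1 hZ).mdifferentiableAt
      (by simp))).symm
  have h4 : ∀ a, fT e (br I (e a) X) x a =
      ∑ i, R a i * (dv I (e a) (cp I p X i) x - A' i a) := fun a => by
    rw [fT_chart hx hs, dv_br (he a) hX (hφ.of_le two_le)]
    simp only [th, mulVec, dotProduct, map_sub, Finsupp.sub_apply]
    exact Finset.sum_congr rfl fun i _ => by rw [h3 hX, h3 (he a)]; rfl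
  have h5 : ∑ i, dv I (cf I p (b i)) r x * cp I p X i x = dv I X r x := by
    rw [dv_cp hx X r]; exact Finset.sum_congr rfl fun i _ => mul_comm _ _
  simp only [ldv, h4]
  rw [Finset.sum_congr rfl fun i _ => dv_mul hr (cp_sm hx hX i), Finset.sum_add_distrib, h5, h1,
    ← Finset.mul_sum, neg_add_eq_sub, ← mul_sub, inv_mul_cancel_left₀ h0.ne']
  simp only [mul_sub, Finset.sum_sub_distrib]
  rw [Finset.sum_comm, Finset.sum_congr rfl fun i _ => h2 i _]
  rfl

theorem gram_eq (F : Pre I M ι) (p x : M) : F.gram p x = gm (finBasis ℝ E) (inc I p F.e x) := by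
  ext i j; exact (gm_apply i j).symm

theorem dvg_vol {F : Pre I M ι} (h : F.IsVol) {X : VF I M} {U : Set M} (hU : IsOpen U)
    (hX : ∀ y ∈ U, VAt I X y) {x : M} (hx : x ∈ U) :
    dvg F X x = ∑ b, fT F.e (br I (F.e b) X) x b := by
  obtain ⟨O, hO⟩ := h x
  have hs : ∀ y ∈ O, y ∈ (chartAt H x).source := fun y hy => by simpa using hO.2.2.1 hy
  let r : M → ℝ := fun y => rjb (finBasis ℝ E) (inc I x F.e y)
  have hr : ∀ y ∈ O, FSm I r y := fun y hy => sm_rjb (hs y hy) (fun a => F.sm a y) (pre_sp F y)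
  have hρ : ∀ y, (√(F.gram x ((extChartAt I x).symm y)).det)⁻¹ = r ((extChartAt I x).symm y) :=
    fun y => by rw [gram_eq]; rfl
  simp only [hρ] at hO
  obtain ⟨χ, c1, -, c3, -, c5⟩ := exists_bump (I := I) (hU.mem_nhds hx)
  have hX' : ∀ z, VAt I (fun z => χ z • X z) z := fun z => VAt.cutoff (c1 z) c3 (hX z)
  have h1 := isDiv_ldv hO (by
    rintro _ ⟨y, hy, rfl⟩
    exact (chart_contDiffAt le_rfl (hs y hy) (hr y hy)).contDiffWithinAt) (by
    rintro _ ⟨y, hy, rfl⟩
    rw [(extChartAt I x).left_inv (hO.2.2.1 hy)]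
    exact (sp_inc (hs y hy) (pre_sp F y)).rjb_pos) fun z _ => hX' z
  have h2 : IsDiv I F.μ (fun z => χ z • X z)
      (fun y => ∑ b, fT F.e (br I (F.e b) fun z => χ z • X z) y b) O := by
    refine h1.congr (fun _ _ => rfl) fun y hy => ?_
    rw [← ldv_rjb (hs y hy) (fun a => F.sm a y) (pre_sp F y) (hX' y)]
    have e : (fun z => r ((extChartAt I x).symm (extChartAt I x z))) =ᶠ[𝓝 y] r := by
      filter_upwards [hO.1.mem_nhds hy] with z hz
      rw [(extChartAt I x).left_inv (hO.2.2.1 hz)]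
    unfold ldv
    rw [e.self_of_nhds]
    congr 1
    exact Finset.sum_congr rfl fun i _ => dv_congr (e.mono fun z hz => by simp only [hz]; rfl)
  have hW : IsOpen (O ∩ U ∩ {z | χ =ᶠ[𝓝 z] 1}) :=
    (hO.1.inter hU).inter isOpen_setOfPred_eventually_nhds
  have hb : ∀ b, ∀ y ∈ O ∩ U ∩ {z | χ =ᶠ[𝓝 z] 1},
      br I (F.e b) X y = br I (F.e b) (fun z => χ z • X z) y := fun b y hy =>
    br_congr (.of_forall fun _ => rfl) (hy.2.mono fun z hz => by simp [hz])
  refine dvg_eq hW (fun y hy => hX y hy.1.2) (d := fun y => ∑ b, fT F.e (br I (F.e b) X) y b)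
    ((h2.mono fun y hy => hy.1.1).congr (fun y hy => by simp [hy.2.self_of_nhds])
      fun y hy => ?_) (fun y hy => FSm.sum' fun b _ => sm_fT (fun a => F.sm a y) (pre_sp F y)
        (vAt_br hU (fun z _ => F.sm b z) hX hy.1.2) b) ⟨⟨hO.2.1, hx⟩, c5⟩
  exact Finset.sum_congr rfl fun b _ => by simp only [fT, hb b y hy]

/-- **the Riemannian divergence** -/
theorem dv_vol {F : Fr I M ι} (h : F.IsVol) (a : ι) (x : M) :
    F.dv a x = ∑ b, ∑ l, F.c b a l x * F.P l b x := by
  rw [fr_dv, dvg_vol h isOpen_univ (fun y _ => F.sm a y) (mem_univ x)]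
  refine Finset.sum_congr rfl fun b _ => ?_
  rw [← fr_c, ← F.c_P]
  exact Finset.sum_congr rfl fun l _ => by rw [mul_comm, F.P_symm]

end Crest.Agent.X212.Met55
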