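import Crest.Agent.X212.Met55.Co
import Crest.Agent.X212.Met55.Fr
import Crest.Agent.X212.Prm93.Js

/-! Frames: recombination, deformation with the same projector, rotation, existence, patching,
padding, families. -/

set_option linter.unusedSectionVars false

open scoped Manifold ContDiff Topology
open Set Filter Function Module Matrix

noncomputable section
namespace Crest.Agent.X212.Met55

open Sob92 Pj41 An Cyl58

variable {E : Type} [NormedAddCommGroup E] [NormedSpace ℝ E] [FiniteDimensional ℝ E]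
  {H : Type} [TopologicalSpace H] {I : ModelWithCorners ℝ E H}
  {M : Type} [TopologicalSpace M] [ChartedSpace H M] [IsManifold I ∞ M]
  {E' : Type} [NormedAddCommGroup E'] [NormedSpace ℝ E'] [FiniteDimensional ℝ E']
  {H' : Type} [TopologicalSpace H'] {I' : ModelWithCorners ℝ E' H'}
  {M' : Type} [TopologicalSpace M'] [ChartedSpace H' M'] [IsManifold I' ∞ M']
  {V : Type} [NormedAddCommGroup V] [NormedSpace ℝ V] {ι κ : Type} [Fintype ι] [Fintype κ]

/-- smooth and spanning at `x` -/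
structure FAt (e : ι → VF I M) (x : M) : Prop where
  sm : ∀ a, VAt I (e a) x
  sp : Sp (atx e x)

/-- recombination of a family of vector fields -/
def mixF (S : M → Matrix κ ι ℝ) (e : ι → VF I M) : κ → VF I M := fun a x => ∑ c, S x a c • e c x

theorem atx_mixF (S : M → Matrix κ ι ℝ) (e : ι → VF I M) (x : M) :
    atx (mixF S e) x = mix (S x) (atx e x) := rfl

theorem vAt_mixF {S : M → Matrix κ ι ℝ} {e : ι → VF I M} {x : M} (hS : MSm I S x)
    (he : ∀ a, VAt I (e a) x) (a : κ) : VAt I (mixF S e a) x := VAt.comb (hS a) he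

theorem dv_mixF (S : M → Matrix κ ι ℝ) (e : ι → VF I M) (a : κ) (u : M → V) (x : M) :
    dv I (mixF S e a) u x = ∑ c, S x a c • dv I (e c) u x := dv_vcomb (fun c y => S y a c) e u x

/-- the coefficient matrix of `w` in the frame `e` -/
def fM (e : ι → VF I M) (w : κ → VF I M) (x : M) : Matrix ι κ ℝ :=
  tm (finBasis ℝ E) (atx e x) (atx w x)

theorem fM_apply (e : ι → VF I M) (w : κ → VF I M) (x : M) (a : ι) (k : κ) :
    fM e w x a k = fT e (w k) x a := tm_apply a k

theorem msm_fM {e : ι → VF I M} {w : κ → VF I M} {x : M} (he : FAt e x)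
    (hw : ∀ k, VAt I (w k) x) : MSm I (fM e w) x := fun a k => by
  simp only [fM_apply]; exact sm_fT he.sm he.sp (hw k) a

theorem FAt.isP {e : ι → VF I M} {x : M} (he : FAt e x) : IsP (atx e x) (fP e x) := he.sp.isP

theorem FAt.msm_fP {e : ι → VF I M} {x : M} (he : FAt e x) : MSm I (fP e) x :=
  Met55.msm_fP he.sm he.sp

theorem fP_eq {e : ι → VF I M} {x : M} (hs : Sp (atx e x)) {P : Matrix ι ι ℝ}
    (h : IsP (atx e x) P) : fP e x = P := (h.eq_prj hs _).symm

theorem sum_fM {e : ι → VF I M} {x : M} (hs : Sp (atx e x)) (w : κ → VF I M) (k : κ) :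
    ∑ a, fM e w x a k • e a x = w k x := by
  simp only [fM_apply]; exact sum_fT hs _

/-- rotation between two frames of the same metric -/
theorem fM_rot {e : ι → VF I M} {w : κ → VF I M} {x : M} (hs : Sp (atx e x))
    (h : Co (atx e x) (atx w x)) :
    fM e w x * (fM e w x)ᵀ = fP e x ∧ (fM e w x)ᵀ * fM e w x = fP w x := ⟨h.tm_mul hs, h.mul_tm hs⟩

variable [DecidableEq ι]

/-- the matrix of the cometric `∑ D k l • w k ⊗ w l` in the frame `e` -/
def fC (e : ι → VF I M) (w : κ → VF I M) (D : Matrix κ κ ℝ) (x : M) : Matrix ι ι ℝ :=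
  coH (finBasis ℝ E) (atx e x) (atx w x) D

theorem fC_eq (e : ι → VF I M) (w : κ → VF I M) (D : Matrix κ κ ℝ) (x : M) :
    fC e w D x = fM e w x * D * (fM e w x)ᵀ + (1 - fP e x) := rfl

theorem adm_fC {e : ι → VF I M} {w : κ → VF I M} {x : M} (he : Sp (atx e x)) (hw : Sp (atx w x))
    {D : Matrix κ κ ℝ} (hD : D.PosDef) : Adm (fP e x) (fC e w D x) := he.adm_coH hw hD

theorem hb_fC {e : ι → VF I M} {x : M} (he : Sp (atx e x)) (w : κ → VF I M) (D : Matrix κ κ ℝ) :
    hb (atx e x) (fC e w D x) = hb (atx w x) D := he.hb_coH D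

theorem fC_nrm {e : ι → VF I M} {x : M} (he : Sp (atx e x)) (w : κ → VF I M) (D : Matrix κ κ ℝ) :
    fC e w D x * (1 - fP e x) = 1 - fP e x := by
  have h1 : (fM e w x)ᵀ * fP e x = (fM e w x)ᵀ := he.tm_prj
  have h2 : fP e x * fP e x = fP e x := he.prj_prj
  rw [fC_eq, Matrix.add_mul, Matrix.mul_assoc, Matrix.mul_sub (fM e w x)ᵀ, h1, Matrix.mul_one,
    sub_self, Matrix.mul_zero, zero_add, Matrix.sub_mul, Matrix.mul_sub (fP e x), h2]
  simp

/-- smoothness of `fC` along a map from any manifold (for instance `T × M → M`) -/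
theorem msm_fC {e : ι → VF I M} {w : κ → VF I M} {f : M' → M} {z : M'} (hf : ContMDiffAt I' I ∞ f z)
    (he : FAt e (f z)) (hw : ∀ k, VAt I (w k) (f z)) {D : M' → Matrix κ κ ℝ} (hD : MSm I' D z) :
    MSm I' (fun y => fC e w (D y) (f y)) z :=
  ((((msm_fM he hw).comp hf).mul hD).mul ((msm_fM he hw).comp hf).transpose).add
    ((MSm.const 1).sub (he.msm_fP.comp hf))

theorem msm_sq {A : M → Matrix ι ι ℝ} {x : M} (hA : MSm I A x) (hx : (A x).PosDef)
    (hh : ∀ᶠ y in 𝓝 x, (A y)ᵀ = A y) : MSm I (fun y => sq (A y)) x :=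
  hA.sqrt hx (hh.mono fun y hy => by
    rwa [IsHermitian, conjTranspose_eq_transpose_of_trivial])

/-- the frame of the cometric `A`, with the projector of `e` -/
def dfm (A : M → Matrix ι ι ℝ) (e : ι → VF I M) : ι → VF I M := mixF (fun x => sq (A x)) e

section dfm
variable {A : M → Matrix ι ι ℝ} {e : ι → VF I M} {x : M}

theorem sp_dfm (hs : Sp (atx e x)) (hA : Adm (fP e x) (A x)) : Sp (atx (dfm A e) x) :=
  hs.mix hA.sq.unit

theorem fP_dfm (hs : Sp (atx e x)) (hA : Adm (fP e x) (A x)) : fP (dfm A e) x = fP e x :=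
  fP_eq (sp_dfm hs hA) (hA.sq.isP hs.isP)

theorem hb_dfm (hA : Adm (fP e x) (A x)) : hb (atx (dfm A e) x) 1 = hb (atx e x) (A x) := hA.hb_sq

theorem FAt.dfm (he : FAt e x) (hA : MSm I A x) (hx : Adm (fP e x) (A x))
    (hh : ∀ᶠ y in 𝓝 x, (A y)ᵀ = A y) : FAt (dfm A e) x :=
  ⟨vAt_mixF (msm_sq hA hx.pos hh) he.sm, sp_dfm he.sp hx⟩

theorem dfm_of_one (h : A x = 1) (a : ι) : dfm A e a x = e a x := by
  have : atx (dfm A e) x = atx e x := by rw [dfm, atx_mixF, h, sq_one, mix_one]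
  exact congrFun this a

theorem dfm_of_sq {S : Matrix ι ι ℝ} (hS : S.PosDef) (h : A x = S * S) (a : ι) :
    dfm A e a x = ∑ c, S a c • e c x := by
  simp only [dfm, mixF, h, sq_mul_self hS]

theorem dfm_of_diag {d : ι → ℝ} (hd : ∀ a, 0 < d a) (h : A x = diagonal fun a => d a ^ 2) (a : ι) :
    dfm A e a x = d a • e a x := by
  rw [dfm_of_sq (S := diagonal d) (PosDef.diagonal hd) (by simp [h, pow_two])]
  simp [diagonal_apply]

theorem co_dfm [DecidableEq κ] {w : κ → VF I M} (hA : Adm (fP e x) (A x))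
    (h : hb (atx e x) (A x) = hb (atx w x) 1) : Co (atx (dfm A e) x) (atx w x) :=
  co_iff.2 ((hb_dfm hA).trans h)

theorem rj_dfm (hs : Sp (atx e x)) (hA : Adm (fP e x) (A x))
    (hQ : A x * (1 - fP e x) = 1 - fP e x) : rj (dfm A e) x = (√(A x).det)⁻¹ * rj e x :=
  hA.rjb_mix hs hQ

end dfm

/-! ### existence, patching, padding -/

omit [DecidableEq ι]

theorem sp_cf {p x : M} (hx : x ∈ (chartAt H p).source) :
    Sp (atx (fun i => cf I p (finBasis ℝ E i)) x) := fun w =>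
  ⟨fun i => cp I p (fun _ => w) i x, (sum_cp hx fun _ => w).symm⟩

/-- a finite family of smooth fields, supported in `O`, spanning on the compact set `K` -/
theorem exists_frame_on [T2Space M] {K O : Set M} (hK : IsCompact K) (hO : IsOpen O)
    (h : K ⊆ O) : ∃ (N : ℕ) (f : Fin N → VF I M) (C : Set M), IsCompact C ∧ C ⊆ O ∧
      (∀ a x, VAt I (f a) x) ∧ (∀ x ∈ K, Sp (atx f x)) ∧ ∀ a, ∀ x ∉ C, f a x = 0 := by
  classical
  have hb : ∀ p ∈ K, ∃ χ : M → ℝ, Sm I χ ∧ HasCompactSupport χ ∧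
      tsupport χ ⊆ O ∩ (chartAt H p).source ∧ χ =ᶠ[𝓝 p] 1 := fun p hp => by
    obtain ⟨χ, h1, h2, h3, -, h4⟩ := exists_bump (I := I)
      ((hO.inter (chartAt H p).open_source).mem_nhds ⟨h hp, mem_chart_source H p⟩)
    exact ⟨χ, h1, h2, h3, h4⟩
  choose! χ h1 h2 h3 h4 using hb
  obtain ⟨t, ht, hcov⟩ := hK.elim_nhds_subcover (fun x => {y | χ x y = 1}) fun x hx => h4 x hx
  let σ := (Fintype.equivFin (t × Fin (finrank ℝ E))).symm
  refine ⟨_, fun a x => χ (σ a).1 x • cf I ((σ a).1 : M) (finBasis ℝ E (σ a).2) x,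
    ⋃ p ∈ t, tsupport (χ p), t.isCompact_biUnion fun p hp => h2 p (ht p hp),
    iUnion₂_subset fun p hp => (h3 p (ht p hp)).trans inter_subset_left, fun a x => ?_,
    fun x hx => ?_, fun a x hx => ?_⟩
  · have := ht _ (σ a).1.2
    exact VAt.cutoff (h1 _ this x) (h3 _ this) fun hx => vAt_cf hx.2 _
  · obtain ⟨p, hp, hxp⟩ := mem_iUnion₂.1 (hcov hx)
    have hxp : χ p x = 1 := hxp
    have hx' := h3 p (ht p hp) (subset_tsupport _ (show χ p x ≠ 0 by simp [hxp]))
    refine (sp_cf (I := I) hx'.2).of_range fun i => ⟨1, σ.symm (⟨p, hp⟩, i), ?_⟩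
    simp [atx, hxp]
  · have : x ∉ tsupport (χ (σ a).1) := fun h' => hx (mem_iUnion₂.2 ⟨_, (σ a).1.2, h'⟩)
    simp [image_eq_zero_of_notMem_tsupport this]

theorem exists_frame [T2Space M] [CompactSpace M] :
    ∃ (N : ℕ) (f : Fin N → VF I M), ∀ x, FAt f x := by
  obtain ⟨N, f, -, -, -, h1, h2, -⟩ :=
    exists_frame_on (I := I) isCompact_univ isOpen_univ (subset_refl (univ : Set M))
  exact ⟨N, f, fun x => ⟨fun a => h1 a x, h2 x trivial⟩⟩

/-- a cut-off equal to one near a compact set -/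
theorem exists_cut [T2Space M] {K O : Set M} (hK : IsCompact K) (hO : IsOpen O) (h : K ⊆ O) :
    ∃ χ : M → ℝ, Sm I χ ∧ HasCompactSupport χ ∧ tsupport χ ⊆ O ∧ (∀ y, 0 ≤ χ y ∧ χ y ≤ 1) ∧
      ∀ x ∈ K, χ =ᶠ[𝓝 x] 1 := by
  refine hK.induction_on (p := fun s => ∃ χ : M → ℝ, Sm I χ ∧ HasCompactSupport χ ∧
    tsupport χ ⊆ O ∧ (∀ y, 0 ≤ χ y ∧ χ y ≤ 1) ∧ ∀ x ∈ s, χ =ᶠ[𝓝 x] 1)
    ⟨0, contMDiff_const, HasCompactSupport.zero, by simp, by simp, by simp⟩ ?_ ?_ ?_
  · rintro s t hst ⟨χ, h1, h2, h3, h4, h5⟩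
    exact ⟨χ, h1, h2, h3, h4, fun x hx => h5 x (hst hx)⟩
  · rintro s t ⟨χ, h1, h2, h3, h4, h5⟩ ⟨ψ, g1, g2, g3, g4, g5⟩
    have hs : tsupport (fun y => χ y + (1 - χ y) * ψ y) ⊆ tsupport χ ∪ tsupport ψ :=
      (tsupport_add _ _).trans (union_subset_union_right _ tsupport_mul_subset_right)
    refine ⟨fun y => χ y + (1 - χ y) * ψ y, h1.add ((contMDiff_const.sub h1).smul g1),
      (h2.union g2).of_isClosed_subset (isClosed_tsupport _) hs, hs.trans (union_subset h3 g3),
      fun y => ?_, fun x hx => ?_⟩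
    · constructor <;> nlinarith [h4 y, g4 y]
    · rcases hx with hx | hx
      · filter_upwards [h5 x hx] with y hy
        simp [hy]
      · filter_upwards [g5 x hx] with y hy
        simp [hy]
  · intro x hx
    obtain ⟨χ, h1, h2, h3, h4, h5⟩ := exists_bump (I := I) (hO.mem_nhds (h hx))
    exact ⟨_, mem_nhdsWithin_of_mem_nhds h5.eventually_nhds, χ, h1, h2, h3, h4, fun _ hy => hy⟩

/-- a frame given off a compact set is the part of a global frame -/
theorem exists_patch [T2Space M] {e : ι → VF I M} {K O : Set M} (hK : IsCompact K) (hO : IsOpen O)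
    (h : K ⊆ O) (he : ∀ x ∉ K, FAt e x) : ∃ (N : ℕ) (r : ι ⊕ Fin N → VF I M) (C : Set M),
      IsCompact C ∧ C ⊆ O ∧ (∀ x, FAt r x) ∧
        ∀ x ∉ C, (∀ a, r (.inl a) x = e a x) ∧ ∀ i, r (.inr i) x = 0 := by
  obtain ⟨χ, h1, h2, h3, -, h5⟩ := exists_cut (I := I) hK hO h
  obtain ⟨N, f, C, c1, c2, c3, c4, c5⟩ := exists_frame_on (I := I) h2.isCompact hO h3
  refine ⟨N, Sum.elim (fun a x => (1 - χ x) • e a x) f, tsupport χ ∪ C, h2.isCompact.union c1,
    union_subset h3 c2, fun x => ⟨?_, ?_⟩, fun x hx => ⟨fun a => ?_, fun i => c5 i x fun h' =>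
      hx (.inr h')⟩⟩
  · rintro (a | i)
    · by_cases hx : x ∈ K
      · refine VAt.zero.congr ((h5 x hx).mono fun y hy => ?_)
        simp [hy]
      · exact VAt.smul (contMDiffAt_const.sub (h1 x)) ((he x hx).sm a)
    · exact c3 i x
  · by_cases hx : x ∈ tsupport χ
    · exact (c4 x hx).of_range fun i => ⟨1, .inr i, by simp [atx]⟩
    · have h0 := image_eq_zero_of_notMem_tsupport hx
      have hK' : x ∉ K := fun h' => by simpa [h0] using (h5 x h').self_of_nhds
      exact (he x hK').sp.of_range fun a => ⟨1, .inl a, by simp [atx, h0]⟩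
  · have : x ∉ tsupport χ := fun h' => hx (.inl h')
    simp [image_eq_zero_of_notMem_tsupport this]

/-- extension of the index set by zero fields -/
def pad (g : ι → κ) (e : ι → VF I M) : κ → VF I M := extend g e 0

theorem pad_apply {g : ι → κ} (hg : Injective g) (e : ι → VF I M) (a : ι) : pad g e (g a) = e a :=
  hg.extend_apply _ _ a

theorem pad_of_notMem {g : ι → κ} (e : ι → VF I M) {k : κ} (hk : k ∉ range g) : pad g e k = 0 :=
  extend_apply' _ _ _ hk

theorem atx_pad [DecidableEq ι] [DecidableEq κ] {g : ι → κ} (hg : Injective g) (e : ι → VF I M)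
    (x : M) : atx (pad g e) x = mix (emb g) (atx e x) := by
  rw [mix_emb hg]
  funext k
  by_cases hk : k ∈ range g
  · obtain ⟨a, rfl⟩ := hk
    rw [hg.extend_apply, atx, pad_apply hg]
  · rw [extend_apply' _ _ _ hk, atx, pad_of_notMem e hk]; rfl

theorem FAt.pad {g : ι → κ} (hg : Injective g) {e : ι → VF I M} {x : M} (he : FAt e x) :
    FAt (pad g e) x := by
  refine ⟨fun k => ?_, he.sp.of_range fun a => ⟨1, g a, by simp [atx, pad_apply hg]⟩⟩
  by_cases hk : k ∈ range g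
  · obtain ⟨a, rfl⟩ := hk
    rw [pad_apply hg]; exact he.sm a
  · rw [pad_of_notMem e hk]; exact VAt.zero

theorem co_pad {g : ι → κ} (hg : Injective g) {e : ι → VF I M} {x : M} (hs : Sp (atx e x)) :
    Co (atx e x) (atx (pad g e) x) := by
  classical
  rw [atx_pad hg]
  exact ((hs.isP (b := finBasis ℝ E)).mix_iso (emb_iso hg)).1

/-! ### frames and local diffeomorphisms -/

theorem atx_rel {f : M → M'} {x : M} {e : ι → VF I M} {e' : ι → VF I' M'}
    (hr : ∀ a, mfderiv I I' f x (e a x) = e' a (f x)) :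
    atx e' (f x) = fun a => dmp I I' f x (atx e x a) := funext fun a => (hr a).symm

theorem sp_rel {f : M → M'} {x : M} (h : IsLocalDiffeomorphAt I I' ∞ f x) {e : ι → VF I M}
    {e' : ι → VF I' M'} (hr : ∀ a, mfderiv I I' f x (e a x) = e' a (f x)) :
    Sp (atx e x) ↔ Sp (atx e' (f x)) := by
  rw [atx_rel hr]
  refine ⟨fun hs => hs.map (ld_bij h).2, fun hs w => ?_⟩
  obtain ⟨c, hc⟩ := hs (dmp I I' f x w)
  refine ⟨c, (ld_bij h).1 (hc.trans ?_)⟩
  change _ = dmp I I' f x _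
  simp only [map_sum, map_smul]

theorem fAt_rel {f : M → M'} {x : M} (h : IsLocalDiffeomorphAt I I' ∞ f x) {e : ι → VF I M}
    {e' : ι → VF I' M'} (hr : ∀ a, ∀ᶠ y in 𝓝 x, mfderiv I I' f y (e a y) = e' a (f y)) :
    FAt e x ↔ FAt e' (f x) :=
  ⟨fun he => ⟨fun a => (vAt_rel h (hr a)).1 (he.sm a),
      (sp_rel h fun a => (hr a).self_of_nhds).1 he.sp⟩,
    fun he => ⟨fun a => (vAt_rel h (hr a)).2 (he.sm a),
      (sp_rel h fun a => (hr a).self_of_nhds).2 he.sp⟩⟩

theorem FAt.pbv {f : M → M'} {x : M} (h : IsLocalDiffeomorphAt I I' ∞ f x) {e' : ι → VF I' M'}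
    (he : FAt e' (f x)) : FAt (fun a => pbv I I' f (e' a)) x :=
  (fAt_rel h fun a => (ld_eventually h).mono fun _ hy => pbv_rel hy (e' a)).2 he

theorem FAt.pfv {f : M → M'} (hf : IsOE I I' f) {e : ι → VF I M} {x : M} (he : FAt e x) :
    FAt (fun a => pfv I I' f (e a)) (f x) :=
  (fAt_rel (hf.loc x) fun a => .of_forall (pfv_rel hf.inj (e a))).1 he

theorem FAt.congr {e e' : ι → VF I M} {x : M} (he : FAt e x) (h : ∀ᶠ y in 𝓝 x, ∀ a, e' a y = e a y) :
    FAt e' x := ⟨fun a => (he.sm a).congr (h.mono fun _ hy => hy a), by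
  have : atx e' x = atx e x := funext h.self_of_nhds
  rw [this]; exact he.sp⟩

theorem mixF_rel {f : M → M'} {x : M} {e : ι → VF I M} {e' : ι → VF I' M'}
    (hr : ∀ a, mfderiv I I' f x (e a x) = e' a (f x)) {S : M → Matrix κ ι ℝ}
    {S' : M' → Matrix κ ι ℝ} (hS : S x = S' (f x)) (k : κ) :
    mfderiv I I' f x (mixF S e k x) = mixF S' e' k (f x) := by
  simp only [mixF, map_sum, map_smul, hr, hS]

theorem fM_rel {f : M → M'} {x : M} (h : IsLocalDiffeomorphAt I I' ∞ f x) {e : ι → VF I M}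
    {e' : ι → VF I' M'} (hs : Sp (atx e x)) (hr : ∀ a, mfderiv I I' f x (e a x) = e' a (f x))
    {w : κ → VF I M} {w' : κ → VF I' M'} (hw : ∀ a, mfderiv I I' f x (w a x) = w' a (f x)) :
    fM e w x = fM e' w' (f x) := by
  ext a k
  rw [fM_apply, fM_apply, fT_rel h hs hr (hw k)]

/-! ### families -/

section fam
open Prm93
variable {T : Type} [NormedAddCommGroup T] [NormedSpace ℝ T] {t : T} {x p : M}

variable (I) in
/-- a family of vector fields is jointly smooth at `(t, x)` -/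
abbrev VJ (X : T → VF I M) (t : T) (x : M) : Prop :=
  ContMDiffAt (𝓘(ℝ, T).prod I) I.tangent ∞
    (fun z : T × M => (⟨z.2, X z.1 z.2⟩ : TangentBundle I M)) (t, x)

variable (I) in
/-- a family of matrix functions is jointly smooth at `(t, x)` -/
abbrev MJ {α β : Type} (A : T → M → Matrix α β ℝ) (t : T) (x : M) : Prop :=
  MSm (𝓘(ℝ, T).prod I) (fun z : T × M => A z.1 z.2) (t, x)

theorem vJ_iff {X : T → VF I M} (hx : x ∈ (chartAt H p).source) :
    VJ I X t x ↔ JAt I (fun s => dv I (X s) (extChartAt I p)) t x := by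
  refine ⟨fun h => JAt.dv' h (JAt.of_fixed (contMDiffAt_extChartAt' hx)), fun h => ?_⟩
  refine ((trivializationAt E (TangentSpace I) p).contMDiffAt_iff (IB := I)
    (by simpa using hx)).2 ⟨contMDiffAt_snd, h.congr_of_eventuallyEq ?_⟩
  have : ∀ᶠ z : T × M in 𝓝 (t, x), z.2 ∈ (chartAt H p).source :=
    continuousAt_snd.eventually ((chartAt H p).open_source.mem_nhds hx)
  filter_upwards [this] with z hz
  have h2 := Bundle.Trivialization.continuousLinearMapAt_apply_of_mem ℝ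
    (trivializationAt E (TangentSpace I) p) (b := z.2) (by simpa using hz) (X z.1 z.2)
  rw [TangentBundle.continuousLinearMapAt_trivializationAt (I := I) hz] at h2
  exact h2.symm

theorem VJ.of_fixed {X : VF I M} (h : VAt I X x) : VJ I (fun _ : T => X) t x :=
  ContMDiffAt.comp (g := fun x => (⟨x, X x⟩ : TangentBundle I M)) (f := Prod.snd) (t, x) h
    contMDiffAt_snd

theorem VJ.right {X : T → VF I M} (h : VJ I X t x) : VAt I (X t) x :=
  ContMDiffAt.comp (g := fun z : T × M => (⟨z.2, X z.1 z.2⟩ : TangentBundle I M))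
    (f := fun y => (t, y)) x h (contMDiffAt_const.prodMk contMDiffAt_id)

theorem MJ.right {α β : Type} {A : T → M → Matrix α β ℝ} (h : MJ I A t x) : MSm I (A t) x :=
  fun a b => JAt.right (f := fun s y => A s y a b) (h a b)

theorem vJ_mixF {S : T → M → Matrix κ ι ℝ} {e : T → ι → VF I M} (hS : MJ I S t x)
    (he : ∀ a, VJ I (fun s => e s a) t x) (k : κ) : VJ I (fun s => mixF (S s) (e s) k) t x := by
  have hx := mem_chart_source H x
  refine (vJ_iff hx).2 (JAt.congr (f := fun s y => ∑ c, S s y k c • dv I (e s c) (extChartAt I x) y)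
    (FSm.sum' fun c _ => (hS k c).smul ((vJ_iff hx).1 (he c))) (.of_forall fun z => ?_))
  exact dv_mixF _ _ _ _ _

theorem mJ_sq [DecidableEq ι] {A : T → M → Matrix ι ι ℝ} (hA : MJ I A t x) (hx : (A t x).PosDef)
    (hh : ∀ᶠ z : T × M in 𝓝 (t, x), (A z.1 z.2)ᵀ = A z.1 z.2) :
    MJ I (fun s y => sq (A s y)) t x :=
  MSm.sqrt hA hx (hh.mono fun y hy => by
    rwa [IsHermitian, conjTranspose_eq_transpose_of_trivial])

variable {e : T → ι → VF I M}

theorem mJ_fm (hx : x ∈ (chartAt H p).source) (he : ∀ a, VJ I (fun s => e s a) t x) :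
    MJ I (fun s y => fm (finBasis ℝ E) (inc I p (e s) y)) t x := fun i a =>
  ((finBasis ℝ E).coord i).toContinuousLinearMap.contDiff.contDiffAt.comp_contMDiffAt
    ((vJ_iff hx).1 (he a))

theorem mJ_ri (hx : x ∈ (chartAt H p).source) (he : ∀ a, VJ I (fun s => e s a) t x)
    (hs : Sp (atx (e t) x)) : MJ I (fun s y => ri (finBasis ℝ E) (inc I p (e s) y)) t x :=
  (mJ_fm hx he).transpose.mul (((mJ_fm hx he).mul (mJ_fm hx he).transpose).inv
    (sp_inc hx hs).det_pos.ne')

theorem sp_eventuallyJ (he : ∀ a, VJ I (fun s => e s a) t x) (hs : Sp (atx (e t) x)) :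
    ∀ᶠ z : T × M in 𝓝 (t, x), Sp (atx (e z.1) z.2) ∧ z.2 ∈ (chartAt H x).source := by
  have hx := mem_chart_source H x
  filter_upwards [((mJ_fm hx he).mul (mJ_fm hx he).transpose).det.continuousAt.eventually_ne
    (sp_inc hx hs).det_pos.ne', continuousAt_snd.eventually
      ((chartAt H x).open_source.mem_nhds hx)] with z h1 h2
  refine ⟨fun w => ?_, h2⟩
  obtain ⟨c, hc⟩ := sp_of_unit h1.isUnit (dch I x z.2 w)
  refine ⟨c, (bij_chart (I := I) h2).1 (hc.trans ?_)⟩
  change _ = dch I x z.2 _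
  simp only [map_sum, map_smul]; rfl

theorem mJ_fP (he : ∀ a, VJ I (fun s => e s a) t x) (hs : Sp (atx (e t) x)) :
    MJ I (fun s => fP (e s)) t x := by
  have hx := mem_chart_source H x
  refine ((mJ_ri hx he hs).mul (mJ_fm hx he)).congr ?_
  filter_upwards [sp_eventuallyJ he hs] with z h using fP_chart h.2 h.1

theorem jAt_fT (he : ∀ a, VJ I (fun s => e s a) t x) (hs : Sp (atx (e t) x)) {X : T → VF I M}
    (hX : VJ I X t x) (a : ι) : JAt I (fun s y => fT (e s) (X s) y a) t x := by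
  have hx := mem_chart_source H x
  refine ((mJ_ri hx he hs).mulVec
    (v := fun z i => (finBasis ℝ E).repr (dv I (X z.1) (extChartAt I x) z.2) i) (fun i =>
      ((finBasis ℝ E).coord i).toContinuousLinearMap.contDiff.contDiffAt.comp_contMDiffAt
        ((vJ_iff hx).1 hX)) a).congr_of_eventuallyEq ?_
  filter_upwards [sp_eventuallyJ he hs] with z h using congrFun (fT_chart h.2 h.1 (X z.1)) a

theorem mJ_fM (he : ∀ a, VJ I (fun s => e s a) t x) (hs : Sp (atx (e t) x)) {w : T → κ → VF I M}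
    (hw : ∀ k, VJ I (fun s => w s k) t x) : MJ I (fun s => fM (e s) (w s)) t x := fun a k => by
  simp only [fM_apply]; exact jAt_fT he hs (hw k) a

theorem vJ_br [I.Boundaryless] {X Y : T → VF I M} (hX : VJ I X t x) (hY : VJ I Y t x)
    (h : ∀ᶠ z : T × M in 𝓝 (t, x), VAt I (X z.1) z.2 ∧ VAt I (Y z.1) z.2) :
    VJ I (fun s => br I (X s) (Y s)) t x := by
  have hx := mem_chart_source H x
  refine (vJ_iff hx).2 (JAt.congr (f := fun s y => dv I (X s) (dv I (Y s) (extChartAt I x)) y -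
    dv I (Y s) (dv I (X s) (extChartAt I x)) y)
    ((JAt.dv' hX ((vJ_iff hx).1 hY)).sub (JAt.dv' hY ((vJ_iff hx).1 hX))) ?_)
  filter_upwards [h, continuousAt_snd.eventually ((chartAt H x).open_source.mem_nhds hx)]
    with z h1 h2
  exact dv_br h1.1 h1.2 ((contMDiffAt_extChartAt' (n := ∞) h2).of_le two_le)

end fam

end Crest.Agent.X212.Met55
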