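import Crest.Agent.X212.Met55.Vol
import Crest.Agent.X212.Pj41.Iso

/-! The engine: the frame `√(S (∑ l i • g(w i)) S) r` of a blended cometric. -/

set_option linter.unusedSectionVars false

open scoped Manifold ContDiff Topology
open Set Filter Function Module Matrix

noncomputable section
namespace Crest.Agent.X212.Met55

open Sob92 Pj41 An Cyl58 Prm93

section lin
variable {E : Type*} [AddCommGroup E] [Module ℝ E] {n ι ι' κ κ' : Type*} [Fintype n]
  [DecidableEq n] [Fintype ι] [Fintype ι'] [Fintype κ] [Fintype κ'] [DecidableEq ι]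
  [DecidableEq ι'] [DecidableEq κ] [DecidableEq κ'] {b : Basis n ℝ E} {v : ι → E} {v' : ι' → E}

theorem coH_co {w : κ → E} {w' : κ' → E} (h : Co w w') : coH b v w 1 = coH b v w' 1 := by
  have := h.gm_eq b
  simp only [gm] at this
  simp only [coH, tm, Matrix.mul_one, transpose_mul, Matrix.mul_assoc]
  rw [← Matrix.mul_assoc (fm b w), this, Matrix.mul_assoc]

theorem coH_transpose (w : κ → E) : (coH b v w 1)ᵀ = coH b v w 1 := by
  simp [coH, transpose_mul, prj_transpose]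

theorem Co.tm_rot (h : Co v v') (hv : Sp v) (w : κ → E) :
    tm b v' w = (tm b v v')ᵀ * tm b v w := by
  have h1 : (ri b v)ᵀ * ri b v = (gm b v)⁻¹ := by
    conv_lhs => enter [1]; rw [ri]
    rw [transpose_mul, transpose_transpose, transpose_nonsing_inv, gm_transpose, Matrix.mul_assoc,
      hv.fm_ri, Matrix.mul_one]
  rw [tm, tm, tm, transpose_mul, Matrix.mul_assoc, ← Matrix.mul_assoc (ri b v)ᵀ, h1, ri,
    h.gm_eq b, Matrix.mul_assoc]

theorem Co.coH_rot (h : Co v v') (hv : Sp v) (w : κ → E) :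
    (tm b v v')ᵀ * coH b v w 1 = coH b v' w 1 * (tm b v v')ᵀ := by
  have h1 : prj b v' * (tm b v v')ᵀ = (tm b v v')ᵀ := by
    rw [← h.mul_tm hv, Matrix.mul_assoc, h.tm_mul hv, hv.tm_prj]
  rw [coH, coH, h.tm_rot hv w, Matrix.mul_add, Matrix.add_mul, Matrix.mul_sub, Matrix.sub_mul,
    hv.tm_prj, h1, transpose_mul, transpose_transpose]
  simp only [Matrix.mul_one, Matrix.one_mul, Matrix.mul_assoc, h.tm_mul hv, hv.tm_prj]

theorem coH_mix (hv : Sp v) {B : Matrix ι ι ℝ} (hB : Adm (prj b v) B)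
    (hQ : B * (1 - prj b v) = 1 - prj b v) : coH b v (mix B v) 1 = B * B := by
  have h1 : B * B * (1 - prj b v) = 1 - prj b v := by rw [Matrix.mul_assoc, hQ, hQ]
  rw [coH, tm_mix, hB.symm, Matrix.mul_one, transpose_mul, hB.symm, prj_transpose, ← h1,
    Matrix.mul_assoc, ← Matrix.mul_assoc B B, ← Matrix.mul_assoc, ← Matrix.mul_assoc, ← hB.comm,
    Matrix.mul_assoc B, ← hB.comm, Matrix.mul_assoc, Matrix.mul_assoc, hv.prj_prj,
    ← Matrix.mul_assoc, ← Matrix.mul_add]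
  simp

theorem Adm.exists_map (hv : Sp v) {B : Matrix ι ι ℝ} (hB : Adm (prj b v) B) :
    ∃ L : E →ₗ[ℝ] E, 0 < (LinearMap.toMatrix b b L).det ∧ mix B v = fun a => L (v a) := by
  refine ⟨Matrix.toLin b b (fm b v * B * ri b v), ?_, funext fun a => b.repr.injective ?_⟩
  · rw [LinearMap.toMatrix_toLin, ri, ← Matrix.mul_assoc, det_mul, det_nonsing_inv,
      Ring.inverse_eq_inv']
    refine mul_pos ?_ (inv_pos.2 hv.det_pos)
    have := hB.pos.mul_mul_conjTranspose_same hv.vecMul_inj (B := fm b v)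
    rw [conjTranspose_eq_transpose_of_trivial] at this
    exact this.det_pos
  · have h1 : fm b (mix B v) = fm b fun a => Matrix.toLin b b (fm b v * B * ri b v) (v a) := by
      rw [fm_map _ b b, LinearMap.toMatrix_toLin, fm_mix, hB.symm, Matrix.mul_assoc (fm b v * B),
        ← prj, Matrix.mul_assoc, hB.comm, ← Matrix.mul_assoc, hv.fm_prj]
    ext i
    exact congrFun (congrFun h1 i) a

end lin

section ori
open R208 R208.F Int54
variable {E : Type*} [NormedAddCommGroup E] [NormedSpace ℝ E] [FiniteDimensional ℝ E] {ι : Type*}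
  [Fintype ι] [DecidableEq ι] {v : ι → E}

theorem Adm.evA_mix {n : ℕ} (h : finrank ℝ E = n) (hv : Sp v) {B : Matrix ι ι ℝ}
    (hB : Adm (prj (finBasis ℝ E) v) B) (c : Ext E) (Φ : Fin n → ι) :
    rjb (finBasis ℝ E) (mix B v) * evA E n c (fun i => mix B v (Φ i)) =
      rjb (finBasis ℝ E) v * evA E n c fun i => v (Φ i) := by
  subst h
  obtain ⟨L, h0, hL⟩ := hB.exists_map hv
  have h1 := (finBasis ℝ E).det_comp L fun i => v (Φ i)
  rw [← LinearMap.det_toMatrix (finBasis ℝ E)] at h1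
  rw [hL, rjb_map L (finBasis ℝ E), evA_top, evA_top, abs_of_pos h0]
  erw [h1]
  field_simp

end ori

variable {E : Type} [NormedAddCommGroup E] [NormedSpace ℝ E] [FiniteDimensional ℝ E]
  {H : Type} [TopologicalSpace H] {I : ModelWithCorners ℝ E H}
  {M : Type} [TopologicalSpace M] [ChartedSpace H M] [IsManifold I ∞ M]
  {E' : Type} [NormedAddCommGroup E'] [NormedSpace ℝ E'] [FiniteDimensional ℝ E']
  {H' : Type} [TopologicalSpace H'] {I' : ModelWithCorners ℝ E' H'}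
  {M' : Type} [TopologicalSpace M'] [ChartedSpace H' M'] [IsManifold I' ∞ M']
  {ι ι' κ κ' A : Type} [Fintype ι] [Fintype ι'] [Fintype κ] [Fintype κ'] [Fintype A]
  [DecidableEq ι] [DecidableEq ι'] [DecidableEq κ] [DecidableEq κ']

/-- the matrix of the blended cometric -/
def eH (r : ι → VF I M) (S : M → Matrix ι ι ℝ) (l : A → M → ℝ) (w : A → κ → VF I M) (x : M) :
    Matrix ι ι ℝ := S x * (∑ i, l i x • fC r (w i) 1 x) * S x

/-- the frame of the blended cometric -/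
def eF (r : ι → VF I M) (S : M → Matrix ι ι ℝ) (l : A → M → ℝ) (w : A → κ → VF I M) :
    ι → VF I M := dfm (eH r S l w) r

/-- admissible data at a point -/
structure EOk (r : ι → VF I M) (S : M → Matrix ι ι ℝ) (l : A → M → ℝ) (w : A → κ → VF I M)
    (x : M) : Prop where
  sp : Sp (atx r x)
  adm : Adm (fP r x) (S x)
  nn : ∀ i, 0 ≤ l i x
  ne : ∃ i, l i x ≠ 0
  spw : ∀ i, l i x ≠ 0 → Sp (atx (w i) x)

variable {r : ι → VF I M} {S : M → Matrix ι ι ℝ} {l : A → M → ℝ} {w : A → κ → VF I M} {x : M}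

theorem fC_transpose (r : ι → VF I M) (w : κ → VF I M) (x : M) : (fC r w 1 x)ᵀ = fC r w 1 x :=
  coH_transpose _

theorem fC_co {w : κ → VF I M} {w' : κ' → VF I M} (h : Co (atx w x) (atx w' x)) :
    fC r w 1 x = fC r w' 1 x := coH_co h

theorem fC_one {w : κ → VF I M} (hs : Sp (atx r x)) (h : Co (atx r x) (atx w x)) :
    fC r w 1 x = 1 := coH_one h hs

theorem eH_transpose (hS : (S x)ᵀ = S x) : (eH r S l w x)ᵀ = eH r S l w x := by
  simp only [eH, transpose_mul, hS, transpose_sum, transpose_smul, fC_transpose, Matrix.mul_assoc]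

namespace EOk

theorem adm_sum (h : EOk r S l w x) : Adm (fP r x) (∑ i, l i x • fC r (w i) 1 x) :=
  Adm.sum (fun i _ => h.nn i) (fun i _ hi => adm_fC h.sp (h.spw i hi) PosDef.one)
    (h.ne.imp fun _ hi => ⟨Finset.mem_univ _, hi⟩)

theorem adm_eH (h : EOk r S l w x) : Adm (fP r x) (eH r S l w x) := h.adm_sum.conj h.adm

theorem sp_eF (h : EOk r S l w x) : Sp (atx (eF r S l w) x) := sp_dfm h.sp h.adm_eH

theorem fP_eF (h : EOk r S l w x) : fP (eF r S l w) x = fP r x := fP_dfm h.sp h.adm_eH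

/-- the cometric is the blend -/
theorem hb_eF (h : EOk r S l w x) (hS : S x = 1) (α β : E →ₗ[ℝ] ℝ) :
    hb (atx (eF r S l w) x) 1 α β = ∑ i, l i x * hb (atx (w i) x) 1 α β := by
  rw [eF, hb_dfm h.adm_eH, eH, hS, Matrix.one_mul, Matrix.mul_one, hb_sum]
  simp only [hb_smul, hb_fC h.sp]

/-- where all active cometrics are that of `r` the frame is `S r` -/
theorem eF_of_co (h : EOk r S l w x) (hc : ∀ i, l i x ≠ 0 → Co (atx r x) (atx (w i) x))
    (h1 : ∑ i, l i x = 1) (k : ι) : eF r S l w k x = ∑ c, S x k c • r c x := by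
  refine dfm_of_sq h.adm.pos ?_ k
  have : ∑ i, l i x • fC r (w i) 1 x = ∑ i, l i x • (1 : Matrix ι ι ℝ) :=
    Finset.sum_congr rfl fun i _ => by
      by_cases hi : l i x = 0
      · simp [hi]
      · rw [fC_one h.sp (hc i hi)]
  rw [eH, this, ← Finset.sum_smul, h1, one_smul, Matrix.mul_one]

theorem eF_eq (h : EOk r S l w x) (hc : ∀ i, l i x ≠ 0 → Co (atx r x) (atx (w i) x))
    (h1 : ∑ i, l i x = 1) (hS : S x = 1) (k : ι) : eF r S l w k x = r k x := by
  rw [h.eF_of_co hc h1, hS]; simp [one_apply]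

/-- where the only active family is an admissible recombination of `r`, it is the frame -/
theorem eF_of_mix (h : EOk r S l w x) (hS : S x = 1) {i : A} (h1 : l i x = 1)
    (h0 : ∀ j, j ≠ i → l j x = 0) {B : Matrix ι ι ℝ} (hB : Adm (fP r x) B)
    (hQ : B * (1 - fP r x) = 1 - fP r x) (hw : Co (atx (w i) x) (mix B (atx r x))) (k : ι) :
    eF r S l w k x = ∑ c, B k c • r c x := by
  refine dfm_of_sq hB.pos ?_ k
  rw [eH, hS, Matrix.one_mul, Matrix.mul_one, Finset.sum_eq_single i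
    (fun j _ hj => by rw [h0 j hj, zero_smul]) (by simp), h1, one_smul, fC, coH_co hw]
  exact coH_mix h.sp hB hQ

theorem eH_nrm (h : EOk r S l w x) (h1 : ∑ i, l i x = 1)
    (hS : S x * (1 - fP r x) = 1 - fP r x) : eH r S l w x * (1 - fP r x) = 1 - fP r x := by
  rw [eH, Matrix.mul_assoc, hS, Matrix.mul_assoc, Matrix.sum_mul]
  simp only [Matrix.smul_mul, fC_nrm h.sp]
  rw [← Finset.sum_smul, h1, one_smul, hS]

/-- **rotation**: the frames over two base frames of the same metric differ by their rotation -/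
theorem eF_rot {r' : ι' → VF I M} {S' : M → Matrix ι' ι' ℝ} {l' : A → M → ℝ}
    {w' : A → κ' → VF I M} (h : EOk r S l w x) (h' : EOk r' S' l' w' x)
    (hr : Co (atx r x) (atx r' x)) (hS : (fM r r' x)ᵀ * S x = S' x * (fM r r' x)ᵀ)
    (hl : ∀ i, l' i x = l i x) (hw : ∀ i, l i x ≠ 0 → Co (atx (w i) x) (atx (w' i) x)) (k : ι') :
    eF r' S' l' w' k x = ∑ c, fM r r' x c k • eF r S l w c x := by
  have h1 : (fM r r' x)ᵀ * ∑ i, l i x • fC r (w i) 1 x =
      (∑ i, l' i x • fC r' (w' i) 1 x) * (fM r r' x)ᵀ := by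
    rw [Matrix.mul_sum, Matrix.sum_mul]
    refine Finset.sum_congr rfl fun i _ => ?_
    rw [hl, Matrix.mul_smul, Matrix.smul_mul]
    by_cases hi : l i x = 0
    · simp [hi]
    · rw [← fC_co (hw i hi)]
      exact congrArg _ (hr.coH_rot h.sp _)
  have h2 : (fM r r' x)ᵀ * eH r S l w x = eH r' S' l' w' x * (fM r r' x)ᵀ := by
    rw [eH, eH, ← Matrix.mul_assoc, ← Matrix.mul_assoc, hS, Matrix.mul_assoc (S' x), h1,
      Matrix.mul_assoc, Matrix.mul_assoc, hS]
    simp only [Matrix.mul_assoc]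
  have h3 := sqrt_intertwine h.adm_eH.pos.posSemidef h'.adm_eH.pos h2
  have h4 : atx (eF r' S' l' w') x = mix (fM r r' x)ᵀ (atx (eF r S l w) x) := by
    rw [eF, eF, dfm, dfm, atx_mixF, atx_mixF, mix_mix, sq, sq, h3, ← mix_mix]
    exact congrArg _ (h.sp.mix_tm).symm
  exact congrFun h4 k

end EOk

theorem eH_congr {r' : ι → VF I M} {S' : M → Matrix ι ι ℝ} {l' : A → M → ℝ}
    {w' : A → κ' → VF I M} (hr : ∀ a, r' a x = r a x) (hS : S' x = S x) (hl : ∀ i, l' i x = l i x)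
    (hw : ∀ i, l i x ≠ 0 → Co (atx (w i) x) (atx (w' i) x)) :
    eH r' S' l' w' x = eH r S l w x := by
  have h1 : atx r' x = atx r x := funext hr
  rw [eH, eH, hS]
  congr 2
  refine Finset.sum_congr rfl fun i _ => ?_
  rw [hl]
  by_cases hi : l i x = 0
  · simp [hi]
  · rw [fC_co (hw i hi), fC, fC, h1]

/-- locality -/
theorem eF_congr {r' : ι → VF I M} {S' : M → Matrix ι ι ℝ} {l' : A → M → ℝ}
    {w' : A → κ' → VF I M} (hr : ∀ a, r' a x = r a x) (hS : S' x = S x) (hl : ∀ i, l' i x = l i x)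
    (hw : ∀ i, l i x ≠ 0 → Co (atx (w i) x) (atx (w' i) x)) (k : ι) :
    eF r' S' l' w' k x = eF r S l w k x := by
  simp only [eF, dfm, mixF, eH_congr hr hS hl hw, hr]

theorem fC_rel {f : M → M'} (h : IsLocalDiffeomorphAt I I' ∞ f x) {r' : ι → VF I' M'}
    (hs : Sp (atx r x)) (hr : ∀ a, mfderiv I I' f x (r a x) = r' a (f x)) {w : κ → VF I M}
    {w' : κ → VF I' M'} (hw : ∀ a, mfderiv I I' f x (w a x) = w' a (f x)) (D : Matrix κ κ ℝ) :
    fC r w D x = fC r' w' D (f x) := by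
  rw [fC_eq, fC_eq, fM_rel h hs hr hw, fP_rel h hs hr]

/-- naturality -/
theorem eF_rel {f : M → M'} (h : IsLocalDiffeomorphAt I I' ∞ f x) {r' : ι → VF I' M'}
    {S' : M' → Matrix ι ι ℝ} {l' : A → M' → ℝ} {w' : A → κ → VF I' M'} (hs : Sp (atx r x))
    (hr : ∀ a, mfderiv I I' f x (r a x) = r' a (f x)) (hS : S x = S' (f x))
    (hl : ∀ i, l i x = l' i (f x))
    (hw : ∀ i, l i x ≠ 0 → ∀ a, mfderiv I I' f x (w i a x) = w' i a (f x)) (k : ι) :
    mfderiv I I' f x (eF r S l w k x) = eF r' S' l' w' k (f x) := by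
  refine mixF_rel (S := fun x => sq (eH r S l w x)) (S' := fun x => sq (eH r' S' l' w' x)) hr
    (congrArg sq ?_) k
  rw [eH, eH, hS]
  congr 2
  refine Finset.sum_congr rfl fun i _ => ?_
  rw [← hl]
  by_cases hi : l i x = 0
  · simp [hi]
  · rw [fC_rel h hs hr (hw i hi)]

section fam
variable {T : Type} [NormedAddCommGroup T] [NormedSpace ℝ T] {t : T}

theorem mJ_fC {r : T → ι → VF I M} {w : T → κ → VF I M} (hr : ∀ a, VJ I (fun s => r s a) t x)
    (hs : Sp (atx (r t) x)) (hw : ∀ a, VJ I (fun s => w s a) t x) :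
    MJ I (fun s => fC (r s) (w s) 1) t x :=
  (((mJ_fM hr hs hw).mul (MSm.const 1)).mul (mJ_fM hr hs hw).transpose).add
    ((MSm.const 1).sub (mJ_fP hr hs))

variable {r : T → ι → VF I M} {S : T → M → Matrix ι ι ℝ} {l : T → A → M → ℝ}
  {w : T → A → κ → VF I M}

theorem mJ_eH (hs : Sp (atx (r t) x)) (hr : ∀ a, VJ I (fun s => r s a) t x) (hS : MJ I S t x)
    (hl : ∀ i, (∀ᶠ z : T × M in 𝓝 (t, x), l z.1 i z.2 = 0) ∨
      (JAt I (fun s => l s i) t x ∧ ∀ a, VJ I (fun s => w s i a) t x)) :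
    MJ I (fun s => eH (r s) (S s) (l s) (w s)) t x := by
  have key : ∀ i, MJ I (fun s y => l s i y • fC (r s) (w s i) 1 y) t x := fun i => by
    rcases hl i with h | h
    · exact (MSm.const 0).congr (h.mono fun z hz => by simp only [hz, zero_smul])
    · exact MSm.rsmul h.1 (mJ_fC (w := fun s => w s i) hr hs h.2)
  exact (hS.mul (MSm.sum (s := Finset.univ) fun i _ => key i)).mul hS

/-- joint smoothness -/
theorem vJ_eF (h : EOk (r t) (S t) (l t) (w t) x) (hr : ∀ a, VJ I (fun s => r s a) t x)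
    (hS : MJ I S t x) (hS' : ∀ᶠ z : T × M in 𝓝 (t, x), (S z.1 z.2)ᵀ = S z.1 z.2)
    (hl : ∀ i, (∀ᶠ z : T × M in 𝓝 (t, x), l z.1 i z.2 = 0) ∨
      (JAt I (fun s => l s i) t x ∧ ∀ a, VJ I (fun s => w s i a) t x)) (k : ι) :
    VJ I (fun s => eF (r s) (S s) (l s) (w s) k) t x :=
  vJ_mixF (mJ_sq (mJ_eH h.sp hr hS hl) h.adm_eH.pos (hS'.mono fun _ hz => eH_transpose hz)) hr k

end fam

theorem EOk.fAt (h : EOk r S l w x) (hr : ∀ a, VAt I (r a) x) (hS : MSm I S x)
    (hS' : ∀ᶠ y in 𝓝 x, (S y)ᵀ = S y)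
    (hl : ∀ i, (∀ᶠ y in 𝓝 x, l i y = 0) ∨ (FSm I (l i) x ∧ ∀ a, VAt I (w i a) x)) :
    FAt (eF r S l w) x :=
  ⟨fun k => VJ.right (t := (0 : ℝ)) (vJ_eF (r := fun _ => r) (S := fun _ => S) (l := fun _ => l)
    (w := fun _ => w) h (fun a => VJ.of_fixed (hr a)) (fun a b => JAt.of_fixed (hS a b))
    ((continuousAt_snd (p := ((0 : ℝ), x))).eventually (p := fun y => (S y)ᵀ = S y) hS') (fun i => (hl i).imp
      (fun h : ∀ᶠ y in 𝓝 x, l i y = 0 =>
        (continuousAt_snd (p := ((0 : ℝ), x))).eventually (p := fun y => l i y = 0) h)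
      fun h : FSm I (l i) x ∧ ∀ a, VAt I (w i a) x => ⟨JAt.of_fixed h.1, fun a => VJ.of_fixed (h.2 a)⟩) k), h.sp_eF⟩

/-- the components of the volume form do not change under `dfm` -/
theorem cf_dfm {n : ℕ} (h : finrank ℝ E = n) {K : M → Matrix ι ι ℝ} (hs : Sp (atx r x))
    (hK : Adm (fP r x) (K x)) (o : M → R208.F.Ext E) (Φ : Fin n → ι) :
    Int54.cf (dfm K r) n (Int54.volF o (dfm K r)) Φ x = Int54.cf r n (Int54.volF o r) Φ x := by
  have := hK.sq.evA_mix h hs (o x) Φ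
  simp only [Int54.cf, Int54.volF, Pi.smul_apply', map_smul, AlternatingMap.smul_apply,
    smul_eq_mul, Int54.nf, div_mul_eq_mul_div]
  exact congrArg (· / _) this

theorem EOk.oc_eF (h : EOk r S l w x) (h4 : finrank ℝ E = 4) (o : M → R208.F.Ext E) (a b c d : ι) :
    Int54.oc (eF r S l w) (Int54.volF o (eF r S l w)) a b c d x =
      Int54.oc r (Int54.volF o r) a b c d x := cf_dfm h4 h.sp h.adm_eH o _

end Crest.Agent.X212.Met55
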