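import Crest.Agent.X212.Mod61.Fmt
import Crest.Agent.X212.Spn45.Conn
import Crest.Agent.X212.Prm93.Fam
import Crest.Agent.X212.Cht98.Br
import Crest.Agent.X212.Met55.Vol

/-! The family of backgrounds `fam` with explicit coefficients; `isConn_chg` moves an admissible
connection from one background to another; `fam_ok` (any manifold), `fam_ok_cpt` (closed). -/

set_option autoImplicit false
set_option linter.unusedSectionVars false
noncomputable section
open scoped Manifold ContDiff Topology InnerProductSpace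
open MeasureTheory Set Function Filter

namespace Crest.Agent.X212.Met55
open An Prm93 Sob92 Wz78 Spn45
open Std94 (pmx plx)

variable {E : Type} [NormedAddCommGroup E] [NormedSpace ℝ E] [FiniteDimensional ℝ E]
  [MeasurableSpace E] [BorelSpace E]
  {HM : Type} [TopologicalSpace HM] {I : ModelWithCorners ℝ E HM}
  {M : Type} [TopologicalSpace M] [ChartedSpace HM M] [IsManifold I ∞ M]
  [MeasurableSpace M] {ι : Type} [Fintype ι] {lam : Type} [Fintype lam]
  {T : Type} [NormedAddCommGroup T] [NormedSpace ℝ T]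

/-- `F'.e a = ∑ b, trS F F' x a b • F.e b` -/
def trS (F F' : Fr I M ι) (x : M) (a b : ι) : ℝ := fT F.e (F'.e a) x b

/-- the coefficients of the spin part -/
def cfS (F F' : Fr I M ι) (x : M) (a b k : ι) : ℝ :=
  1 / 4 * dG (fun a b x => trS F F' x a b) F.Gam F'.Gam a b k x

/-- the difference of the connections of the line -/
def dA (G G' : Geo I M ι lam) (a : ι) (x : M) : En lam :=
  G'.a a x - ∑ b, trS G.F G'.F x a b • G.a b x

open Classical in
/-- the coefficient of the central part -/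
def laS (B : Base M ι lam) (G G' : Geo I M ι lam) (x : M) (a : ι) : ℝ :=
  -(1 / 4) * trE (B.il * dA G G' a x * B.l x)

section alg
variable (F F' : Fr I M ι) (x : M) (a b : ι)

theorem trS_eq : trS F F' x a b = fM F.e F'.e x b a := (fM_apply _ _ _ _ _).symm

theorem trS_mix : Mix F.toPre F'.toPre fun a b x => trS F F' x a b := (mix_fT _ _).1

theorem trS_sm : Sm I fun x => trS F F' x a b := (mix_fT _ _).2 a b

theorem trS_P : ∑ c, trS F F' x a c * F.P c b x = trS F F' x a b := by
  simp only [trS_eq, fr_P]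
  exact congrFun (congrFun
    ((pre_sp F.toPre x).tm_prj (b := Module.finBasis ℝ E) (w := atx F'.e x)) a) b

theorem P_trS : ∑ c, F'.P a c x * trS F F' x c b = trS F F' x a b := by
  have h := tm_mix_right (b := Module.finBasis ℝ E) (v := atx F.e x) (w := atx F'.e x)
    (Matrix.of fun a b => F'.P a b x)
  rw [(fr_isP F' x).mix_self] at h
  simp only [trS_eq, mul_comm (F'.P _ _ _)]
  exact (congrFun (congrFun h b) a).symm

theorem trS_trS : ∑ c, trS F F' x a c * trS F' F x c b = F'.P a b x := by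
  have h : fM F'.e F.e x * fM F.e F'.e x = Met55.fP F'.e x := by
    rw [fM, fM, tm, tm, Matrix.mul_assoc, ← Matrix.mul_assoc (fm _ _), (pre_sp F.toPre x).fm_ri,
      Matrix.one_mul]; rfl
  simp only [trS_eq, mul_comm (fM F.e _ _ _ _)]
  rw [F'.P_symm, fr_P, ← h]; rfl

theorem trS_self : trS F F x a b = F.P a b x := by
  rw [trS_eq, F.P_symm, fr_P]; rfl

theorem trS_congr {F₁ : Fr I M ι} (h : ∀ a, F₁.e a x = F'.e a x) :
    trS F F₁ x a b = trS F F' x a b ∧ trS F₁ F x a b = trS F' F x a b := by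
  have : atx F₁.e x = atx F'.e x := funext h
  simp only [trS_eq, fM, this, and_self]

end alg

variable {m : Md M ι lam} {B : Base M ι lam} {G G' : Geo I M ι lam} {A : m.Cn} {x : M}

open Classical in
theorem line_tr (hB : B.OK I) {T : En lam} (c1 : T * B.l x = B.l x * T) (c2 : B.il * T = T * B.il)
    (c3 : Skw T) : T * B.l x = (-(1 / 2) * trE (B.il * T * B.l x)) • (B.il * B.l x) := by
  have e := line_skew (plx hB x) c1 c2 c3
  generalize Std94.hs (B.il * B.l x) T / 2 = r at e
  rw [mul_assoc, e, mul_smul_comm, ← mul_assoc, hB.ilsq, map_smul, neg_one_mul, map_neg, trE_eq,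
    hB.lrk]
  congr 1
  rw [smul_eq_mul]; ring

theorem dA_l (hG : G.OK B) (hG' : G'.OK B) (a : ι) : dA G G' a x * B.l x = B.l x * dA G G' a x := by
  have h := hG'.par a x
  rw [(trS_mix G.F G'.F).D] at h
  simp only [fun b => eq_neg_of_add_eq_zero_left (hG.par b x)] at h
  rw [← sub_eq_zero, ← h]
  simp only [dA, sub_mul, mul_sub, Finset.sum_mul, Finset.mul_sum, smul_mul_assoc, mul_smul_comm,
    smul_neg, smul_sub, Finset.sum_neg_distrib, Finset.sum_sub_distrib]
  abel

theorem j_dA (hB : B.OK I) (hG : G.OK B) (hG' : G'.OK B) (H : m.OK I B) (a : ι) (s : Eu lam) :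
    m.j x (dA G G' a x s) = (2 * laS B G G' x a) • (m.J * m.j x s) := by
  have k : Skw (dA G G' a x) := fun v w => by
    simp only [dA, sub_apply, _root_.sum_apply, smul_apply, inner_sub_left, inner_sub_right,
      sum_inner, inner_sum, real_inner_smul_left, real_inner_smul_right, hG'.sk a x v w,
      fun b => hG.sk b x v w, mul_neg, Finset.sum_neg_distrib]
    ring
  have h := line_tr hB (dA_l (x := x) hG hG' a) (by
    simp only [dA, sub_mul, mul_sub, Finset.sum_mul, Finset.mul_sum, smul_mul_assoc, mul_smul_comm,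
      hG.il, hG'.il]) k
  rw [← H.jl, ← mul_apply_eq_comp, ← dA_l hG hG', h, smul_apply, map_smul, mul_apply_eq_comp,
    H.jil, H.jl, laS]
  congr 1; ring

theorem sm_laS (hB : B.OK I) (hG : G.OK B) (hG' : G'.OK B) (a : ι) : Sm I fun x => laS B G G' x a :=
  fun x => by
    classical
    exact SA.mul contMDiffAt_const (SA.clm _ (SA.mul (SA.mul contMDiffAt_const
      ((hG'.con.sm a x).sub (SA.sum _ fun b _ => SA.smul (trS_sm _ _ a b x) (hG.con.sm b x))))
        (hB.sl x)))

theorem P_dA (hG' : G'.OK B) (a : ι) : ∑ b, B.P a b x • dA G G' b x = dA G G' a x := by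
  simp only [dA, smul_sub, Finset.sum_sub_distrib, hG'.con.proj, Finset.smul_sum, smul_smul]
  rw [Finset.sum_comm]
  simp only [← Finset.sum_smul, ← hG'.P, P_trS]

theorem P_laS (hG' : G'.OK B) (a : ι) : ∑ b, B.P a b x * laS B G G' x b = laS B G G' x a := by
  simp only [laS, ← P_dA hG' a, Finset.mul_sum, Finset.sum_mul, map_sum, mul_smul_comm,
    smul_mul_assoc, map_smul, smul_eq_mul]
  exact Finset.sum_congr rfl fun _ _ => by ring

theorem cfS_spin (F F' : Fr I M ι) (a : ι) : ∑ b, ∑ k, cfS F F' x a b k • (m.ρ b x * m.ρ k x) =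
    spin (fun b => m.ρ b x) fun b k => dG (fun a b x => trS F F' x a b) F.Gam F'.Gam a b k x := by
  simp only [spin, cfS, Finset.smul_sum, smul_smul]

/-- **change of the background** -/
theorem isConn_chg (hB : B.OK I) (hG : G.OK B) (hG' : G'.OK B) (H : m.OK I B)
    (C : m.IsConn B G A) : m.IsConn B G' fun a x => ∑ b, trS G.F G'.F x a b • A b x +
      ∑ b, ∑ k, cfS G.F G'.F x a b k • (m.ρ b x * m.ρ k x) + laS B G G' x a • (m.J * m.p x) := by
  have hD : ∀ a (f : M → ℝ) x, dv I (G'.F.e a) f x = ∑ l, trS G.F G'.F x a l * dv I (G.F.e l) f x :=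
    fun a f x => congrFun ((trS_mix G.F G'.F).D a f) x
  simp only [cfS_spin]
  refine ⟨(cc_chg C.cc (glc hG) (gfrm hG') (glc hG') (gsep hG') (fun a b x => trS_sm _ _ a b x)
    (fun a b x => by rw [← hG'.P, P_trS]) hD
    fun a f x => congrFun ((trS_mix G.F G'.F).D a f) x).addA
      (B := fun a x => laS B G G' x a • (m.J * m.p x))
      ⟨fun a x => SA.smul (sm_laS hB hG hG' a x) (SA.mul contMDiffAt_const (H.sp x)), fun a x => by
        simp only [smul_smul, ← Finset.sum_smul, P_laS hG']⟩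
      (fun a x => by rw [smul_mul_assoc, mul_smul_comm, Jp_p H])
      (fun a b x => by rw [smul_mul_assoc, mul_smul_comm, Jp_ρ H]),
    fun a x => ?_, fun a x => ?_, fun a x s => ?_⟩
  · exact (skS _).add_mem ((skS _).add_mem
      ((skS _).sum_mem fun b _ => (skS _).smul_mem _ (C.sk b x))
      (spin_sk (fun b => H.ρsk b x) fun b k => dG_skew (glc hG) (glc hG') hD a b k x))
      ((skS _).smul_mem _ (sk_Jp H x))
  · exact (((Commute.sum_right _ _ _ fun b _ => (show Commute m.J _ from C.J b x).smul_right _).add_right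
      ((Commute.sum_right _ _ _ fun b _ => Commute.sum_right _ _ _ fun k _ =>
        ((show Commute m.J _ from H.Jρ b x).mul_right (H.Jρ k x)).smul_right _).smul_right _)).add_right
      ((show Commute m.J _ from J_Jp H x).smul_right _)).eq
  · have h1 : Commute (m.j x s) (spin (fun b => m.ρ b x) fun b k =>
        dG (fun a b x => trS G.F G'.F x a b) G.F.Gam G'.F.Gam a b k x) :=
      (Commute.sum_right _ _ _ fun b _ => Commute.sum_right _ _ _ fun k _ =>
        ((show Commute (m.j x s) _ from H.jρ b x s).mul_right (H.jρ k x s)).smul_right _).smul_right _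
    have h2 := j_dA (x := x) hB hG hG' H a s
    have h3 := lie_Jp (pmx H x) s
    rw [dA, sub_apply, map_sub, sub_eq_iff_eq_add] at h2
    rw [h2, (trS_mix G.F G'.F).D]
    simp only [_root_.sum_apply, smul_apply, map_sum, map_smul,
      ← C.j, add_mul, mul_add, h1.eq, Finset.sum_mul, Finset.mul_sum, smul_mul_assoc, mul_smul_comm,
      smul_add, smul_sub, Finset.sum_add_distrib, Finset.sum_sub_distrib, sub_eq_iff_eq_add.1 h3]
    module

/-- the family with the explicit coefficients -/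
def fam (B : Base M ι lam) (F0 : Fr I M ι) (G0 : Geo I M ι lam) (G : T → Geo I M ι lam) (Q : Set T)
    (Om Om' : Set M) : Mod61.Fam I M ι lam T where
  B := B
  F0 := F0
  G0 := G0
  G := G
  Q := Q
  S t := trS G0.F (G t).F
  Si t := trS (G t).F G0.F
  cf t := cfS G0.F (G t).F
  la t := laS B G0 (G t)
  Om := Om
  Om' := Om'

/-- what has to be checked -/
structure FamIn (B : Base M ι lam) (F0 : Fr I M ι) (G0 : Geo I M ι lam) (G : T → Geo I M ι lam)
    (Q : Set T) : Prop where
  hB : B.OK I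
  h0 : G0.OK B
  hG : ∀ t ∈ Q, (G t).OK B
  tame : ∃ C, F0.Tame C
  tameG : ∀ t ∈ Q, ∃ C, (G t).F.Tame C
  e0 : G0.F.e = F0.e
  co : ∀ a b c d, F0.Cb (B.o a b c d)
  cl : F0.Cb B.l
  ca : ∀ a, F0.Cb (G0.a a)
  opn : IsOpen Q
  sS : ∀ a b, SB F0.toPre Q fun t x => trS G0.F (G t).F x a b
  sSi : ∀ a b, SB F0.toPre Q fun t x => trS (G t).F G0.F x a b
  sc : ∀ a b k, SB F0.toPre Q fun t => (G t).F.c a b k
  sa : ∀ a, SB F0.toPre Q fun t => (G t).a a
  dens : ∃ h : T → M → ℝ, SB F0.toPre Q h ∧ ∀ t ∈ Q, (∀ x, 0 < h t x) ∧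
    (G t).F.μ = F0.μ.withDensity fun x => ENNReal.ofReal (h t x)

theorem sb_Gam {F : Pre I M ι} {Q : Set T} {G : T → Fr I M ι} {S : ι → ι → T → M → ℝ}
    (hm : ∀ t ∈ Q, Mix F (G t).toPre fun a b => S a b t) (hS : ∀ a b, SB F Q (S a b))
    (hP : ∀ a b, SB F Q fun t => (G t).P a b) (hc : ∀ a b k, SB F Q fun t => (G t).c a b k)
    (a b k : ι) : SB F Q fun t => (G t).Gam a b k :=
  (((((((SB.D' hm hS (hP b k) a).add (SB.D' hm hS (hP a k) b)).sub
    (SB.D' hm hS (hP a b) k)).add (hc a b k)).sub (hc a k b)).sub (hc b k a)).mul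
      (SB.fixed (Cb_const (2 : ℝ)⁻¹))).congr fun _ _ => funext fun _ => div_eq_mul_inv _ _

variable [I.Boundaryless] [T2Space M] [BorelSpace M] {F0 : Fr I M ι} {G0 : Geo I M ι lam}
  {H : T → Geo I M ι lam} {Q : Set T} {Om Om' : Set M}

theorem fam_ok (h : FamIn B F0 G0 H Q) (h1 : IsClopen Om) (h2 : IsClopen Om') (h3 : Om' ⊆ Om) :
    (fam B F0 G0 H Q Om Om').OK := by
  classical
  obtain ⟨C, hC⟩ := h.tame
  have P0 : F0.P = B.P := by
    funext a b x; rw [← h.h0.P, fr_P, fr_P, h.e0]
  have c0 : G0.F.c = F0.c := by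
    funext a b k x; rw [fr_c, fr_c, h.e0]
  have mx : ∀ F' : Fr I M ι, Mix F0.toPre F'.toPre fun a b x => trS G0.F F' x a b := fun F' a x => by
    rw [← h.e0]; exact trS_mix G0.F F' a x
  have cP : ∀ a b, F0.Cb (B.P a b) := fun a b => P0 ▸ ⟨C, hC.P a b⟩
  have sP : ∀ a b, SB F0.toPre Q fun t => (H t).F.P a b := fun a b =>
    (SB.fixed (cP a b)).congr fun t ht => by rw [(h.hG t ht).P]
  have s0 : ∀ a b k, SB F0.toPre Q fun _ => G0.F.Gam a b k :=
    sb_Gam (G := fun _ => G0.F) (S := fun a b _ => B.P a b)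
      (fun _ _ a x => by rw [← h.e0, ← h.h0.P, G0.F.P_e]) (fun a b => .fixed (cP a b))
      (fun a b => .fixed (h.h0.P ▸ cP a b)) fun a b k => .fixed (c0 ▸ ⟨C, hC.c a b k⟩)
  exact
    { B := h.hB, G0 := h.h0, G := h.hG, tame := ⟨C, hC⟩, tameG := h.tameG, e0 := h.e0, P0 := P0
      co := h.co, cl := h.cl, opn := h.opn, Om := h1, Om' := h2, sub := h3
      mix := fun t _ => mx _
      PS := fun t ht x a b => (h.hG t ht).P ▸ P_trS G0.F (H t).F x a b
      SP := fun t _ x a b => h.h0.P ▸ trS_P G0.F (H t).F x a b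
      PSi := fun t _ x a b => h.h0.P ▸ P_trS (H t).F G0.F x a b
      SiP := fun t ht x a b => (h.hG t ht).P ▸ trS_P (H t).F G0.F x a b
      SSi := fun t ht x a b => (h.hG t ht).P ▸ trS_trS G0.F (H t).F x a b
      SiS := fun t _ x a b => h.h0.P ▸ trS_trS (H t).F G0.F x a b
      sS := h.sS, sSi := h.sSi
      scf := fun a b k => (SB.fixed (Cb_const _)).mul ((sb_Gam (G := fun t => (H t).F)
        (fun t _ => mx _) h.sS sP h.sc a b k).sub (.sum fun l => (h.sS a l).mul (s0 l b k)))
      sla := fun a => (SB.fixed (Cb_const _)).mul (SB.clm trE (((SB.fixed (Cb_const _)).mul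
        ((h.sa a).sub (.sum fun b => (h.sS a b).smul (.fixed (h.ca b))))).mul (.fixed h.cl)))
      sc := h.sc
      sdv := fun a => (SB.sum fun b => SB.sum fun l => (h.sc b a l).mul (sP l b)).congr
        fun t ht => funext fun x => dv_vol (h.hG t ht).vol a x
      sa := h.sa, dens := h.dens
      conn := fun m A0 hm hA t ht => isConn_chg h.hB h.h0 (h.hG t ht) hm hA }

/-- closed manifolds -/
theorem famIn_cpt [CompactSpace M] [SecondCountableTopology M] (hn : Module.finrank ℝ E ≤ 4)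
    (hB : B.OK I) (h0 : G0.OK B) (hG : ∀ t ∈ Q, (H t).OK B) (hQ : IsOpen Q)
    (hJ : JF Q fun t => (H t).F.toPre) (ha : ∀ a, JS I Q fun t => (H t).a a) :
    FamIn B G0.F G0 H Q where
  hB := hB
  h0 := h0
  hG := hG
  tame := Cht98.exists_tame _ hn
  tameG _ _ := Cht98.exists_tame _ hn
  e0 := rfl
  co a b c d := Cb_of_compact (hB.so a b c d)
  cl := Cb_of_compact hB.sl
  ca a := Cb_of_compact (h0.con.sm a)
  opn := hQ
  sS a b := ((JF.fixed G0.F.toPre).mix hJ a b).sb hQ
  sSi a b := (hJ.mix (JF.fixed G0.F.toPre) a b).sb hQ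
  sc a b k := (hJ.c a b k).sb hQ
  sa a := (ha a).sb hQ
  dens := ⟨_, ((JF.fixed G0.F.toPre).rd hJ).sb hQ, fun t ht =>
    ⟨rd_pos _ _, vol_eq h0.vol (hG t ht).vol⟩⟩

end Crest.Agent.X212.Met55
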