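import Crest.Agent.X212.Met55.Wld
import Crest.Agent.X212.Cyl58.Tr
import Crest.Agent.X212.M.Lit
import Crest.Agent.X212.Pj41.Mid
import Crest.Agent.X212.Line51.Exl

/-! Pull-back of a world and of its lines along a global identification of marks. -/

set_option linter.unusedSectionVars false

open scoped Manifold ContDiff Topology InnerProductSpace Classical
open Set Filter Function Module Matrix

noncomputable section
namespace Crest.Agent.X212.Met55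

open Sob92 Pj41 An Cyl58 Prm93 M Cyf70
open Dr59 (mf)
open Line51 (Ln Uni J1)

variable {X X' : Mf 4} {A A' B κ : Type} [Fintype A] [Fintype A'] [Fintype B] [Fintype κ]
  {M : Mark X A κ} {M' : Mark X' A' κ} (J : MId M M' B)

/-- the parameter of `M'` matched to `t` -/
def ext (t : A → ℝ) : A' → ℝ := extend J.f' (t ∘ J.f) 0

theorem ext_f (t : A → ℝ) (b : B) : ext J t (J.f' b) = t (J.f b) := J.f'.injective.extend_apply _ _ b

theorem ext_out (t : A → ℝ) {a : A'} (h : a ∉ range J.f') : ext J t a = 0 := extend_apply' _ _ _ h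

theorem contDiff_ext : ContDiff ℝ ∞ fun p : Prm A => (p.1, ext J p.2) := by
  refine contDiff_fst.prodMk (contDiff_pi.2 fun a => ?_)
  by_cases h : a ∈ range J.f'
  · obtain ⟨b, rfl⟩ := h
    simp only [ext_f]; fun_prop
  · simp only [ext_out J _ h]; fun_prop

theorem mem_band (b : B) {x : X.M} (hx : x ∈ J.ψ.source) :
    J.ψ x ∈ range (M'.bn (J.f' b)).j ↔ x ∈ range (M.bn (J.f b)).j := by
  simpa [Band.slab] using J.mem_slab b (s := univ) hx

theorem mem_core (b : B) {x : X.M} (hx : x ∈ J.ψ.source) :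
    J.ψ x ∈ (M'.sys.w (J.f' b)).core ↔ x ∈ (M.sys.w (J.f b)).core :=
  forall_congr' fun s => not_congr (J.sd b s x hx)

theorem cmp_iff (b b' : B) : M'.sys.Cmp (J.f' b) (J.f' b') ↔ M.sys.Cmp (J.f b) (J.f b') := by
  refine ⟨fun h => disjoint_left.2 fun x h1 h2 => Mark.not_cmp ((mem_band J b (J.sub b h1)).2 h1)
    ((mem_band J b' (J.sub b h1)).2 h2) h, fun h => disjoint_left.2 ?_⟩
  rintro _ ⟨q, rfl⟩ h2
  rw [← J.jj'] at h2
  exact Mark.not_cmp (mem_range_self _) ((mem_band J b' (J.sub b (mem_range_self _))).1 h2) h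

/-- the matched cell -/
def cl (c : M.Cl) : M'.Cl := ⟨J.f' '' (J.f ⁻¹' c.1), by
  rintro _ ⟨b, hb, rfl⟩ _ ⟨b', hb', rfl⟩ h
  exact (cmp_iff J b b').2 (c.2 hb hb' fun e => h (by rw [J.f.injective e]))⟩

theorem mem_cl {c : M.Cl} {b : B} : J.f' b ∈ (cl J c).1 ↔ J.f b ∈ c.1 :=
  J.f'.injective.mem_set_image

theorem wt_eq (b : B) : M'.wt (J.f' b) = M.wt (J.f b) := by
  funext t s i
  cases i <;> simp only [Mark.wt, J.pin b]

theorem mf_nf (b : B) (t : ℝ) (q : (M.bn (J.f b)).Y.M × ℝ) (i : Option κ) :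
    mf (IC (M.bn (J.f b)).Y.I) (IC (M'.bn (J.f' b)).Y.I) (Prod.map (J.g b) id) q
      (M.nf (J.f b) t q i) = M'.nf (J.f' b) t (J.g b q.1, q.2) i := by
  rw [Mark.nf, Mark.nf, map_smul, wt_eq]
  refine congrArg _ ((DFunLike.congr_fun (mfderiv_prodMap (md_dif (J.g b) q.1)
    mdifferentiableAt_id) _).trans ?_)
  rw [mfderiv_id]
  cases i
  · exact Prod.ext (mfderiv (M.bn (J.f b)).Y.I (M'.bn (J.f' b)).Y.I (J.g b) q.1).map_zero rfl
  · exact Prod.ext (J.gY b _ q.1) rfl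

/-- the differential of a map that agrees with `F ∘ (g × id)` on model vectors -/
theorem mf_band {Z : Mf 4} (b : B) (t : ℝ) {q : (M.bn (J.f b)).Y.M × ℝ} (i : Option κ)
    {F : (M'.bn (J.f' b)).Y.M × ℝ → Z.M} {G : (M.bn (J.f b)).Y.M × ℝ → Z.M}
    (hF : IsLocalDiffeomorphAt (IC (M'.bn (J.f' b)).Y.I) Z.I ∞ F (J.g b q.1, q.2))
    (e : G =ᶠ[𝓝 q] F ∘ Prod.map (J.g b) id) :
    mf (IC (M.bn (J.f b)).Y.I) Z.I G q (M.nf (J.f b) t q i) =
      mf (IC (M'.bn (J.f' b)).Y.I) Z.I F (J.g b q.1, q.2) (M'.nf (J.f' b) t (J.g b q.1, q.2) i) := by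
  rw [Dr59.mf_congr e, ← mf_nf]
  exact DFunLike.congr_fun (Dr59.mf_comp (g := F) (f := Prod.map (J.g b) id) (z := q)
    (hF.mdifferentiableAt (by simp)) ((md_dif (J.g b) q.1).prodMap' mdifferentiableAt_id)) _

variable {J} (hs : Surjective J.f)
include hs

theorem mem_fr_cl {c : M.Cl} {b : B} : J.f' b ∈ M'.sys.fr (cl J c).1 ↔ J.f b ∈ M.sys.fr c.1 := by
  refine and_congr (mem_cl J).not ⟨fun h a ha => ?_, ?_⟩
  · obtain ⟨b', rfl⟩ := hs a
    exact (cmp_iff J _ _).1 (h _ ((mem_cl J).2 ha))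
  · rintro h _ ⟨b', hb, rfl⟩
    exact (cmp_iff J _ _).2 (h _ hb)

omit hs in
theorem ext_par {t : A → ℝ} (h : t ∈ M.sys.Par) : ext J t ∈ M'.sys.Par := by
  have key : ∀ a, ext J t a ≠ 0 → a ∈ range J.f' := fun a h => by_contra fun h' => h (ext_out J t h')
  refine ⟨fun a => ?_, fun a ha a' ha' hne => ?_⟩
  · by_cases ha : a ∈ range J.f'
    · obtain ⟨b, rfl⟩ := ha
      rw [ext_f]; exact h.1 _
    · rw [ext_out J t ha]; exact ⟨le_rfl, zero_le_one⟩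
  · obtain ⟨b, rfl⟩ := key a ha
    obtain ⟨b', rfl⟩ := key a' ha'
    exact (cmp_iff J _ _).2 (h.2 (fun e => ha ((ext_f J t b).trans e))
      (fun e => ha' ((ext_f J t b').trans e)) fun e => hne (by rw [J.f.injective e]))

omit hs in
theorem ext_br {c : M.Cl} {p : Prm A} (h : p ∈ M.Br c.1) : (p.1, ext J p.2) ∈ M'.Br (cl J c).1 :=
  ⟨ext_par h.1, by rintro _ ⟨b, hb, rfl⟩; exact (ext_f J _ b).trans (h.2 hb)⟩

omit hs in
theorem cores_ext {t : A → ℝ} {x : X.M} (hx : x ∈ J.ψ.source) (h : x ∉ M.sys.cores (Sys.inf t)) :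
    J.ψ x ∉ M'.sys.cores (Sys.inf (ext J t)) := fun h' => by
  obtain ⟨a, ha, h'⟩ := mem_iUnion₂.1 h'
  obtain ⟨b, rfl⟩ : a ∈ range J.f' := by_contra fun k => zero_ne_one ((ext_out J t k).symm.trans ha)
  exact h (mem_biUnion (show J.f b ∈ Sys.inf t from (ext_f J t b).symm.trans ha)
    ((mem_core J b hx).1 h'))

theorem lit_cl {m c : M.Cl} {b : B} {s : ℝ} (h : M.Lit m.1 c.1 (J.f b) s) :
    M'.Lit (cl J m).1 (cl J c).1 (J.f' b) s :=
  ⟨h.1, h.2.imp (fun h => ⟨(mem_cl J).2 h.1, h.2⟩) fun h => ⟨(mem_cl J).2 h.1, (mem_fr_cl hs).2 h.2⟩⟩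

variable (hJ : J.Glob) (C : Caps M) (W : World M')
include hJ

theorem exists_tr (c : M.Cl) :
    ∃ Ψ : (C.Z c).M ≃ₘ^∞⟮(C.Z c).I, (W.Z (cl J c)).I⟯ (W.Z (cl J c)).M,
      (∀ x ∉ M.sys.cores c.1, Ψ (C.φ c x) = W.φ (cl J c) (J.ψ x)) ∧
      Orx52.Pos (C.Z c).I (W.Z (cl J c)).I Ψ univ (C.o c) (W.o (cl J c)) :=
  let ⟨Ψ, h1, _, h2⟩ := tr_glob C W.toCaps J hJ (c := c) (c' := cl J c) (fun a _ => hs a)
    (image_subset_range _ _) fun _ => (mem_cl J).symm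
  ⟨Ψ, h1, h2⟩

/-- the transfer diffeomorphism -/
def trD (c : M.Cl) : (C.Z c).M ≃ₘ^∞⟮(C.Z c).I, (W.Z (cl J c)).I⟯ (W.Z (cl J c)).M :=
  (exists_tr hs hJ C W c).choose

variable {C W} {c : M.Cl}

omit hs in
theorem src (x : X.M) : x ∈ J.ψ.source := hJ.1 ▸ mem_univ x

theorem trD_φ {x : X.M} (hx : x ∉ M.sys.cores c.1) :
    trD hs hJ C W c (C.φ c x) = W.φ (cl J c) (J.ψ x) := (exists_tr hs hJ C W c).choose_spec.1 x hx

theorem trD_ld (z : (C.Z c).M) :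
    IsLocalDiffeomorphAt (C.Z c).I (W.Z (cl J c)).I ∞ (trD hs hJ C W c) z :=
  (trD hs hJ C W c).isLocalDiffeomorph z

theorem trD_md (z : (C.Z c).M) :
    MDifferentiableAt (C.Z c).I (W.Z (cl J c)).I (trD hs hJ C W c) z :=
  (trD_ld hs hJ z).mdifferentiableAt (by simp)

theorem cores_cl {x : X.M} : J.ψ x ∈ M'.sys.cores (cl J c).1 ↔ x ∈ M.sys.cores c.1 :=
  cores_iff J (fun a _ => hs a) (image_subset_range _ _) (fun _ => (mem_cl J).symm) (src hJ x)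

theorem trD_ev {x : X.M} (hx : x ∉ M.sys.cores c.1) :
    trD hs hJ C W c ∘ C.φ c =ᶠ[𝓝 x] W.φ (cl J c) ∘ J.ψ :=
  eventually_of_mem ((M.sys.isClosed_cores _).isOpen_compl.mem_nhds hx) fun _ => trD_φ hs hJ

theorem mf_trD {x : X.M} (hx : x ∉ M.sys.cores c.1) (v : X.E) :
    dmp (C.Z c).I (W.Z (cl J c)).I (trD hs hJ C W c) (C.φ c x) (mf X.I (C.Z c).I (C.φ c) x v) =
      mf X'.I (W.Z (cl J c)).I (W.φ (cl J c)) (J.ψ x) (mf X.I X'.I J.ψ x v) := by
  have h := Dr59.mf_congr (J := X.I) (I := (W.Z (cl J c)).I) (trD_ev hs hJ (C := C) (W := W) hx)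
  exact DFunLike.congr_fun ((Dr59.mf_comp (trD_md hs hJ _)
    ((C.ld hx).mdifferentiableAt (by simp))).symm.trans (h.trans (Dr59.mf_comp
      ((W.ld (mt (cores_cl hs hJ).1 hx)).mdifferentiableAt (by simp)) (J.md (src hJ x))))) v

/-- sets inside a free band correspond -/
theorem trD_mem {b : B} (hb : J.f b ∈ M.sys.fr c.1) {s : Set ℝ} {z : (C.Z c).M}
    (h : trD hs hJ C W c z ∈ W.φ (cl J c) '' (M'.bn (J.f' b)).slab s) :
    z ∈ C.φ c '' (M.bn (J.f b)).slab s := by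
  rw [← J.image_slab] at h
  obtain ⟨_, ⟨x, hx, rfl⟩, e⟩ := h
  exact ⟨x, hx, (trD hs hJ C W c).injective
    ((trD_φ hs hJ (Mark.fr_not_mem hb ((M.bn _).slab_subset _ hx))).trans e)⟩

theorem trD_Ω {p : Prm A} {z : (C.Z c).M} (h : (p, z) ∈ M.Ω c.1 (C.φ c)) :
    ((p.1, ext J p.2), trD hs hJ C W c z) ∈ M'.Ω (cl J c).1 (W.φ (cl J c)) := fun a ha => by
  by_cases k : a ∈ range J.f'
  · obtain ⟨b, rfl⟩ := k
    have hb := (mem_fr_cl hs).1 ha
    refine (h _ hb).imp (fun h => (ext_f J _ b).trans_lt h) fun h h' => h ?_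
    have := trD_mem hs hJ hb (s := {0}) (by rwa [Band.slab_zero])
    rwa [Band.slab_zero] at this
  · exact .inl ((ext_out J _ k).trans_lt one_pos)

theorem trD_loc {t t' : A → ℝ} {z : (C.Z c).M}
    (h : ∀ a ∈ M.sys.fr c.1, z ∈ C.φ c '' (M.bn a).slab (Icc (-2) 2) → t a = t' a) :
    ∀ a ∈ M'.sys.fr (cl J c).1, trD hs hJ C W c z ∈ W.φ (cl J c) '' (M'.bn a).slab (Icc (-2) 2) →
      ext J t a = ext J t' a := fun a ha hz => by
  by_cases k : a ∈ range J.f'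
  · obtain ⟨b, rfl⟩ := k
    have hb := (mem_fr_cl hs).1 ha
    rw [ext_f, ext_f, h _ hb (trD_mem hs hJ hb hz)]
  · rw [ext_out J _ k, ext_out J _ k]

variable (C W) in
/-- pull-back of fields -/
def pbZ (c : M.Cl) (e : Option κ → VF (W.Z (cl J c)).I (W.Z (cl J c)).M) :
    Option κ → VF (C.Z c).I (C.Z c).M := fun i => pbv _ _ (trD hs hJ C W c) (e i)

theorem pbZ_rel (e : Option κ → VF (W.Z (cl J c)).I (W.Z (cl J c)).M) (z : (C.Z c).M) (i : Option κ) :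
    mfderiv (C.Z c).I (W.Z (cl J c)).I (trD hs hJ C W c) z (pbZ hs hJ C W c e i z) =
      e i (trD hs hJ C W c z) := pbv_rel (trD_ld hs hJ z) _

theorem sp_pbZ {e : Option κ → VF (W.Z (cl J c)).I (W.Z (cl J c)).M} {z : (C.Z c).M}
    (h : Sp (atx e (trD hs hJ C W c z))) : Sp (atx (pbZ hs hJ C W c e) z) :=
  (sp_rel (trD_ld hs hJ z) (pbZ_rel hs hJ e z)).2 h

theorem ov_pbZ {e : Option κ → VF (W.Z (cl J c)).I (W.Z (cl J c)).M} {z : (C.Z c).M}
    (h : Sp (atx e (trD hs hJ C W c z))) (i k l n : Option κ) :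
    ov (C.o c) (pbZ hs hJ C W c e) i k l n z = ov (W.o (cl J c)) e i k l n (trD hs hJ C W c z) :=
  (cf_rel (W.Z _).dim (C.Z c).dim (pbZ_rel hs hJ e z) h (sp_pbZ hs hJ h) (by
    rw [mul_comm]; exact (exists_tr hs hJ C W c).choose_spec.2 z trivial) _).symm

variable (C W) in
/-- the pulled back layer -/
def pLay (m c : M.Cl) : Lay (C.Z c) (C.o c) (Prm A) (Option κ) (M.Ω c.1 (C.φ c)) where
  F0 := rFr (pbZ hs hJ C W c (W.L (cl J m) (cl J c)).F0.e) fun z =>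
    (pre_fAt _ _).pbv (trD_ld hs hJ z)
  vol := rFr_vol _ _
  e p := pbZ hs hJ C W c ((W.L (cl J m) (cl J c)).e (p.1, ext J p.2))
  sm _ z h i := VJ.pbv (X' := fun p : Prm A => (W.L (cl J m) (cl J c)).e (p.1, ext J p.2) i)
    (trD_ld hs hJ z) (VJ.reparam (X := fun p => (W.L (cl J m) (cl J c)).e p i)
      (contDiff_ext J).contDiffAt ((W.L _ _).sm _ _ (trD_Ω hs hJ h) i))
  sp _ _ h := sp_pbZ hs hJ ((W.L _ _).sp _ _ (trD_Ω hs hJ h))
  P _ z h := ((fP_rel (trD_ld hs hJ z) (sp_pbZ hs hJ ((W.L _ _).sp _ _ (trD_Ω hs hJ h)))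
    (pbZ_rel hs hJ _ z)).trans ((W.L _ _).P _ _ (trD_Ω hs hJ h))).trans
      (fP_rel (trD_ld hs hJ z) (sp_pbZ hs hJ (pre_sp _ _)) (pbZ_rel hs hJ _ z)).symm
  ob _ _ h i k l n := ((ov_pbZ hs hJ ((W.L _ _).sp _ _ (trD_Ω hs hJ h)) i k l n).trans
    ((W.L _ _).ob _ _ (trD_Ω hs hJ h) i k l n)).trans (ov_pbZ hs hJ (pre_sp _ _) i k l n).symm

omit hs hJ in
variable (J W) in
/-- the pulled back hub -/
def pk (p : Prm A) (x : X.M) (i : Option κ) : X.E :=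
  (mf X.I X'.I J.ψ x).inverse (W.k (p.1, ext J p.2) (J.ψ x) i)

omit hs in
theorem pk_rel (p : Prm A) (x : X.M) (i : Option κ) :
    mf X.I X'.I J.ψ x (pk J W p x i) = W.k (p.1, ext J p.2) (J.ψ x) i :=
  (ld_inv (pd_ld (src hJ x))).self_apply_inverse _

theorem pb_lit {m : M.Cl} {b : B} {q : (M.bn (J.f b)).Y.M × ℝ} (hq : M.Lit m.1 c.1 (J.f b) q.2)
    {e : Option κ → VF (W.Z (cl J c)).I (W.Z (cl J c)).M} {t : ℝ} {i : Option κ}
    (h : atx e (W.φ (cl J c) ((M'.bn (J.f' b)).j (J.g b q.1, q.2))) i =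
      mf (IC (M'.bn (J.f' b)).Y.I) (W.Z (cl J c)).I (W.φ (cl J c) ∘ (M'.bn (J.f' b)).j)
        (J.g b q.1, q.2) (M'.nf (J.f' b) t (J.g b q.1, q.2) i)) :
    atx (pbZ hs hJ C W c e) (C.φ c ((M.bn (J.f b)).j q)) i =
      mf (IC (M.bn (J.f b)).Y.I) (C.Z c).I (C.φ c ∘ (M.bn (J.f b)).j) q (M.nf (J.f b) t q i) := by
  have hx := hq.not_mem
  refine (ld_bij (trD_ld hs hJ (W := W) _)).1 ((pbZ_rel hs hJ e _ i).trans ?_)
  rw [trD_φ hs hJ hx, J.jj]
  refine h.trans ((mf_band J b t i (G := trD hs hJ C W c ∘ C.φ c ∘ (M.bn (J.f b)).j)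
    (W.ld_nj (lit_cl hs hq (m := m)).not_mem) ?_).symm.trans ?_)
  · filter_upwards [((M.bn _).oe.continuous.tendsto q).eventually (trD_ev hs hJ (C := C) (W := W) hx)]
      with q' hq'
    exact hq'.trans (congrArg _ (J.jj b q'))
  · exact DFunLike.congr_fun (Dr59.mf_comp (trD_md hs hJ _)
      ((C.ld_nj hx).mdifferentiableAt (by simp))) _

variable (C W) in
/-- **the pulled back world** -/
def pW : World M where
  toCaps := C
  k := pk J W
  L := pLay hs hJ C W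
  loc m c u t t' z h := funext fun i => congrArg (mfderiv _ _ (trD hs hJ C W c) z).inverse
    (congrFun (W.loc (cl J m) (cl J c) u _ _ _ (trD_loc hs hJ h)) i)
  co m c p hp x hx := by
    have h0 : x ∉ M.sys.cores c.1 := fun h => hx (biUnion_subset_biUnion_left hp.2 h)
    refine Co.of_map (A := dmp (C.Z c).I (W.Z (cl J c)).I (trD hs hJ C W c) (C.φ c x))
      (ld_bij (trD_ld hs hJ _)) ?_
    have h1 := W.co (cl J m) (cl J c) _ (ext_br hp) _ (cores_ext (src hJ x) hx)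
    rw [← trD_φ hs hJ (C := C) h0, atx_rel (pbZ_rel hs hJ _ (C.φ c x))] at h1
    simp only [mf_trD hs hJ h0, pk_rel hJ]
    exact h1
  neck a p hp ht q hq ho := by
    obtain ⟨b, rfl⟩ := hs a
    refine Co.of_map (A := dmp X.I X'.I J.ψ ((M.bn _).j q)) (ld_bij (pd_ld (src hJ _))) ?_
    have h1 := W.neck (J.f' b) (p.1, ext J p.2) (ext_par hp) (ht.trans_eq (ext_f J p.2 b).symm)
      (J.g b q.1, q.2) hq (by simpa only [ext_f] using ho)
    rw [← J.jj] at h1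
    simp only [ext_f] at h1
    have h2 : ∀ i, dmp X.I X'.I J.ψ ((M.bn _).j q) (pk J W p ((M.bn _).j q) i) = _ :=
      pk_rel hJ p _
    have h3 : ∀ i, dmp X.I X'.I J.ψ ((M.bn _).j q) (mf (IC (M.bn (J.f b)).Y.I) X.I (M.bn _).j q
        (M.nf (J.f b) (p.2 (J.f b)) q i)) = _ := fun i =>
      (DFunLike.congr_fun (Dr59.mf_comp (J.md (src hJ _))
        (((M.bn _).oe.contMDiff q).mdifferentiableAt (by simp))) _).symm.trans
        (mf_band J b _ i ((M'.bn _).oe.loc _) (.of_forall (J.jj b)))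
    simpa only [h2, h3] using h1
  lit m c a ha p hp ht q hq ho i := by
    obtain ⟨b, rfl⟩ := hs a
    refine pb_lit hs hJ hq ?_
    have := W.lit (cl J m) (cl J c) (J.f' b) (mt (J.pin b).1 ha) _ (ext_br hp)
      (ht.trans_eq (ext_f J p.2 b).symm) (J.g b q.1, q.2) (lit_cl hs hq)
      (by simpa only [ext_f] using ho) i
    simpa only [ext_f] using this

omit hs in
theorem ext_of_rel {t : A → ℝ} {t' : A' → ℝ} (h : J.Rel univ t t') : ext J t = t' := by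
  funext a
  by_cases k : a ∈ range J.f'
  · obtain ⟨b, rfl⟩ := k
    rw [ext_f, h.eq]
  · rw [ext_out J t k]
    by_contra h0
    have := h.off' a k (Ne.symm h0)
    rw [hJ.image, disjoint_univ] at this
    exact (range_nonempty _).ne_empty this

theorem wId_pW (u : ℝ) : WId (pW hs hJ C W) W J univ u u := fun t t' h x _ _ => by
  rw [← ext_of_rel hJ h]
  exact (funext (pk_rel hJ (u, t) x) : _ = W.k (u, ext J t) (J.ψ x)) ▸ Co.refl _

/-! ### lines -/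

variable {lam : Type} [Fintype lam] {N : ML M lam} {N' : ML M' lam} {w : X.M → Matrix lam lam ℂ}
  (hw : LId N N' J univ w) (Λ : Lns W N')
include hw

omit hs hw in
theorem mp_ψ : Dr59.Mp X.I X'.I univ univ J.ψ :=
  ⟨fun x _ => (pd_ld (src hJ x)).contMDiffAt, mapsTo_univ _ _⟩

omit hs hJ hw in
variable (J w) in
/-- the pulled back hub connection -/
def pa (p : Prm A) : X.M → R208.F.Ext X.E :=
  Line51.th X.I w + Dr59.pm X.I X'.I J.ψ (Λ.a0 (p.1, ext J p.2))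

omit hs hJ in
theorem iso_pa (p : Prm A) : Line51.Iso X.I ⟨N.p, pa J w Λ p⟩
    (Ln.pull X.I X'.I J.ψ ⟨N'.p, Λ.a0 (p.1, ext J p.2)⟩) w univ := ⟨hw.uni, fun _ _ => rfl⟩

omit hw in
variable (C) in
/-- the pulled back line layer -/
def pLL (m c : M.Cl) : LLay (pLay hs hJ C W m c) lam where
  p z := (Λ.Λ (cl J m) (cl J c)).p (trD hs hJ C W c z)
  a p := Dr59.pm (C.Z c).I (W.Z (cl J c)).I (trD hs hJ C W c)
    ((Λ.Λ (cl J m) (cl J c)).a (p.1, ext J p.2))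
  ok p := ((Λ.Λ (cl J m) (cl J c)).ok (p.1, ext J p.2)).pull
    ⟨fun z _ => (trD_ld hs hJ z).contMDiffAt, mapsTo_univ _ _⟩
  sm k _ z := J1.pm (trD hs hJ C W c).toPartialDiffeomorph (mem_univ z)
    (J1.reparam (a := (Λ.Λ (cl J m) (cl J c)).a) (contDiff_ext J).contDiffAt fun _ he =>
      (Λ.Λ _ _).jAt_a (VJ.of_fixed he)) _ ((pLay hs hJ C W m c).F0.sm k z)

theorem pL_iso (m c : M.Cl) {p : Prm A} (hp : p ∈ M.Br c.1) : Line51.Iso X.I ⟨N.p, pa J w Λ p⟩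
    (((pLL hs hJ C Λ m c).ln p).pull X.I (C.Z c).I (C.φ c))
    (fun x => Λ.v (cl J m) (cl J c) (J.ψ x) * w x) (C.φ c).source := by
  have h1 := (Λ.iso (cl J m) (cl J c) _ (ext_br hp)).pull (f := J.ψ) (W := (C.φ c).source)
    ⟨fun x _ => (pd_ld (src hJ x)).contMDiffAt, fun x hx =>
      (W.mem_src _).2 (mt (cores_cl hs hJ).1 ((C.mem_src c).1 hx))⟩
  have h2 := ((iso_pa hw Λ p).mono (subset_univ (C.φ c).source)).trans h1
  refine h2.of_eq (fun _ _ => rfl) (fun _ _ => rfl) (fun x hx => congrArg (Λ.Λ (cl J m) (cl J c)).p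
      (trD_φ hs hJ ((C.mem_src c).1 hx))) fun x hx => ?_
  have hx := (C.mem_src c).1 hx
  exact ((Dr59.pm_comp (trD_md hs hJ _) ((C.ld hx).mdifferentiableAt (by simp))).trans
    (Dr59.pm_congr (trD_ev hs hJ hx) rfl)).trans (Dr59.pm_comp
      ((W.ld (mt (cores_cl hs hJ).1 hx)).mdifferentiableAt (by simp)) (J.md (src hJ x))).symm

omit hs in
theorem pL_neck (b : B) {p : Prm A} (hp : p.2 ∈ M.sys.Par) (ht : 1 / 2 ≤ p.2 (J.f b)) :
    Line51.Iso (IC (M.bn (J.f b)).Y.I) (Ln.pull (IC (M.bn (J.f b)).Y.I) X.I (M.bn (J.f b)).j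
      ⟨N.p, pa J w Λ p⟩) (N.cy (J.f b)).ln (N.m (J.f b)) {q | |q.2| ≤ 1} := by
  have hg : ∀ q : (M.bn (J.f b)).Y.M × ℝ, ContMDiffAt (IC (M.bn (J.f b)).Y.I) (IC (M'.bn (J.f' b)).Y.I) ∞
      (Prod.map (J.g b) (id : ℝ → ℝ)) q := fun q => ((J.g b).contMDiff.prodMap contMDiff_id) q
  have h1 := (Λ.neck (J.f' b) (p.1, ext J p.2) (ext_par hp)
    (ht.trans_eq (ext_f J p.2 b).symm)).pull
    (f := Prod.map (J.g b) id) (W := {q | |q.2| ≤ 1}) ⟨fun q _ => hg q, fun _ h => h⟩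
  have h2 := (iso_pa hw Λ p).pull (f := (M.bn (J.f b)).j) (W := {q | |q.2| ≤ 1})
    ⟨fun q _ => (M.bn _).oe.contMDiff q, mapsTo_univ _ _⟩
  have h3 := h2.trans (h1.of_eq (fun q _ => congrArg N'.p (J.jj b q)) (fun q _ =>
    ((Dr59.pm_comp (J.md (src hJ _)) (((M.bn _).oe.contMDiff q).mdifferentiableAt (by simp))).trans
      (Dr59.pm_congr (.of_forall (J.jj b)) rfl)).trans (Dr59.pm_comp
        (((M'.bn _).oe.contMDiff _).mdifferentiableAt (by simp))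
        ((hg q).mdifferentiableAt (by simp))).symm)
    (K' := (N.cy (J.f b)).ln) (fun q _ => congrArg (fun L : Ln _ _ _ => L.p q.1) (hw.LY b).symm)
    fun q _ => ?_)
  · refine ⟨(N.um _).mono fun q h => le_trans (show |q.2| ≤ 1 from h) (by norm_num),
      fun q hq => Eq.trans (congrArg (· + _) (Line51.th_congr ?_)) (h3.par q hq)⟩
    filter_upwards [(isOpen_lt (continuous_abs.comp continuous_snd) continuous_const).mem_nhds
      (show |q.2| < 3 from lt_of_le_of_lt hq (by norm_num))] with q' h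
    exact (hw.m b q' (le_of_lt h) trivial).symm
  · show Dr59.pm _ _ Prod.fst (N.LY (J.f b)).a q = _
    rw [← hw.LY b]
    exact (Dr59.pm_comp (md_dif (J.g b) _) mdifferentiableAt_fst).trans (Dr59.pm_comp
      mdifferentiableAt_fst ((hg q).mdifferentiableAt (by simp))).symm

variable (C) in
/-- **the pulled back lines** -/
def pL : Lns (pW hs hJ C W) N where
  a0 := pa J w Λ
  Λ := pLL hs hJ C Λ
  v m c x := Λ.v (cl J m) (cl J c) (J.ψ x) * w x
  ok0 p := ⟨N.ok.sm, N.ok.prj, N.ok.tr, hw.uni.sm_th.add ((Λ.ok0 _).sa.pm (mp_ψ hJ)),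
    (Line51.dg_th _).add ((Λ.ok0 _).dg.pm (mapsTo_univ _ _))⟩
  loc m c u _ _ _ h := Dr59.pm_congr_right (Λ.loc (cl J m) (cl J c) u _ _ _ (trD_loc hs hJ h))
  iso m c _ hp := pL_iso hs hJ hw Λ m c hp
  neck a p hp ht := by
    obtain ⟨b, rfl⟩ := hs a
    exact pL_neck hJ hw Λ b hp ht
  lit m c a q hq := by
    obtain ⟨b, rfl⟩ := hs a
    rw [J.jj, Λ.lit _ _ _ (J.g b q.1, q.2) (lit_cl hs hq)]
    exact hw.m b q (hq.1.trans (by norm_num)) trivial

theorem cId_pL (u : ℝ) : CId (pL hs hJ C hw Λ) Λ J univ w u u := fun t t' h => by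
  rw [← ext_of_rel hJ h]
  exact iso_pa hw Λ (u, t)

end Crest.Agent.X212.Met55
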