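import Crest.Agent.X212.Met55.Hub
import Crest.Agent.X212.M.Api
import Crest.Agent.X212.M.Rel

/-! The standard world over base frames; `ExwStmt` from `Ms1Stmt`. -/

set_option linter.unusedSectionVars false

open scoped Manifold ContDiff Topology InnerProductSpace Classical
open Set Filter Function Module Matrix

noncomputable section
namespace Crest.Agent.X212.Met55

open Sob92 Pj41 An Cyl58 Prm93 M Cyf70
open Dr59 (mf)

variable {X : Mf 4} {A κ : Type} [Fintype A] [Fintype κ] {M : Mark X A κ}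

variable (M) in
/-- the parameter seen on `Z σ` -/
def msk (σ : Set A) (t : A → ℝ) (a : A) : ℝ :=
  if a ∈ σ then 1 else if a ∈ M.sys.fr σ then t a else 0

section msk
variable {σ : Set A} {t t' : A → ℝ} {a b : A} {x : X.M}

theorem msk_mem (h : a ∈ σ) : msk M σ t a = 1 := if_pos h

theorem msk_fr (h : a ∈ M.sys.fr σ) : msk M σ t a = t a := (if_neg h.1).trans (if_pos h)

theorem msk_out (h : a ∉ σ) (h' : a ∉ M.sys.fr σ) : msk M σ t a = 0 :=
  (if_neg h).trans (if_neg h')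

theorem msk_congr (h : a ∈ M.sys.fr σ → t a = t' a) : msk M σ t a = msk M σ t' a := by
  unfold msk; split_ifs with h1 h2
  exacts [rfl, h h2, rfl]

theorem msk_br {p : Prm A} (h : p ∈ M.Br σ) : msk M σ p.2 = p.2 := by
  funext a
  unfold msk; split_ifs with h1 h2
  exacts [(h.2 h1).symm, rfl, (by_contra fun h0 => h2 ⟨h1, fun a' ha' => h.1.2 (Ne.symm h0)
    (Sys.inf_subset _ (h.2 ha')) (by rintro rfl; exact h1 ha')⟩)]

theorem contDiff_msk : ContDiff ℝ ∞ fun p : Prm A => (p.1, msk M σ p.2) := by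
  refine contDiff_fst.prodMk (contDiff_pi.2 fun a => ?_)
  unfold msk; split_ifs <;> fun_prop

theorem msk_cmp (c : M.Cl) (ha : a ∈ c.1) (hb : b ≠ a) (h : msk M c.1 t b ≠ 0) : M.sys.Cmp b a := by
  by_cases h1 : b ∈ c.1
  · exact c.2 h1 ha hb
  · exact (of_not_not fun h2 => h (msk_out h1 h2) : b ∈ M.sys.fr c.1).2 a ha

theorem s_ne {a : A} (h : x ∉ (M.sys.w a).core) : (M.bn a).s x ≠ 0 := mt (M.bn a).s_eq_zero.1 h

theorem s_ne_of_cores (h : x ∉ M.sys.cores σ) (ha : a ∈ σ) : (M.bn a).s x ≠ 0 :=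
  s_ne fun h' => h (mem_biUnion ha h')

theorem gd_par (ht : t ∈ M.sys.Par) (h : x ∉ M.sys.cores (Sys.inf t)) : Gd M t x := fun a =>
  (ht.1 a).2.eq_or_lt.elim (fun h1 => .inr (s_ne_of_cores h h1)) .inl

theorem gd_msk (h : x ∉ M.sys.cores σ) (h' : ∀ a ∈ M.sys.fr σ, t a < 1 ∨ x ∉ (M.sys.w a).core) :
    Gd M (msk M σ t) x := fun a => by
  by_cases h1 : a ∈ σ
  · exact .inr (s_ne_of_cores h h1)
  by_cases h2 : a ∈ M.sys.fr σ
  · rw [msk_fr h2]; exact (h' a h2).imp_right s_ne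
  · exact .inl (by rw [msk_out h1 h2]; exact one_pos)

theorem lam_zero_of_cmp (hc : t b ≠ 0 → M.sys.Cmp b a) (hx : x ∈ range (M.bn a).j) :
    lam M b (t b) x = 0 := by_contra fun h0 => Mark.not_cmp
  ((M.bn b).slab_subset _ (mem_slab_of_lam h0)) hx (hc (pos_of_lam h0).ne')

theorem chi_clp (s : ℝ) : chi (clp s) = chi s := by
  by_cases h : |s| ≤ 3
  · rw [clp_eq h]
  · rw [chi_eq_zero (s := s) (by linarith [not_le.1 h]), chi_eq_zero]
    rcases lt_abs.1 (not_le.1 h) with h | h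
    exacts [le_abs.2 (.inl (by linarith [clp_ge h.le])),
      le_abs.2 (.inr (by linarith [clp_le (s := s) (by linarith)]))]

theorem off_j {r : ℝ} {q : (M.bn a).Y.M × ℝ} (h : (r, q.2) ∈ Off) :
    (r, (M.bn a).s ((M.bn a).j q)) ∈ Off :=
  h.imp_right fun h0 => s_ne (mt (M.bn a).j_mem_core.1 h0)

end msk

variable (C : Caps M) (c : M.Cl)

/-- the cap centred at a point -/
def ctr (z : (C.Z c).M) : W4 → (C.Z c).M :=
  if h : ∃ i : A × Bool, i.1 ∈ c.1 ∧ M.pin i.1 ∧ z = C.β c i.1 i.2 0 then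
    C.β c h.choose.1 h.choose.2 else fun _ => z

variable {C c}

theorem ctr_spec {z : (C.Z c).M} (hz : z ∉ (C.φ c).target) :
    ∃ a ∈ c.1, M.pin a ∧ ∃ b, ctr C c z = C.β c a b ∧ C.β c a b 0 = z := by
  have h : ∃ i : A × Bool, i.1 ∈ c.1 ∧ M.pin i.1 ∧ z = C.β c i.1 i.2 0 := by
    rw [C.tgt] at hz
    simp only [mem_ofPred_eq, not_forall, not_not] at hz
    obtain ⟨a, h1, h2, b, h3⟩ := hz
    exact ⟨(a, b), h1, h2, h3⟩
  exact ⟨_, h.choose_spec.1, h.choose_spec.2.1, _, dif_pos h, h.choose_spec.2.2.symm⟩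

theorem ctr_ctr : Ctr (C.φ c) (ctr C c) := fun z hz => by
  obtain ⟨a, h1, h2, b, h3, h4⟩ := ctr_spec hz
  rw [h3]; exact ⟨C.βoe c a h1 h2 b, h4⟩

theorem mem_src {x : X.M} : x ∈ (C.φ c).source ↔ x ∉ M.sys.cores c.1 := by rw [C.src]; rfl

theorem exists_src {z : (C.Z c).M} (hz : z ∈ (C.φ c).target) : ∃ x ∈ (C.φ c).source, C.φ c x = z :=
  ⟨_, (C.φ c).map_target hz, (C.φ c).right_inv hz⟩

theorem exists_pol {a : A} (ha : M.pin a) {v : V4} (hv : v ≠ 0) : ∃ y, v = ‖v‖ • M.th a y := by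
  have h0 := norm_ne_zero_iff.2 hv
  obtain ⟨y, hy⟩ := (M.rnd a ha).surj (‖v‖⁻¹ • v) (by
    rw [norm_smul, norm_inv, norm_norm, inv_mul_cancel₀ h0])
  exact ⟨y, by rw [hy, smul_inv_smul₀ h0]⟩

theorem half_src {a : A} (ha : a ∈ c.1) (b : Bool) (y : (M.bn a).Y.M) {r : ℝ} (hr : 0 < r) :
    (M.bn a).j (y, pm b * r) ∈ (C.φ c).source := mem_src.2 (Mark.j_not_mem c
  (.inl ⟨ha, mul_ne_zero (left_ne_zero_of_mul_eq_one (pm_mul_pm b)) hr.ne'⟩))

theorem mf_φj {a : A} {q : (M.bn a).Y.M × ℝ} (h : (M.bn a).j q ∈ (C.φ c).source)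
    (v : (M.bn a).Y.E × ℝ) : mf (IC (M.bn a).Y.I) (C.Z c).I (C.φ c ∘ (M.bn a).j) q v =
      dmp X.I (C.Z c).I (C.φ c) ((M.bn a).j q) (mf (IC (M.bn a).Y.I) X.I (M.bn a).j q v) :=
  DFunLike.congr_fun (Dr59.mf_comp ((pd_ld h).contMDiffAt.mdifferentiableAt (by simp))
    (((M.bn a).oe.contMDiff q).mdifferentiableAt (by simp))) v

/-- the broken pinched neck is the flat cap -/
theorem co_cap {a : A} (ha : a ∈ c.1) (hp : M.pin a) (b : Bool) (y : (M.bn a).Y.M) {r : ℝ}
    (hr : 0 < r) : Co (atx (std (C.Z c).I (C.β c a b)) (C.β c a b (r • M.th a y))) fun i =>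
      mf (IC (M.bn a).Y.I) (C.Z c).I (C.φ c ∘ (M.bn a).j) (y, pm b * r)
        (M.nf a 1 (y, pm b * r) i) := by
  have hβ := C.βoe c a ha hp b
  have hθ : ContMDiff (M.bn a).Y.I 𝓘(ℝ, V4) ∞ (M.th a) := by
    simpa using sm_slice_fst (M.rnd a hp).oe.contMDiff 0
  let f : (M.bn a).Y.M × ℝ → V4 := fun q => (pm b * q.2) • M.th a q.1
  have hf : MDifferentiableAt (IC (M.bn a).Y.I) 𝓘(ℝ, V4) f (y, pm b * r) :=
    (((contMDiff_const.mul contMDiff_snd).smul (hθ.comp contMDiff_fst)) _).mdifferentiableAt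
      (by simp)
  have e0 : f (y, pm b * r) = r • M.th a y := by simp only [f, ← mul_assoc, pm_mul_pm, one_mul]
  have e1 : C.φ c ∘ (M.bn a).j =ᶠ[𝓝 (y, pm b * r)] C.β c a b ∘ f := by
    filter_upwards [(isOpen_lt continuous_const (continuous_const.mul continuous_snd)).mem_nhds
      (show 0 < pm b * (y, pm b * r).2 by rwa [← mul_assoc, pm_mul_pm, one_mul])] with q hq
    have := C.βφ c a ha hp b q.1 (pm b * q.2) hq
    rw [← mul_assoc, pm_mul_pm, one_mul] at this
    exact this.symm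
  rw [Dr59.mf_congr e1, Dr59.mf_comp ((hβ.contMDiff _).mdifferentiableAt (by simp)) hf, atx_std hβ,
    e0]
  exact ((co_flat hp b y hr).map _).symm

variable {k0 : ℝ → Option κ → VF X.I X.M}

/-- the hub at a masked parameter is flat on the caps -/
theorem hub_flat (hk : ∀ u x, Sp (atx (k0 u) x)) {z : (C.Z c).M} (hz : z ∉ (C.φ c).target)
    (p : Prm A) (v : W4) (hv : v ≠ 0) (h1 : ‖v‖ < 1) : ctr C c z v ∈ (C.φ c).target ∧
      Co (atx (std (C.Z c).I (ctr C c z)) (ctr C c z v))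
        (atx (pfd (C.φ c) (hub M k0 (p.1, msk M c.1 p.2))) (ctr C c z v)) := by
  obtain ⟨a, ha, hp, b, h3, -⟩ := ctr_spec hz
  obtain ⟨y, hy⟩ := exists_pol hp hv
  have hr := norm_pos_iff.2 hv
  have hs := half_src (C := C) ha b y hr
  have hq : |(y, pm b * ‖v‖).2| ≤ 1 := by
    rw [abs_mul, abs_pm, one_mul, abs_norm]; exact h1.le
  have h4 := co_cap (C := C) ha hp b y hr
  rw [h3, hy]
  refine ⟨by rw [C.βφ c a ha hp b y _ hr]; exact (C.φ c).map_source hs, h4.trans ?_⟩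
  rw [C.βφ c a ha hp b y _ hr, atx_pfd hs]
  simp only [mf_φj hs]
  have h5 := co_neck (k0 := k0) (p := (p.1, msk M c.1 p.2)) (hk _ _)
    (gd_msk (mem_src.1 hs) fun a' h => .inr fun h' => Mark.not_cmp
      ((M.sys.w a').core_subset h') (mem_range_self _) (h.2 a ha))
    (fun b hb => lam_zero_of_cmp (msk_cmp c ha hb) (mem_range_self _))
    ((show (1 / 2 : ℝ) ≤ 1 by norm_num).trans_eq (msk_mem ha).symm) hq
  simp only [msk_mem ha] at h5
  rw [atx_nF (hq.trans (by norm_num))] at h5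
  exact h5.map _

variable (C) in
/-- the frame `r` on `Z c` is literal on the cylindrical bands of `c` and `m` -/
def LitF (m c : M.Cl) (r : Option κ → VF (C.Z c).I (C.Z c).M) : Prop :=
  ∀ a, ¬M.pin a → ∀ q : (M.bn a).Y.M × ℝ, M.Lit m.1 c.1 a q.2 → ∀ i,
    atx r (C.φ c ((M.bn a).j q)) i = mf (IC (M.bn a).Y.I) (C.Z c).I (C.φ c ∘ (M.bn a).j) q
      (M.nf a (msk M c.1 0 a) q i)

theorem off_lit {m : M.Cl} {a : A} {s : ℝ} (h : M.Lit m.1 c.1 a s) : (msk M c.1 0 a, s) ∈ Off :=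
  h.2.elim (fun h => .inr h.2) fun h => .inl (by rw [msk_fr h.2]; exact one_pos)

/-- deforming a model frame to the metric of another model frame gives that frame -/
theorem cF_lit {a : A} (ha : ¬M.pin a) {q : (M.bn a).Y.M × ℝ} (hs : (M.bn a).j q ∈ (C.φ c).source)
    {r : Option κ → VF (C.Z c).I (C.Z c).M} {ι : Type} [Fintype ι] [DecidableEq ι]
    {w : ι → VF (C.Z c).I (C.Z c).M} {d t : ℝ} (hd : (d, q.2) ∈ Off) (ht : (t, q.2) ∈ Off)
    (hr : ∀ i, atx r (C.φ c ((M.bn a).j q)) i =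
      mf (IC (M.bn a).Y.I) (C.Z c).I (C.φ c ∘ (M.bn a).j) q (M.nf a d q i))
    (hw : Co (atx w (C.φ c ((M.bn a).j q)))
      fun i => mf (IC (M.bn a).Y.I) (C.Z c).I (C.φ c ∘ (M.bn a).j) q (M.nf a t q i)) (i : Option κ) :
    atx (cF r w) (C.φ c ((M.bn a).j q)) i =
      mf (IC (M.bn a).Y.I) (C.Z c).I (C.φ c ∘ (M.bn a).j) q (M.nf a t q i) := by
  have hl := ld_comp (pd_ld hs) ((M.bn a).oe.loc q)
  have h1 : fP r (C.φ c ((M.bn a).j q)) = fP (ce (M.gY a).e) q :=
    (fP_rel hl (e := M.nF a d) (Mark.sp_nf hd) fun i => (hr i).symm).symm.trans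
      (fP_eq (Mark.sp_nf hd) (Mark.isP_nf hd))
  have h2 : Sp (atx r (C.φ c ((M.bn a).j q))) :=
    (sp_rel hl (e := M.nF a d) fun i => (hr i).symm).1 (Mark.sp_nf hd)
  let B : Matrix (Option κ) (Option κ) ℝ := diagonal fun i => M.wt a t q.2 i / M.wt a d q.2 i
  have h3 : mix B (atx r (C.φ c ((M.bn a).j q))) = fun i =>
      mf (IC (M.bn a).Y.I) (C.Z c).I (C.φ c ∘ (M.bn a).j) q (M.nf a t q i) := by
    funext i
    have : mix B (atx r (C.φ c ((M.bn a).j q))) i = (M.wt a t q.2 i / M.wt a d q.2 i) •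
        atx r (C.φ c ((M.bn a).j q)) i := by simp [mix, B, diagonal_apply]
    rw [this, hr, Mark.nf, Mark.nf, map_smul, map_smul, smul_smul,
      div_mul_cancel₀ _ (wt_pos hd i).ne']
  refine (cF_of_mix (B := B) h2 ⟨PosDef.diagonal fun i => div_pos (wt_pos ht i) (wt_pos hd i), ?_⟩
    ?_ (h3 ▸ hw) i).trans (congrFun h3 i)
  · ext i k
    rw [h1, diagonal_mul, mul_diagonal, Mark.fP_ce]
    cases i <;> cases k <;> simp [cP, Mark.wt_some ha]
  · ext i k
    rw [h1, diagonal_mul, Matrix.sub_apply, Mark.fP_ce]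
    cases i <;> cases k <;> simp [cP, Mark.wt_some ha, one_apply]

/-- base data of a standard world -/
structure BD (C : Caps M) where
  k0 : ℝ → Option κ → VF X.I X.M
  sm : ∀ u x i, VJ X.I (fun s => k0 s i) u x
  sp : ∀ u x, Sp (atx (k0 u) x)
  r : ∀ _m c : M.Cl, Option κ → VF (C.Z c).I (C.Z c).M
  fr : ∀ m c z, FAt (r m c) z
  lit : ∀ m c, LitF C m c (r m c)

namespace BD
variable (D : BD C) (m c : M.Cl)

/-- the frames on `Z c` -/
def e (p : Prm A) : Option κ → VF (C.Z c).I (C.Z c).M :=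
  trf (C.φ c) (ctr C c) (D.r m c) (hub M D.k0 (p.1, msk M c.1 p.2))

variable {m c}

theorem gd {p : Prm A} {x : X.M} (hx : x ∈ (C.φ c).source) (h : (p, C.φ c x) ∈ M.Ω c.1 (C.φ c)) :
    Gd M (msk M c.1 p.2) x :=
  gd_msk (mem_src.1 hx) fun a ha => (h a ha).imp_right fun h h' => h (mem_image_of_mem _ h')

theorem spW {p : Prm A} {z : (C.Z c).M} (h : (p, z) ∈ M.Ω c.1 (C.φ c)) :
    Sp (atx (capW (C.φ c) (ctr C c) (hub M D.k0 (p.1, msk M c.1 p.2))) z) :=
  sp_capW ctr_ctr fun hz => sp_hub (D.sp _ _) (gd ((C.φ c).map_target hz)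
    (by rwa [show C.φ c ((C.φ c).symm z) = z from (C.φ c).right_inv hz]))

variable (m c) in
/-- the layer `(m, c)` -/
def lay : Lay (C.Z c) (C.o c) (Prm A) (Option κ) (M.Ω c.1 (C.φ c)) where
  F0 := rFr (D.r m c) (D.fr m c)
  vol := rFr_vol _ _
  e := D.e m c
  sm p z h i := by
    by_cases hz : z ∈ (C.φ c).target
    · obtain ⟨x, hx, rfl⟩ := exists_src hz
      exact vJ_trf (r := fun _ => D.r m c) hx (fun a => VJ.of_fixed ((D.fr m c _).sm a))
        (D.fr m c _).sp (fun a => VJ.reparam (X := fun p => hub M D.k0 p a)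
          contDiff_msk.contDiffAt (vJ_hub (D.sp _ _) (D.sm _ _) (gd hx h) a))
        (sp_hub (D.sp _ _) (gd hx h)) i
    · exact vJ_trf_ctr (r := fun _ => D.r m c) ctr_ctr hz
        (fun a => VJ.of_fixed ((D.fr m c _).sm a)) (D.fr m c _).sp (hub_flat D.sp hz) i
  sp _ _ h := sp_cF (D.fr m c _).sp (D.spW h)
  P _ _ h := fP_cF (D.fr m c _).sp (D.spW h)
  ob _ _ h := oc_cF (D.fr m c _).sp (D.spW h) (C.Z c).dim _

theorem co_e {p : Prm A} (hp : p ∈ M.Br c.1) {x : X.M} (hx : x ∉ M.sys.cores (Sys.inf p.2)) :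
    Co (fun i => mf X.I (C.Z c).I (C.φ c) x (atx (hub M D.k0 p) x i)) (atx (D.e m c p) (C.φ c x)) := by
  rw [e, msk_br hp]
  exact co_trf (mem_src.2 fun h => hx (biUnion_subset_biUnion_left hp.2 h)) (D.fr m c _).sp
    (sp_hub (D.sp _ _) (gd_par hp.1 hx))

theorem co_nk {a : A} {p : Prm A} (hp : p.2 ∈ M.sys.Par) (ht : 1 / 2 ≤ p.2 a)
    {q : (M.bn a).Y.M × ℝ} (hq : |q.2| ≤ 1) (ho : (p.2 a, q.2) ∈ Off) :
    Co (fun i => mf (IC (M.bn a).Y.I) X.I (M.bn a).j q (M.nf a (p.2 a) q i))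
      (atx (hub M D.k0 p) ((M.bn a).j q)) := by
  have h0 : p.2 a ≠ 0 := by linarith
  rw [← atx_nF (hq.trans (by norm_num))]
  exact co_neck (D.sp _ _) (gd_of_cell hp.2 h0 (mem_range_self _) (off_j ho))
    (fun b hb => lam_eq_zero hp.2 h0 (mem_range_self _) hb) ht hq

theorem lit_e {a : A} (ha : ¬M.pin a) {p : Prm A} (hp : p ∈ M.Br c.1) (ht : 1 / 2 ≤ p.2 a)
    {q : (M.bn a).Y.M × ℝ} (hq : M.Lit m.1 c.1 a q.2) (ho : (p.2 a, q.2) ∈ Off) (i : Option κ) :
    atx (D.e m c p) (C.φ c ((M.bn a).j q)) i =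
      mf (IC (M.bn a).Y.I) (C.Z c).I (C.φ c ∘ (M.bn a).j) q (M.nf a (p.2 a) q i) := by
  have hs := mem_src (C := C).2 hq.not_mem
  rw [e, trf]
  refine cF_lit ha hs (off_lit hq) ho (D.lit m c a ha q hq) ?_ i
  refine (co_capW ((C.φ c).map_source hs)).symm.trans ?_
  rw [atx_pfd hs, msk_br hp]
  simp only [mf_φj hs]
  exact ((D.co_nk hp.1 ht hq.1 ho).map _).symm

/-- **the standard world** -/
def world : World M where
  toCaps := C
  k p x := atx (hub M D.k0 p) x
  L := D.lay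
  loc m c u t t' z h := funext fun i => trf_congr (fun _ => rfl) (fun x _ hx => by
    rw [show atx (hub M D.k0 (u, msk M c.1 t)) x = atx (hub M D.k0 (u, msk M c.1 t')) x from
      funext (hub_loc fun a ha => msk_congr fun ha' => h a ha' ⟨x, ha, hx⟩)]
    exact Co.refl _) i
  co _ _ _ hp _ hx := D.co_e hp hx
  neck _ _ hp ht _ hq ho := D.co_nk hp ht hq ho
  lit _ _ _ ha _ hp ht _ hq ho := D.lit_e ha hp ht hq ho

theorem std {B : Bas X univ} (h : ∀ u x, Co (atx (D.k0 u) x) (atx (B.r u) x)) : Std D.world B := by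
  refine ⟨fun u t _ x hx => ?_, fun u t ht a ha q ho α β => ?_⟩
  · have h0 : ∀ a, lam M a (t a) x = 0 := fun a => by_contra fun h0 =>
      hx a (pos_of_lam h0).ne' ((M.bn a).slab_subset _ (mem_slab_of_lam h0))
    have h1 : Gd M t x := fun a => by
      by_cases h0 : t a = 0
      · exact .inl (by simp [h0])
      · exact .inr (s_ne fun h => hx a h0 ((M.sys.w a).core_subset h))
    rw [show D.world.k (u, t) x = atx (D.k0 u) x from
      funext (hub_of_zero (p := (u, t)) (D.sp _ _) h1 h0)]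
    exact h u x
  · have h0 := fun b hb => lam_eq_zero ht.2 ha (mem_range_self q) (b := b) hb
    have h1 := hb_hub (k0 := D.k0) (p := (u, t)) (D.sp _ _)
      (gd_of_cell ht.2 ha (mem_range_self q) (off_j ho)) α β
    rw [Finset.prod_eq_single a (fun b _ hb => by rw [h0 b hb, sub_zero]) (by simp),
      Finset.sum_eq_single a (fun b _ hb => by rw [h0 b hb, zero_mul]) (by simp),
      hb_one, hb_one, hb_one, h u _ α β, lam, (M.bn a).s_j, chi_clp] at h1
    refine h1.trans ?_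
    by_cases hq : |q.2| ≤ 3
    · rw [atx_nF hq]; rfl
    · simp only [chi_eq_zero (s := q.2) (by linarith [not_le.1 hq]), mul_zero, zero_mul]; rfl

end BD

/-! ### existence of base frames -/

theorem exists_frame_Z (C : Caps M) (c : M.Cl) :
    ∃ (ι : Type) (_ : Fintype ι) (e : ι → VF (C.Z c).I (C.Z c).M), ∀ z, FAt e z := by
  have := M.cpt
  obtain ⟨N, f, hf⟩ := exists_frame (I := X.I) (M := X.M)
  have hK : (C.φ c).targetᶜ.Finite :=
    (finite_range fun i : A × Bool => C.β c i.1 i.2 0).subset fun z hz =>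
      let ⟨a, _, _, b, _, h⟩ := ctr_spec hz; ⟨(a, b), h⟩
  obtain ⟨N', r, -, -, -, h, -⟩ := exists_patch (e := pfd (C.φ c) f) hK.isCompact isOpen_univ
    (subset_univ _) fun z hz => by
      obtain ⟨x, hx, rfl⟩ := exists_src (of_not_not hz)
      exact (hf x).pfd hx
  exact ⟨_, inferInstance, r, h⟩

theorem nF_spare {a : A} {k : κ} (h : ∀ y, atx (M.gY a).e y k = 0) (t : ℝ) (x : X.M) :
    nF M a t (some k) x = 0 := by
  have : bF M a (some k) x = 0 := by
    by_cases hx : x ∈ range (M.bn a).j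
    · obtain ⟨q, rfl⟩ := hx
      refine (pfv_rel (I := IC (M.bn a).Y.I) (I' := X.I) (M.bn a).oe.inj _ q).symm.trans ?_
      rw [show ce (M.gY a).e (some k) q = 0 from Prod.ext (h q.1) rfl, map_zero]
    · exact pfv_of_notMem _ hx
  rw [nF, this, smul_zero]

theorem exists_litF (hS : M.Spare) (m c : M.Cl) {e : Fin 8 → VF (C.Z c).I (C.Z c).M}
    (he : ∀ z, FAt e z) : ∃ r, (∀ z, FAt r z) ∧ LitF C m c r := by
  obtain ⟨g, hg⟩ := hS
  have gi : Injective (some ∘ g) := (Option.some_injective _).comp g.injective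
  let J : A → Prop := fun a => ¬M.pin a ∧ (a ∈ c.1 ∨ a ∈ m.1 ∧ a ∈ M.sys.fr c.1)
  let t : A → ℝ := fun a => if J a then 1 else 0
  have hJ : ∀ a, t a ≠ 0 → J a := fun a h => by_contra fun h' => h (if_neg h')
  have hc : M.sys.Cell (support t) := fun a ha b hb hne => by
    rcases (hJ a ha).2 with h | h <;> rcases (hJ b hb).2 with h' | h'
    exacts [c.2 h h' hne, (h'.2.2 a h).symm, h.2.2 b h', m.2 h.1 h'.1 hne]
  let N : Option κ → VF X.I X.M := fun i x => ∑ a, lam M a (t a) x • nF M a (msk M c.1 0 a) i x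
  have ho : ∀ x ∈ (C.φ c).source, Gd M (msk M c.1 0) x := fun x hx =>
    gd_msk (mem_src.1 hx) fun _ _ => .inl one_pos
  have hl : ∀ a x, FSm X.I (lam M a (t a)) x := fun a x => JAt.right jAt_lam
  have hN : ∀ x ∈ (C.φ c).source, ∀ i, VAt X.I (N i) x := fun x hx i => VAt.sum fun a _ => by
    by_cases h4 : |(M.bn a).s x| < 3
    · exact VAt.smul (hl a x) (vJ_nF h4 (ho x hx a) i).right
    · refine VAt.zero.congr (mem_of_superset
        ((isOpen_lt continuous_const (M.bn a).contMDiff_s.continuous.abs).mem_nhds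
          (show 2 < |(M.bn a).s x| by linarith [not_lt.1 h4])) fun z hz => ?_)
      show _ • _ = _
      rw [of_not_not fun h0 => (abs_lt_of_lam h0).not_gt hz, zero_smul]
  have hN1 : ∀ a x, lam M a (t a) x ≠ 0 → ∀ i,
      N i x = lam M a (t a) x • nF M a (msk M c.1 0 a) i x := fun a x h i =>
    Finset.sum_eq_single a (fun b _ hb => by rw [lam_eq_zero hc (pos_of_lam h).ne'
      ((M.bn a).slab_subset _ (mem_slab_of_lam h)) hb, zero_smul]) (by simp)
  let r0 : Option κ → VF (C.Z c).I (C.Z c).M := fun i z => pfd (C.φ c) N i z +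
    Met55.hl M t none ((C.φ c).symm z) • pad (some ∘ g) e i z
  let r : Option κ → VF (C.Z c).I (C.Z c).M := fun i z =>
    if z ∈ (C.φ c).target then r0 i z else pad (some ∘ g) e i z
  have hr : ∀ x ∈ (C.φ c).source, ∀ i, atx r (C.φ c x) i = dmp X.I (C.Z c).I (C.φ c) x (N i x) +
      (∏ a, (1 - lam M a (t a) x)) • atx (pad (some ∘ g) e) (C.φ c x) i := fun x hx i => by
    refine (if_pos ((C.φ c).map_source hx)).trans ?_
    simp only [r0, ← pfd_rel hx, show (C.φ c).symm (C.φ c x) = x from (C.φ c).left_inv hx]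
    rfl
  have hr0 : ∀ x ∈ (C.φ c).source, (∀ a, lam M a (t a) x = 0) → ∀ i,
      r i (C.φ c x) = pad (some ∘ g) e i (C.φ c x) := fun x hx h i =>
    (hr x hx i).trans (by
      rw [show N i x = 0 by simp [N, h], Finset.prod_eq_one fun a _ => by rw [h a, sub_zero],
        one_smul]
      exact (congrArg (· + _) (map_zero _)).trans (zero_add _))
  refine ⟨r, fun z => ?_, fun a ha q hq i => ?_⟩
  · by_cases hz : z ∈ (C.φ c).target
    · obtain ⟨x, hx, rfl⟩ := exists_src hz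
      have e0 : (C.φ c).symm (C.φ c x) = x := (C.φ c).left_inv hx
      refine ⟨fun i => VAt.congr (X := r0 i) (VAt.add (vAt_pbv (pd_ld' hz) (by
          rw [e0]; exact hN x hx i)) (VAt.smul ?_ (((he _).pad gi).sm i)))
        (mem_of_superset ((C.φ c).open_target.mem_nhds hz) fun _ h => if_pos h), ?_⟩
      · exact ContMDiffAt.comp (g := Met55.hl M t none) _
          (FSm.prod' fun a _ => contMDiffAt_const.sub (hl a _)) (pd_ld' hz).contMDiffAt
      by_cases h0 : ∀ a, lam M a (t a) x = 0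
      · rw [show atx r (C.φ c x) = _ from funext (hr0 x hx h0)]
        exact ((he _).pad gi).sp
      obtain ⟨a, ha⟩ := not_forall.1 h0
      refine ((sp_nF ((abs_lt_of_lam ha).trans (by norm_num)) (ho x hx a)).map
        (A := dmp X.I (C.Z c).I (C.φ c) x) (ld_bij (pd_ld hx)).2).of_range fun i => ?_
      by_cases hi : i ∈ range (some ∘ g)
      · obtain ⟨j, rfl⟩ := hi
        exact ⟨0, none, by
          rw [atx, Function.comp_apply, nF_spare (hg a (hJ a (pos_of_lam ha).ne').1 j), zero_smul]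
          exact map_zero _⟩
      · refine ⟨(lam M a (t a) x)⁻¹, i, ?_⟩
        rw [hr x hx, show atx (pad (some ∘ g) e) (C.φ c x) i = 0 from
          congrFun (pad_of_notMem e hi) _, smul_zero, add_zero,
          show N i x = lam M a (t a) x • atx (nF M a (msk M c.1 0 a)) x i from hN1 a x ha i,
          map_smul, inv_smul_smul₀ ha]
    · obtain ⟨a, ha, hp, b, -, rfl⟩ := ctr_spec hz
      refine ((he _).pad gi).congr (mem_of_superset
        ((C.βoe c a ha hp b).isOpen_range.mem_nhds (mem_range_self 0)) ?_)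
      rintro _ ⟨v, rfl⟩ i
      by_cases hv : v = 0
      · subst hv; exact if_neg hz
      obtain ⟨y, hy⟩ := exists_pol hp hv
      rw [hy, C.βφ c a ha hp b y _ (norm_pos_iff.2 hv)]
      refine hr0 _ (half_src ha b y (norm_pos_iff.2 hv)) (fun a' => lam_zero_of_cmp
        (fun h => ?_) (mem_range_self _)) i
      rcases (hJ a' h).2 with h' | h'
      exacts [c.2 h' ha (by rintro rfl; exact (hJ _ h).1 hp), h'.2.2 a ha]
  · have hs := mem_src (C := C).2 hq.not_mem
    have h1 : lam M a (t a) ((M.bn a).j q) = 1 := lam_eq_one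
      (by rw [show t a = 1 from if_pos ⟨ha, hq.2.imp_left And.left⟩]; norm_num) hq.1
    rw [hr _ hs, Finset.prod_eq_zero (Finset.mem_univ a) (by rw [h1, sub_self]), zero_smul,
      add_zero, hN1 a _ (by rw [h1]; exact one_ne_zero), h1, one_smul, mf_φj hs]
    exact congrArg _ (congrFun (atx_nF (hq.1.trans (by norm_num)) _) i)

/-- **EXW** -/
theorem exw (h : Ms1Stmt) : ExwStmt := fun X A κ _ _ M C B hS => by
  have := M.cpt
  obtain ⟨N, f, hf⟩ := exists_frame (I := X.I) (M := X.M)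
  obtain ⟨e, he⟩ := h X _ f hf
  obtain ⟨g, -⟩ := id hS
  have gi : Injective (some ∘ g) := (Option.some_injective _).comp g.injective
  have hr : ∀ m c : M.Cl, ∃ r, (∀ z, FAt r z) ∧ LitF C m c r := fun m c => by
    obtain ⟨ι, _, f, hf⟩ := exists_frame_Z C c
    obtain ⟨e, he⟩ := h _ _ f hf
    exact exists_litF hS m c he
  choose r h1 h2 using hr
  have h3 := fun x => (he x).pad gi
  let D : BD C := ⟨fun u => cF (pad (some ∘ g) e) (B.r u), fun u x i =>
    vJ_cF (r := fun _ => pad (some ∘ g) e) (fun a => VJ.of_fixed ((h3 x).sm a)) (h3 x).sp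
      (B.sm u x trivial) (B.sp u x trivial) (.of_forall fun _ => Co.refl _) i,
    fun u x => sp_cF (h3 x).sp (B.sp u x trivial), r, h1, h2⟩
  exact ⟨D.world, rfl, D.std fun u x => co_cF (h3 x).sp (B.sp u x trivial)⟩

end Crest.Agent.X212.Met55
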