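import Crest.Agent.X212.Met55.Eng

/-! The frame `cF r w` (projector of `r`, cometric of `w`); transfer of a family of cometrics
through a partial diffeomorphism, with flat caps. -/

set_option linter.unusedSectionVars false

open scoped Manifold ContDiff Topology InnerProductSpace
open Set Filter Function Module Matrix

noncomputable section
namespace Crest.Agent.X212.Met55

open Sob92 Pj41 An Cyl58 Prm93

variable {E : Type} [NormedAddCommGroup E] [NormedSpace ℝ E] [FiniteDimensional ℝ E]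
  {H : Type} [TopologicalSpace H] {I : ModelWithCorners ℝ E H}
  {M : Type} [TopologicalSpace M] [ChartedSpace H M] [IsManifold I ∞ M]
  {E' : Type} [NormedAddCommGroup E'] [NormedSpace ℝ E'] [FiniteDimensional ℝ E']
  {H' : Type} [TopologicalSpace H'] {I' : ModelWithCorners ℝ E' H'}
  {M' : Type} [TopologicalSpace M'] [ChartedSpace H' M'] [IsManifold I' ∞ M']
  {V : Type} [NormedAddCommGroup V] [NormedSpace ℝ V]
  {ι κ κ' : Type} [Fintype ι] [Fintype κ] [Fintype κ']
  {T : Type} [NormedAddCommGroup T] [NormedSpace ℝ T] {t : T}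

section vj
variable {x : M} {X Y : T → VF I M}

theorem VJ.congr (h : VJ I X t x) (e : ∀ᶠ z : T × M in 𝓝 (t, x), Y z.1 z.2 = X z.1 z.2) :
    VJ I Y t x := h.congr_of_eventuallyEq (e.mono fun z hz => by simp only [hz])

theorem VJ.smul {f : T → M → ℝ} (hf : JAt I f t x) (h : VJ I X t x) :
    VJ I (fun s y => f s y • X s y) t x := by
  have hx := mem_chart_source H x
  exact (vJ_iff hx).2 (JAt.congr (f := fun s y => f s y • dv I (X s) (extChartAt I x) y)
    (hf.smul ((vJ_iff hx).1 h)) (.of_forall fun z => dv_vsmul _ _ _ _))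

theorem VJ.reparam {T' : Type} [NormedAddCommGroup T'] [NormedSpace ℝ T'] {g : T' → T} {s : T'}
    (hg : ContDiffAt ℝ ∞ g s) (h : VJ I X (g s) x) : VJ I (fun s => X (g s)) s x := by
  have hx := mem_chart_source H x
  exact (vJ_iff hx).2 (JAt.reparam (f := fun s => dv I (X s) (extChartAt I x)) hg ((vJ_iff hx).1 h))

theorem jAt_comp {f : M → M'} (hf : ContMDiffAt I I' ∞ f x) {g : T → M' → V}
    (h : JAt I' g t (f x)) : JAt I (fun s y => g s (f y)) t x :=
  ContMDiffAt.comp (g := fun z : T × M' => g z.1 z.2) (f := fun z : T × M => (z.1, f z.2)) (t, x) h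
    (contMDiffAt_fst.prodMk (ContMDiffAt.comp (g := f) (f := Prod.snd) (t, x) hf contMDiffAt_snd))

theorem ev_snd {p : M → Prop} (h : ∀ᶠ y in 𝓝 x, p y) : ∀ᶠ z : T × M in 𝓝 (t, x), p z.2 :=
  (continuousAt_snd (p := (t, x))).eventually (p := p) h

theorem VJ.pbv {f : M → M'} (h : IsLocalDiffeomorphAt I I' ∞ f x) {X' : T → VF I' M'}
    (hX : VJ I' X' t (f x)) : VJ I (fun s => pbv I I' f (X' s)) t x := by
  let e : Fin (finrank ℝ E') → VF I' M' := fun i => cf I' (f x) (finBasis ℝ E' i)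
  have hx := mem_chart_source H' (f x)
  have he : FAt e (f x) := ⟨fun i => vAt_cf hx _, sp_cf hx⟩
  refine (vJ_mixF (S := fun s y => Matrix.of fun (_ : Unit) i => fT e (X' s) (f y) i)
    (e := fun _ i => Met55.pbv I I' f (e i)) (fun _ i => jAt_comp h.contMDiffAt
      (jAt_fT (e := fun _ => e) (fun a => VJ.of_fixed (he.sm a)) he.sp hX i))
    (fun i => VJ.of_fixed ((he.pbv h).sm i)) ()).congr ?_
  filter_upwards [ev_snd (h.contMDiffAt.continuousAt.eventually
    ((chartAt H' (f x)).open_source.mem_nhds hx))] with z hz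
  simp only [mixF, Met55.pbv, of_apply, ← map_smul, ← map_sum]
  exact congrArg _ (sum_fT (sp_cf hz) _).symm

end vj

variable [DecidableEq ι] [DecidableEq κ] [DecidableEq κ']

/-- the frame with the projector of `r` and the cometric of `w` -/
def cF (r : ι → VF I M) (w : κ → VF I M) : ι → VF I M := dfm (fC r w 1) r

section cF
variable {r : ι → VF I M} {w : κ → VF I M} {w' : κ' → VF I M} {x : M}

theorem sp_cF (hr : Sp (atx r x)) (hw : Sp (atx w x)) : Sp (atx (cF r w) x) :=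
  sp_dfm hr (adm_fC hr hw PosDef.one)

theorem fP_cF (hr : Sp (atx r x)) (hw : Sp (atx w x)) : fP (cF r w) x = fP r x :=
  fP_dfm hr (adm_fC hr hw PosDef.one)

theorem co_cF (hr : Sp (atx r x)) (hw : Sp (atx w x)) : Co (atx (cF r w) x) (atx w x) :=
  co_dfm (adm_fC hr hw PosDef.one) (hb_fC hr w 1)

theorem oc_cF (hr : Sp (atx r x)) (hw : Sp (atx w x)) (h4 : finrank ℝ E = 4)
    (o : M → R208.F.Ext E) (a b c d : ι) :
    Int54.oc (cF r w) (Int54.volF o (cF r w)) a b c d x = Int54.oc r (Int54.volF o r) a b c d x :=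
  cf_dfm h4 hr (adm_fC hr hw PosDef.one) o _

theorem cF_congr {r' : ι → VF I M} (hr : ∀ a, r' a x = r a x) (h : Co (atx w x) (atx w' x))
    (k : ι) : cF r' w' k x = cF r w k x := by
  have h1 : atx r' x = atx r x := funext hr
  have h2 : fC r' w' 1 x = fC r w 1 x := by rw [fC_co h, fC, fC, h1]
  simp only [cF, dfm, mixF, h2, hr]

theorem cF_of_mix (hr : Sp (atx r x)) {B : Matrix ι ι ℝ} (hB : Adm (fP r x) B)
    (hQ : B * (1 - fP r x) = 1 - fP r x) (hw : Co (atx w x) (mix B (atx r x))) (k : ι) :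
    cF r w k x = ∑ c, B k c • r c x :=
  dfm_of_sq (A := fC r w 1) hB.pos ((coH_co hw).trans (coH_mix hr hB hQ)) k

theorem cF_eq (hr : Sp (atx r x)) (hw : Co (atx r x) (atx w x)) (k : ι) : cF r w k x = r k x :=
  dfm_of_one (fC_one hr hw) k

theorem cF_rel {f : M → M'} (h : IsLocalDiffeomorphAt I I' ∞ f x) {r' : ι → VF I' M'}
    {w' : κ' → VF I' M'} (hs : Sp (atx r x)) (hr : ∀ a, mfderiv I I' f x (r a x) = r' a (f x))
    (hw : Co (fun a => dmp I I' f x (atx w x a)) (atx w' (f x))) (k : ι) :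
    mfderiv I I' f x (cF r w k x) = cF r' w' k (f x) := by
  refine mixF_rel (S := fun x => sq (fC r w 1 x)) (S' := fun x => sq (fC r' w' 1 x)) hr
    (congrArg sq ?_) k
  have h1 := fun a => pbv_rel h (w' a)
  rw [← fC_rel h hs hr h1]
  exact fC_co (Co.of_map (A := dmp I I' f x) (ld_bij h) (by rw [← atx_rel h1]; exact hw))

theorem vJ_cF {r : T → ι → VF I M} {w : T → κ → VF I M} {w' : T → κ' → VF I M}
    (hr : ∀ a, VJ I (fun s => r s a) t x) (hs : Sp (atx (r t) x))
    (hw : ∀ a, VJ I (fun s => w' s a) t x) (hs' : Sp (atx (w' t) x))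
    (h : ∀ᶠ z : T × M in 𝓝 (t, x), Co (atx (w' z.1) z.2) (atx (w z.1) z.2)) (k : ι) :
    VJ I (fun s => cF (r s) (w s) k) t x :=
  (vJ_mixF (mJ_sq (A := fun s => fC (r s) (w' s) 1) (mJ_fC hr hs hw) (adm_fC hs hs' PosDef.one).pos
    (.of_forall fun _ => fC_transpose _ _ _)) hr k).congr
      (h.mono fun _ hz => cF_congr (fun _ => rfl) hz k)

theorem FAt.cF (hr : FAt r x) (hw : FAt w' x) (h : ∀ᶠ y in 𝓝 x, Co (atx w' y) (atx w y)) :
    FAt (cF r w) x :=
  ⟨fun k => VJ.right (t := (0 : ℝ)) (vJ_cF (r := fun _ => r) (w := fun _ => w) (w' := fun _ => w')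
    (fun a => VJ.of_fixed (hr.sm a)) hr.sp (fun a => VJ.of_fixed (hw.sm a)) hw.sp
    (ev_snd (p := fun y => Co (atx w' y) (atx w y)) h) k),
    sp_cF hr.sp (h.self_of_nhds.sp hw.sp (finBasis ℝ E))⟩

end cF

/-! ### push-forward by a partial diffeomorphism -/

section pd
variable (φ : PartialDiffeomorph I I' M M' ∞)
omit [DecidableEq ι]

/-- push-forward of a family of fields -/
def pfd (K : ι → VF I M) : ι → VF I' M' := fun i => pbv I' I φ.symm (K i)

variable {φ} {x : M} {K : ι → VF I M}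

theorem pd_ld (hx : x ∈ φ.source) : IsLocalDiffeomorphAt I I' ∞ φ x := ⟨φ, hx, fun _ _ => rfl⟩

theorem pd_ld' {z : M'} (hz : z ∈ φ.target) : IsLocalDiffeomorphAt I' I ∞ φ.symm z :=
  ⟨φ.symm, hz, fun _ _ => rfl⟩

theorem pfd_rel (hx : x ∈ φ.source) (i : ι) : mfderiv I I' φ x (K i x) = pfd φ K i (φ x) := by
  have h1 := pd_ld' (φ.map_source hx)
  refine (ld_bij h1).1 (Eq.trans ?_ (pbv_rel h1 (K i)).symm)
  have h2 : Dr59.mf I I (φ.symm ∘ φ) x = ContinuousLinearMap.id ℝ E := by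
    rw [← Dr59.mf_id (I := I) x]
    refine Dr59.mf_congr ?_
    filter_upwards [φ.open_source.mem_nhds hx] with y hy using φ.left_inv hy
  rw [Dr59.mf_comp (h1.contMDiffAt.mdifferentiableAt (by simp))
    ((pd_ld hx).contMDiffAt.mdifferentiableAt (by simp))] at h2
  exact (DFunLike.congr_fun h2 _).trans (congrArg (fun y => (K i y : E)) (φ.left_inv hx).symm)

theorem atx_pfd (hx : x ∈ φ.source) : atx (pfd φ K) (φ x) = fun a => dmp I I' φ x (atx K x a) :=
  atx_rel (pfd_rel hx)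

theorem FAt.pfd (hx : x ∈ φ.source) (h : FAt K x) : FAt (pfd φ K) (φ x) :=
  FAt.pbv (pd_ld' (φ.map_source hx)) (by rwa [show φ.symm (φ x) = x from φ.left_inv hx])

theorem vJ_pfd (hx : x ∈ φ.source) {K : T → ι → VF I M} {i : ι} (h : VJ I (fun s => K s i) t x) :
    VJ I' (fun s => pfd φ (K s) i) t (φ x) :=
  VJ.pbv (X' := fun s => K s i) (pd_ld' (φ.map_source hx))
    (by rwa [show φ.symm (φ x) = x from φ.left_inv hx])

end pd

/-! ### flat caps -/

/-- the model space of the caps -/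
abbrev W4 : Type := EuclideanSpace ℝ (Fin 4)

variable (I') in
/-- the standard frame of a cap -/
def std (β : W4 → M') : Fin 4 → VF I' M' := fun i =>
  pfv 𝓘(ℝ, W4) I' β fun _ => (EuclideanSpace.single i 1 : W4)

theorem fAt_const (v : W4) :
    FAt (I := 𝓘(ℝ, W4)) (fun (i : Fin 4) (_ : W4) => (EuclideanSpace.single i 1 : W4)) v :=
  ⟨fun _ => contMDiffAt_vectorSpace_iff_contDiffAt.2 contDiffAt_const, fun w =>
    ⟨fun i => w i, by
      have := (EuclideanSpace.basisFun (Fin 4) ℝ).sum_repr w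
      simp only [EuclideanSpace.basisFun_repr, EuclideanSpace.basisFun_apply] at this
      exact this.symm⟩⟩

theorem fAt_std {β : W4 → M'} (h : IsOE 𝓘(ℝ, W4) I' β) (v : W4) : FAt (std I' β) (β v) :=
  (fAt_const v).pfv h

theorem atx_std {β : W4 → M'} (h : IsOE 𝓘(ℝ, W4) I' β) (v : W4) :
    atx (std I' β) (β v) = fun i => dmp 𝓘(ℝ, W4) I' β v (EuclideanSpace.single i 1) :=
  atx_rel (e := fun (i : Fin 4) (_ : W4) => (EuclideanSpace.single i 1 : W4))
    fun i => pfv_rel (I := 𝓘(ℝ, W4)) (I' := I') h.inj (fun _ => (EuclideanSpace.single i 1 : W4)) v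

/-- a family with the Euclidean cometric -/
theorem co_std {w : κ → W4} (h : ∀ a b : W4, ∑ k, ⟪a, w k⟫_ℝ * ⟪b, w k⟫_ℝ = ⟪a, b⟫_ℝ) :
    Co w fun i : Fin 4 => (EuclideanSpace.single i 1 : W4) := fun α β => by
  obtain ⟨a, ha⟩ := (InnerProductSpace.toDual ℝ W4).surjective α.toContinuousLinearMap
  obtain ⟨b, hb⟩ := (InnerProductSpace.toDual ℝ W4).surjective β.toContinuousLinearMap
  have h1 : ∀ v, α v = ⟪a, v⟫_ℝ := fun v => (DFunLike.congr_fun ha v).symm
  have h2 : ∀ v, β v = ⟪b, v⟫_ℝ := fun v => (DFunLike.congr_fun hb v).symm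
  simp only [h1, h2, h, EuclideanSpace.inner_single_right]
  simp [PiLp.inner_apply, mul_comm]

open Classical in
/-- the push-forward of `K`, and the standard frame of the cap `β z` at a point `z` off the target -/
def capW (φ : PartialDiffeomorph I I' M M' ∞) (β : M' → W4 → M') (K : κ → VF I M) :
    κ ⊕ Fin 4 → VF I' M' := fun k z =>
  if z ∈ φ.target then pad Sum.inl (pfd φ K) k z else pad Sum.inr (std I' (β z)) k z

/-- **transfer** of the cometric of `K`, in the frame `r` -/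
def trf (φ : PartialDiffeomorph I I' M M' ∞) (β : M' → W4 → M') (r : ι → VF I' M')
    (K : κ → VF I M) : ι → VF I' M' := cF r (capW φ β K)

section trf
variable {φ : PartialDiffeomorph I I' M M' ∞} {β : M' → W4 → M'} {r : ι → VF I' M'}
  {K : κ → VF I M} {x : M} {z : M'}

omit [DecidableEq ι] [DecidableEq κ] in
theorem co_pad' {g : ι → κ} (hg : Injective g) (e : ι → VF I M) (x : M) :
    Co (atx e x) (atx (pad g e) x) := fun α β => by
  classical
  refine (Finset.sum_of_injOn g hg.injOn (by simp) (fun k _ hk => ?_) fun a _ => ?_)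
  · rw [atx, pad_of_notMem e (by simpa using hk)]
    exact (congrArg (· * _) (map_zero α)).trans (zero_mul _)
  · simp only [atx, pad_apply hg]

theorem co_capW (hz : z ∈ φ.target) : Co (atx (pfd φ K) z) (atx (capW φ β K) z) := by
  have : atx (capW φ β K) z = atx (pad Sum.inl (pfd φ K)) z := funext fun _ => if_pos hz
  rw [this]; exact co_pad' Sum.inl_injective _ _

theorem co_capW' (hz : z ∉ φ.target) : Co (atx (std I' (β z)) z) (atx (capW φ β K) z) := by
  have : atx (capW φ β K) z = atx (pad Sum.inr (std I' (β z))) z := funext fun _ => if_neg hz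
  rw [this]; exact co_pad' Sum.inr_injective _ _

theorem trf_eq (hz : z ∈ φ.target) (k : ι) : trf φ β r K k z = cF r (pfd φ K) k z :=
  cF_congr (fun _ => rfl) (co_capW hz) k

/-- every point off the target is the centre of its cap -/
def Ctr (φ : PartialDiffeomorph I I' M M' ∞) (β : M' → W4 → M') : Prop :=
  ∀ z ∉ φ.target, IsOE 𝓘(ℝ, W4) I' (β z) ∧ β z 0 = z

theorem sp_capW (hβ : Ctr φ β) (hK : z ∈ φ.target → Sp (atx K (φ.symm z))) :
    Sp (atx (capW φ β K) z) := by
  by_cases hz : z ∈ φ.target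
  · refine (co_capW hz).sp ?_ (finBasis ℝ E')
    obtain ⟨x, hx, rfl⟩ : ∃ x ∈ φ.source, φ x = z := ⟨_, φ.map_target hz, φ.right_inv hz⟩
    rw [show φ.symm (φ x) = x from φ.left_inv hx] at hK
    rw [atx_pfd hx]
    exact (hK hz).map (ld_bij (pd_ld hx)).2
  · refine (co_capW' hz).sp ?_ (finBasis ℝ E')
    have := (fAt_std (hβ z hz).1 0).sp
    rwa [(hβ z hz).2] at this

theorem co_trf (hx : x ∈ φ.source) (hr : Sp (atx r (φ x))) (hK : Sp (atx K x)) :
    Co (fun a => dmp I I' φ x (atx K x a)) (atx (trf φ β r K) (φ x)) := by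
  have h1 : Sp (atx (pfd φ K) (φ x)) := by rw [atx_pfd hx]; exact hK.map (ld_bij (pd_ld hx)).2
  rw [← atx_pfd hx, show atx (trf φ β r K) (φ x) = atx (cF r (pfd φ K)) (φ x) from
    funext (trf_eq (φ.map_source hx))]
  exact (co_cF hr h1).symm

theorem trf_congr {K' : κ' → VF I M} {r' : ι → VF I' M'} (hr : ∀ a, r' a z = r a z)
    (h : ∀ x ∈ φ.source, φ x = z → Co (atx K x) (atx K' x)) (k : ι) :
    trf φ β r' K' k z = trf φ β r K k z := by
  refine cF_congr hr ?_ k
  by_cases hz : z ∈ φ.target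
  · obtain ⟨x, hx, rfl⟩ : ∃ x ∈ φ.source, φ x = z := ⟨_, φ.map_target hz, φ.right_inv hz⟩
    refine (co_capW hz).symm.trans (Co.trans ?_ (co_capW hz))
    rw [atx_pfd hx, atx_pfd hx]
    exact (h x hx rfl).map _
  · exact (co_capW' hz).symm.trans (co_capW' hz)

variable {r : T → ι → VF I' M'} {K : T → κ → VF I M}

theorem vJ_trf (hx : x ∈ φ.source) (hr : ∀ a, VJ I' (fun s => r s a) t (φ x))
    (hs : Sp (atx (r t) (φ x))) (hK : ∀ a, VJ I (fun s => K s a) t x) (hs' : Sp (atx (K t) x))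
    (k : ι) : VJ I' (fun s => trf φ β (r s) (K s) k) t (φ x) :=
  vJ_cF (w' := fun s => pfd φ (K s)) hr hs (fun a => vJ_pfd hx (hK a))
    (by rw [atx_pfd hx]; exact hs'.map (ld_bij (pd_ld hx)).2)
    ((ev_snd (φ.open_target.mem_nhds (φ.map_source hx))).mono fun _ hz => co_capW hz) k

theorem vJ_trf_ctr (hβ : Ctr φ β) (hz : z ∉ φ.target) (hr : ∀ a, VJ I' (fun s => r s a) t z)
    (hs : Sp (atx (r t) z)) (hK : ∀ s v, v ≠ 0 → ‖v‖ < 1 → β z v ∈ φ.target ∧
      Co (atx (std I' (β z)) (β z v)) (atx (pfd φ (K s)) (β z v))) (k : ι) :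
    VJ I' (fun s => trf φ β (r s) (K s) k) t z := by
  obtain ⟨h1, h2⟩ := hβ z hz
  have h3 := fAt_std h1 0
  rw [h2] at h3
  refine vJ_cF (w' := fun _ => std I' (β z)) hr hs (fun a => VJ.of_fixed (h3.sm a)) h3.sp ?_ k
  have h4 : β z '' Metric.ball 0 1 ∈ 𝓝 z :=
    (h1.isOpen_image Metric.isOpen_ball).mem_nhds ⟨0, by simp, h2⟩
  filter_upwards [ev_snd h4]
  rintro ⟨s, _⟩ ⟨v, hv, rfl⟩
  by_cases h0 : v = 0
  · subst h0
    have := co_capW' (β := β) (K := K s) hz
    simpa only [h2] using this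
  · obtain ⟨h5, h6⟩ := hK s v h0 (by simpa using hv)
    exact h6.trans (co_capW h5)

end trf

end Crest.Agent.X212.Met55
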