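import Crest.Agent.X212.Met55.Fam
import Crest.Agent.X212.Met55.Eng
import Crest.Agent.X212.Eq82.Leaf

/-! The leaf `PathL`: paths of frames on a closed manifold. -/

set_option autoImplicit false
set_option linter.unusedSectionVars false
noncomputable section
open scoped Manifold ContDiff Topology
open Set Function Filter Module

namespace Crest.Agent.X212.Met55
open An Prm93 Sob92 Eq82 Num57 Pj41 Crest.Agent.R208 Crest.Agent.R208.F
open Line51 (Ln)

theorem Adm.ph_mix {E : Type*} [NormedAddCommGroup E] [NormedSpace ℝ E] [FiniteDimensional ℝ E]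
    {ι : Type*} [Fintype ι] [DecidableEq ι] {v : ι → E} (h : finrank ℝ E = 4) (hv : Sp v)
    {B : Matrix ι ι ℝ} (hB : Adm (prj (finBasis ℝ E) v) B) (o : ι → ι → ι → ι → ℝ) (c : Ext E) :
    rjb (finBasis ℝ E) (mix B v) * ph (mix B v) o c = rjb (finBasis ℝ E) v * ph v o c := by
  have e : ∀ (w : ι → E) (a b k d : ι), e4 c (w a) (w b) (w k) (w d) =
      evA E 4 c fun i => w (![a, b, k, d] i) := fun w a b k d => by
    rw [e4]; congr 1; funext i; fin_cases i <;> rfl
  simp only [ph, e, Finset.mul_sum, mul_left_comm (rjb _ _), hB.evA_mix h hv]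

variable {E : Type} [NormedAddCommGroup E] [NormedSpace ℝ E] [FiniteDimensional ℝ E]
  [MeasurableSpace E] [BorelSpace E]
  {HM : Type} [TopologicalSpace HM] {I : ModelWithCorners ℝ E HM} [I.Boundaryless]
  {M : Type} [TopologicalSpace M] [ChartedSpace HM M] [IsManifold I ∞ M]
  [MeasurableSpace M] [BorelSpace M] [SecondCountableTopology M] [T2Space M] [CompactSpace M]
  {ι : Type} [Fintype ι] [DecidableEq ι] {κ : Type} [Fintype κ] [DecidableEq κ]
  {X : Bk I M ι} {L : Ln E M κ}

theorem fP_fr (F : Fr I M ι) (x : M) : (Matrix.of fun a b => F.P a b x) = fP F.e x :=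
  Matrix.ext fun a b => fr_P F a b x

/-- every admissible deformation is positive -/
theorem pos_dfm {A : M → Matrix ι ι ℝ} (hA : ∀ x, MSm I A x) (ha : ∀ x, Adm (fP X.F.e x) (A x))
    {F : Fr I M ι} (hF : F.IsVol) (he : F.e = dfm A X.F.e) : X.Pos F := by
  have hP : F.P = X.F.P := by
    funext a b x; rw [fr_P, fr_P, he, fP_dfm (pre_sp _ x) (ha x)]
  refine ⟨hF, hP, Int54.sameOn_of_rat_pos fun x _ => ?_, A, fun a b x => hA x a b,
    fun x => fP_fr X.F x ▸ ha x, he⟩
  have h := (ha x).sq.ph_mix X.ok.h4 (pre_sp X.F.toPre x) (fun a b c d => X.o a b c d x)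
    (vol X.F X.o x)
  have h1 : ph (atx X.F.e x) (fun a b c d => X.o a b c d x) (vol X.F X.o x) = 1 := by
    rw [vol_apply]; exact (X.ok.vo' x).ph_vl (Num57.cf X.F x)
  rw [h1, mul_one] at h
  rw [rat_vol F X.ok.h4 (hP ▸ X.ok.vo' x), show ee F x = mix (sq (A x)) (atx X.F.e x) from
    (congrArg (fun e => atx e x) he :)]
  exact (mul_pos_iff_of_pos_left ((pre_sp X.F.toPre x).mix (ha x).sq.unit).rjb_pos).1
    (h ▸ (pre_sp X.F.toPre x).rjb_pos)

theorem bk_B (X : Bk I M ι) (hL : L.On I univ) : (X.B L).OK I :=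
  hL.base_ok X.F.P_sm X.ok.sm (fun x => (X.ok.vo x).pr) (fun x => (X.ok.vo x).tr)
    (fun a b c d x => (X.ok.vo x).a1 a b c d) (fun a b c d x => (X.ok.vo x).a2 a b c d)
    (fun a b c d x => (X.ok.vo x).a3 a b c d) (fun a b c d x => (X.ok.vo x).po a b c d)
    fun x => (X.ok.vo x).nm

theorem js_A (hL : L.On I univ) {T : Type} [NormedAddCommGroup T] [NormedSpace ℝ T] {Q : Set T}
    {F : T → Fr I M ι} (F₀ : Fr I M ι) (h : JF Q fun t => (F t).toPre) (a : ι) :
    JS I Q fun t => (L.geo (F t)).a a := fun t ht x =>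
  (FSm.sum' (s := Finset.univ) fun b _ => ((JF.fixed F₀.toPre).mix h a b t ht x).smul
    (JAt.of_fixed (hL.sm_A isOpen_univ trivial (F₀.sm b x)))).congr_of_eventuallyEq
    (.of_forall fun z => ((Line51.A_comb _).trans (congrArg (fun v => Line51.rl (L.cm I z.2 v))
      (trS_mix F₀ (F z.1) a z.2).symm)).symm)

/-- a jointly smooth family of positive frames is a path -/
def mkPa (hL : L.On I univ) (F : ℝ → Fr I M ι) (hF : ∀ t, X.Pos (F t))
    (h : JF univ fun t => (F t).toPre) : Pa X L where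
  𝔉 := fam (X.B L) X.F (L.geo X.F) (fun t => L.geo (F t)) univ univ univ
  F := F
  ok := fam_ok (famIn_cpt (G0 := L.geo X.F) X.ok.h4.le (bk_B X hL) (hL.geo_ok X.ok.isv X.o)
    (fun t _ => by
      have := hL.geo_ok (hF t).vol X.o
      rwa [(hF t).P] at this) isOpen_univ h (js_A hL X.F h)) isClopen_univ isClopen_univ Subset.rfl
  B := rfl
  Q := rfl
  Om := rfl
  Om' := rfl
  G _ := rfl
  pos := hF

theorem pos_self (X : Bk I M ι) : X.Pos X.F :=
  pos_dfm (A := fun _ => (1 : Matrix ι ι ℝ)) (fun _ => MSm.const _) (fun _ => Adm.one) X.ok.isv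
    (funext fun a => funext fun _ => (dfm_of_one (A := fun _ => (1 : Matrix ι ι ℝ)) rfl a).symm)

/-- the constant path -/
theorem exists_pa_const (hL : L.On I univ) {F : Fr I M ι} (hF : X.Pos F) :
    ∃ P : Pa X L, ∀ t, P.F t = F := ⟨mkPa hL (fun _ => F) (fun _ => hF) (JF.fixed _), fun _ => rfl⟩

variable (X) in
/-- **PathL** -/
theorem pathL (hL : L.On I univ) : PathL X L := by
  rintro F ⟨hv, -, -, A, h1, h2, h3⟩
  simp only [fP_fr] at h2
  let b : ℝ → ℝ := fun t => Real.smoothTransition (2 * t)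
  have hb : ContDiff ℝ ∞ b := Real.smoothTransition.contDiff.comp (contDiff_const.mul contDiff_id)
  let C : ℝ → M → Matrix ι ι ℝ := fun t x => (1 - b t) • (1 : Matrix ι ι ℝ) + b t • A x
  have c1 : ∀ t x, Adm (fP X.F.e x) (C t x) := fun t x => Adm.one.convex (h2 x)
    (Real.smoothTransition.nonneg _) (Real.smoothTransition.le_one _)
  have c2 : ∀ t x, MJ I C t x := fun t x a k =>
    ((JAt.of_par (contDiff_const.sub hb).contDiffAt).smul
      (contMDiffAt_const (c := (1 : Matrix ι ι ℝ) a k))).add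
      ((JAt.of_par hb.contDiffAt).smul (JAt.of_fixed (h1 a k x)))
  have c3 : ∀ t x, FAt (dfm (C t) X.F.e) x := fun t x => (pre_fAt X.F.toPre x).dfm (c2 t x).right
    (c1 t x) (.of_forall fun y => (c1 t y).symm)
  refine ⟨mkPa hL (fun t => rFr _ (c3 t))
    (fun t => pos_dfm (fun x => (c2 t x).right) (c1 t) (rFr_vol _ _) rfl) fun t _ x a =>
      JV.of_tangent (vJ_mixF (e := fun _ => X.F.e)
        (mJ_sq (c2 t x) (c1 t x).pos (.of_forall fun z => (c1 z.1 z.2).symm))
        (fun a => VJ.of_fixed (X := X.F.e a) (X.F.sm a x)) a), ?_, fun t ht => ?_⟩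
  · refine vol_ext (rFr_vol _ _) X.ok.isv (funext fun a => funext fun x => dfm_of_one ?_ a)
    simp [C, b, Real.smoothTransition.zero]
  · refine vol_ext (rFr_vol _ _) hv (h3 ▸ congrArg (dfm · X.F.e) (funext fun x => ?_))
    simp [C, b, Real.smoothTransition.one_of_one_le (show 1 ≤ 2 * t by linarith)]

end Crest.Agent.X212.Met55
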