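import Crest.Agent.X212.Eq82.Sub
import Crest.Agent.X212.Abel74.Lab
import Crest.Agent.X212.Mp86.C0G

/-! The steps `AsdS` and `TrkS` of `NV`. -/

set_option autoImplicit false
set_option linter.unusedSectionVars false
noncomputable section
open scoped Manifold ContDiff Topology InnerProductSpace
open Finset Filter MeasureTheory Module
open Crest.Agent.R208 Crest.Agent.R208.F

namespace Crest.Agent.X212.Met55
open An Wz78 Eq82 Num57 Abel74
open Line51 (Ln)
open Real (smoothTransition)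

/-- the cut-off normaliser -/
def phi0 (y : ℝ) : ℝ := smoothTransition (2 * y - 1) * (4 / √y)

theorem phi0_sm : ContDiff ℝ ∞ phi0 := contDiff_iff_contDiffAt.2 fun y => by
  rcases lt_or_ge 0 y with h | h
  · exact (smoothTransition.contDiffAt.comp y (by fun_prop)).mul
      (contDiffAt_const.div (Real.contDiffAt_sqrt h.ne') (Real.sqrt_pos.2 h).ne')
  · refine (contDiffAt_const (c := 0)).congr_of_eventuallyEq ?_
    filter_upwards [Iio_mem_nhds (show y < 1 / 2 by linarith)] with z hz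
    rw [phi0, smoothTransition.zero_of_nonpos (by linarith [Set.mem_Iio.1 hz]), zero_mul]

theorem phi0_bd (t : ℝ) (h : 0 ≤ t) : phi0 t ^ 2 * t ≤ 16 := by
  rcases h.eq_or_lt with rfl | h
  · simp
  have h1 := smoothTransition.nonneg (2 * t - 1)
  have h2 := smoothTransition.le_one (2 * t - 1)
  rw [phi0, mul_pow, div_pow, Real.sq_sqrt h.le, mul_assoc, div_mul_cancel₀ _ h.ne']
  nlinarith

theorem phi0_nm (u : ℝ) (h : 1 / 4 ≤ u) : phi0 (16 * u ^ 2) * u = 1 := by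
  rw [phi0, smoothTransition.one_of_one_le (by nlinarith), show 16 * u ^ 2 = (4 * u) ^ 2 by ring,
    Real.sqrt_sq (by linarith)]
  have : u ≠ 0 := by intro e; linarith
  field_simp

variable {E : Type} [NormedAddCommGroup E] [NormedSpace ℝ E] [FiniteDimensional ℝ E]
  [MeasurableSpace E] [BorelSpace E]
  {HM : Type} [TopologicalSpace HM] {I : ModelWithCorners ℝ E HM} [I.Boundaryless]
  {M : Type} [TopologicalSpace M] [ChartedSpace HM M] [IsManifold I ∞ M]
  [MeasurableSpace M] [BorelSpace M] [SecondCountableTopology M] [T2Space M] [CompactSpace M]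
  {ι : Type} [Fintype ι] [DecidableEq ι] {κ : Type} [Fintype κ] [DecidableEq κ] {r n : ℕ}

section gen
variable {lam : Type} [Fintype lam] {B : Base M ι lam} {G : Geo I M ι lam} {c : Cfg M ι lam r}

theorem mu_zero (m : Md M ι lam) (x : M) : m.mu B x 0 0 = 0 := by
  simp [Md.mu, ← qL_apply, WithLp.toLp_zero, Pi.zero_def.symm]

theorem kap_nonneg (hB : B.OK I) (hG : G.OK B) (A : c.Adm B G)
    (h : ∀ x, c.m.p2 B x (c.m.Fg G.F c.W x) = 0) : 0 ≤ c.kap B G := by
  have e := (Mp86.integral_Fg_sq hB hG A).2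
  simp only [h, norm_zero, ne_eq, OfNat.ofNat_ne_zero, not_false_eq_true, zero_pow, integral_zero,
    mul_zero, zero_add] at e
  exact nonneg_of_mul_nonneg_right (e ▸ integral_nonneg fun _ => sq_nonneg _) (by positivity)

theorem ed_D (D : Ed M) (F : Fr I M ι) (w : Fin D.N → ℝ) (x : M) : (D.pt B F w r n).D c x = 0 := by
  simp [Ed.pt, wpt, Ed.tm, Cfg.tD]

theorem ed_C {D : Ed M} (hD : D.Nm) {F : Fr I M ι} (w : Fin D.N → ℝ) {x : M} {ξ : c.m.A} {u : ℝ}
    (hξ : ‖ξ‖ = 4) (h1 : 1 / 2 ≤ u) (h2 : u ≤ 3 / 2) (h3 : c.aws F D.L x = u • ξ) :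
    (D.pt B F w r n).C c x = c.m.p2 B x (WithLp.toLp 2 fun s => D.fm F w x s • ξ) := by
  have e : D.φ (‖u • ξ‖ ^ 2) * u = 1 := by
    rw [norm_smul, hξ, mul_pow, Real.norm_eq_abs, sq_abs, ← hD u (by linarith) (by linarith)]
    congr 2; ring
  simp only [Ed.pt, wpt, Ed.tm, Cfg.tC, h3, smul_smul, mul_assoc _ _ u, e, mul_one, ← map_smul,
    ← map_sum]
  congr 1
  ext1 s
  simp only [WithLp.ofLp_sum, Finset.sum_apply, PiLp.smul_apply, Ed.fm, sum_smul, mul_smul]

theorem sd_fix {F : Fr I M ι} (hP : F.P = B.P) {β : M → Ext E} (h : IsSD F B.o β) (x : M)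
    (s : ι × ι) : ∑ t, B.sd x s t * k2 F β t.1 t.2 x = k2 F β s.1 s.2 x := by
  have h1 := a2_fix (B := B) (x := x) (T := fun a b => k2 F β a b x) (fun a b => k2_swap F β b a x)
    (fun a b => hP ▸ k2_P F β a b x) s
  have h2 := h s.1 s.2 x
  rw [← Fintype.sum_prod_type' (fun e f => B.o s.1 s.2 e f x * k2 F β e f x)] at h2
  simp only [smul_eq_mul] at h1
  simp only [Base.sd, Base.st, add_div, add_mul, sum_add_distrib, div_mul_eq_mul_div, ← sum_div,
    h1, h2]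
  ring

theorem pp_of_sd (hB : B.OK I) {F : Fr I M ι} (hP : F.P = B.P) {α β : M → Ext E}
    (h : IsSD F B.o β) {x : M} (h0 : ∀ s, ∑ t, B.sd x s t * k2 F α t.1 t.2 x = 0) :
    Num57.pp F α β x = 0 := by
  rw [Num57.pp, ← Fintype.sum_prod_type' (fun e f => k2 F α e f x * k2 F β e f x),
    sum_congr rfl fun s _ => by rw [← sd_fix hP h x s, mul_sum], sum_comm]
  refine sum_eq_zero fun t _ => ?_
  rw [← zero_mul (k2 F β t.1 t.2 x), ← h0 t, sum_mul]
  exact sum_congr rfl fun s _ => by rw [sd_symm hB x t s]; ring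

end gen

variable {X : Bk I M ι} {L : Ln E M κ}

variable (X) in
/-- **ASD** -/
theorem asdS (hL : L.On I Set.univ) : AsdS X L := fun F hF r n k hk c l A h1 h2 h3 => by
  have := kap_nonneg (B_ok X hL) (G_ok hL hF) A fun x => by
    simpa [Cfg.eC, h2, mu_zero, pt0] using h3 x
  have : (0 : ℝ) ≤ l := l.cast_nonneg
  linarith

theorem exists_hh {F : Fr I M ι} (hF : X.Pos F) (h2 : 2 ≤ bp X.ok.ori) (η : Om I M 2) (a : H2 I M) :
    ∃ hh : Hm F X.o, hh ≠ 0 ∧ Real.pi * X.Q a (π2 F X.o hh) = (okF hF).sys.I η hh.1 := by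
  have := (okF hF).fin_hm
  have h := LinearMap.ker_ne_bot_of_finrank_lt (K := ℝ) (V := Hm F X.o) (V₂ := ℝ)
    (f := Real.pi • X.Q a ∘ₗ π2 F X.o - (okF hF).sys.I η ∘ₗ (Hm F X.o).subtype) (by
      rw [finrank_self, ← (okF hF).bpm.1, bp_ori _ X.ok.ori hF.ori]; omega)
  obtain ⟨hh, h1, h3⟩ := (Submodule.ne_bot_iff _).1 h
  exact ⟨hh, h3, sub_eq_zero.1 h1⟩

variable (X) in
/-- **TRK** -/
theorem trkS (hL : L.On I Set.univ) (h2 : 2 ≤ bp X.ok.ori) (h : LeafL X L) : TrkS X L := by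
  intro F η k R a hF hη hk ha
  have hB := B_ok X hL
  have hG := G_ok hL hF
  obtain ⟨P, p0, p1⟩ := h.path F hF
  obtain ⟨hh, z1, z2⟩ := exists_hh hF h2 ⟨η, hη⟩ a
  have rep : ∀ β : Om I M 2, ∃ (N : ℕ) (f g h : Fin N → M → ℝ),
      (∀ k, An.Sm I (f k) ∧ An.Sm I (g k) ∧ An.Sm I (h k)) ∧
      ∀ a b x, ∑ k, f k x * F.D a (g k) x * F.D b (h k) x = k2 F β.1 a b x := fun β =>
    exists_rep F (sm_k2 β) (k2_P F β.1) fun a b x => by
      simp only [k2_swap F β.1 _ a, mul_neg, sum_neg_distrib, k2_P]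
  obtain ⟨N, f, g, j, a1, a2⟩ := rep ⟨η, hη⟩
  obtain ⟨N', f', g', j', b1, b2⟩ := rep hh.1
  set A := Real.pi * X.Q a (π2 F X.o hh) with hA
  let lam : ℝ := if 0 < A then -1 else 1
  let s : ℝ → ℝ := fun t => smoothTransition (2 * t - 1)
  have s0 : ∀ t, 0 ≤ s t := fun t => smoothTransition.nonneg _
  have s1 : ∀ t, s t ≤ 1 := fun t => smoothTransition.le_one _
  have ss : ContDiff ℝ ∞ s := smoothTransition.contDiff.comp (by fun_prop)
  let w : ℝ → Fin (N + N') → ℝ := fun t => Fin.append (fun _ => s t) fun _ => s t * (1 - s t) * lam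
  have wb : ∀ t i, |w t i| ≤ 1 := fun t i => by
    refine Fin.addCases (fun i => ?_) (fun i => ?_) i
    · simp only [w, Fin.append_left]; exact abs_le.2 ⟨by linarith [s0 t], s1 t⟩
    · simp only [w, Fin.append_right, lam]
      split_ifs <;> refine abs_le.2 ⟨?_, ?_⟩ <;> nlinarith [s0 t, s1 t]
  have wz : ∀ t, s t = 0 → w t = 0 := fun t ht => funext fun i =>
    Fin.addCases (fun i => by simp [w, ht]) (fun i => by simp [w, ht]) i
  obtain ⟨R₁, hR⟩ := h.apr F hF _ (Fin.append f f') (Fin.append g g') (Fin.append j j') phi0 1 k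
  obtain ⟨l, l1, l2⟩ := h.nrm F hF a ha (max R R₁)
  let D : Ed M := ⟨_, Fin.append f f', Fin.append g g', Fin.append j j', phi0, l⟩
  have ok : D.OK X.F := fun i => by
    have : An.Sm I (D.f i) ∧ An.Sm I (D.g i) ∧ An.Sm I (D.h i) := Fin.addCases
      (fun i => by simpa only [D, Fin.append_left] using a1 i)
      (fun i => by simpa only [D, Fin.append_right] using b1 i) i
    exact ⟨Sob92.Cb_of_compact this.1, cd_of_sm _ this.2.1, cd_of_sm _ this.2.2, phi0_sm,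
      ⟨16, phi0_bd⟩, l1⟩
  have nm : D.Nm := fun u h _ => phi0_nm u h
  have fm : ∀ t x q, D.fm F (w t) x q =
      s t * k2 F η q.1 q.2 x + s t * (1 - s t) * lam * k2 F hh.1.1 q.1 q.2 x := fun t x q => by
    simp only [Ed.fm, D, w, Fin.sum_univ_add, Fin.append_left, Fin.append_right, ← mul_sum, a2, b2]
  have f1 : ∀ x q, D.fm F (w 1) x q = cmp F η x q := fun x q => by
    rw [fm, show s 1 = 1 from smoothTransition.one_of_one_le (by norm_num), Eq82.cmp]; ring
  have eqn : ∀ t (c : Cfg M ι (κ ⊕ κ) 0) (ξ : M → c.m.A),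
      c.Sol (X.B L) (L.geo F) (D.pt (X.B L) F (w t) 0 0) → c.kap (X.B L) (L.geo F) ≤ k →
      SPt F c ξ → lab F c ξ = a → ∀ x, c.m.p2 (X.B L) x (c.m.Fg F c.W x) -
        c.m.mu (X.B L) x (c.Φ x) (c.Φ x) =
        c.m.p2 (X.B L) x (WithLp.toLp 2 fun q => D.fm F (w t) x q • ξ x) :=
    fun t c ξ c1 c2 c3 c4 x => by
      obtain ⟨u, hu⟩ := l2 c ξ c1.toAdm c3 c4 ((hR l (w t) ok (wb t) c c1 c2).trans (le_max_right _ _))
      rw [← ed_C (n := 0) nm (w t) (c3.toRed.nrm c1.ok x) (hu x).1 (hu x).2.1 (hu x).2.2]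
      exact sub_eq_zero.1 (c1.C x)
  have bk : ∀ (c : Cfg M ι (κ ⊕ κ) 0) (ξ : M → c.m.A), SWs (X.B L) (L.geo F) (cmp F η) c ξ →
      lab F c ξ = a → ∫ x, ‖c.m.Fg F c.W x‖ ^ 2 ∂F.μ ≤ R →
      c.Sol (X.B L) (L.geo F) (D.pt (X.B L) F (w 1) 0 0) ∧
        ∃ u : M → ℝ, ∀ x, 1 / 2 ≤ u x ∧ u x ≤ 3 / 2 ∧ c.aws F D.L x = u x • ξ x :=
    fun c ξ c1 c2 c3 => by
      obtain ⟨u, hu⟩ := l2 c ξ c1.adm c1.spt c2 (c3.trans (le_max_left _ _))
      refine ⟨⟨c1.adm, fun x => ?_, fun x => ?_, fun i => i.elim0⟩, u, hu⟩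
      · rw [Cfg.eD, ed_D, sub_zero]; exact c1.D x
      · rw [Cfg.eC, ed_C nm (w 1) (c1.spt.toRed.nrm c1.adm.ok x) (hu x).1 (hu x).2.1 (hu x).2.2]
        simp only [f1]
        exact sub_eq_zero.2 (c1.C x)
  have sw : ContDiff ℝ ∞ w := contDiff_pi.2 fun i => Fin.addCases
    (fun i => by simpa only [w, Fin.append_left] using ss) (fun i => by
      simpa only [w, Fin.append_right] using (ss.mul (contDiff_const.sub ss)).mul contDiff_const) i
  refine ⟨⟨P, D, w, ok, sw, p0, wz 0 (smoothTransition.zero_of_nonpos (by norm_num)),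
    fun t ht c ξ c1 c2 c3 c4 h0 => ?_⟩, p1 1 (by norm_num), nm, fun c ξ c1 c2 c3 c4 =>
      ⟨c1.toAdm, c3, fun x => by simpa only [Cfg.eD, ed_D, sub_zero] using c1.D x,
        fun x => (eqn 1 c ξ c1 c2 c3 c4 x).trans (by simp only [f1])⟩, bk⟩
  rcases (s0 t).eq_or_lt with e | e
  · have := kap_nonneg hB (P.hG t) c1.toAdm fun x => by
      simpa [Cfg.eC, h0, mu_zero, Ed.pa, wz t e.symm, Ed.pt, wpt] using c1.C x
    linarith
  have t1 : 1 / 2 ≤ t := by
    by_contra h'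
    exact e.ne' (smoothTransition.zero_of_nonpos (by linarith))
  have t2 : s t < 1 := smoothTransition.lt_one_of_lt_one (by linarith [ht.2])
  simp only [Ed.pa, p1 t t1] at c1 c2 c3 c4
  have cl := Red.cl_fm (G := L.geo F) c3.toRed hG c1.conn
  let ζ : Om I M 2 := ⟨_, cl.sm, cl.dg⟩ - (s t • ⟨η, hη⟩ + (s t * (1 - s t) * lam) • hh.1)
  have y0 : ∀ a b x, k2 F ζ.1 a b x = fF F c.m c.W ξ a b x - D.fm F (w t) x (a, b) := fun a b x => by
    rw [fm, ← k2_smul, ← k2_smul, ← k2_add, ← show k2 F _ a b x = fF F c.m c.W ξ a b x from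
      k2_fm (G := L.geo F) hG c1.conn a b x, ← k2_sub]
    rfl
  have y1 : (okF hF).sys.I ζ hh.1 = 0 := by
    refine ((okF hF).integ_sd ζ.2.2 hh.2.2).trans ?_
    rw [integral_congr_ae (.of_forall fun x => pp_of_sd hB hF.P hh.2.2 fun q => ?_), integral_zero,
      mul_zero]
    have := congrArg (· q) ((eqn t c ξ c1 c2 c3 c4 x).symm.trans (congrArg (· - _)
      (Red.p2_Fg (G := L.geo F) c3.toRed hB hG c1.ok c1.conn x)))
    simp only [h0, Pi.zero_apply, mu_zero, sub_zero, p2_smul (c3.mem x)] at this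
    simp only [y0, mul_sub, sum_sub_distrib]
    exact sub_eq_zero.2 (c3.toRed.smul_inj c1.ok this).symm
  have y2 : (okF hF).sys.I ⟨_, cl.sm, cl.dg⟩ hh.1 = A := by
    rw [hA, ← c4, lab_eq hL hF c1.conn c3.toRed, map_smul, LinearMap.smul_apply, smul_eq_mul,
      mul_inv_cancel_left₀ Real.pi_ne_zero, Q_eq hF]
    rfl
  have y3 : 0 < (okF hF).sys.I hh.1 hh.1 := (okF hF).Q_pos z1
  simp only [ζ, map_sub, map_add, map_smul, LinearMap.sub_apply, LinearMap.add_apply,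
    LinearMap.smul_apply, smul_eq_mul, y2, ← z2] at y1
  have y4 : A = s t * lam * (okF hF).sys.I hh.1 hh.1 :=
    mul_left_cancel₀ (sub_pos.2 t2).ne' (by linarith)
  have y5 := mul_pos e y3
  by_cases hp : 0 < A
  · simp only [lam, if_pos hp] at y4; linarith
  · simp only [lam, if_neg hp] at y4; linarith

end Crest.Agent.X212.Met55
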