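import Mathlib

/-! Linear algebra of a finite spanning family: Gram matrix, projector, coefficients, density. -/

open Matrix Module Finset
open scoped MatrixOrder

noncomputable section
namespace Crest.Agent.X212.Met55

variable {E E' : Type*} [AddCommGroup E] [Module ℝ E] [AddCommGroup E'] [Module ℝ E']
  {ι κ n : Type*} [Fintype ι] [Fintype κ] [Fintype n] [DecidableEq n]

/-- `v` spans -/
def Sp (v : ι → E) : Prop := ∀ w : E, ∃ c : ι → ℝ, w = ∑ a, c a • v a

/-- the coordinates of the family in a basis -/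
def fm (b : Basis n ℝ E) (v : ι → E) : Matrix n ι ℝ := Matrix.of fun i a => b.repr (v a) i

/-- the cometric in a basis -/
def gm (b : Basis n ℝ E) (v : ι → E) : Matrix n n ℝ := fm b v * (fm b v)ᵀ

/-- the canonical right inverse -/
def ri (b : Basis n ℝ E) (v : ι → E) : Matrix ι n ℝ := (fm b v)ᵀ * (gm b v)⁻¹

/-- the projector: `prj a c = g (v a, v c)` -/
def prj (b : Basis n ℝ E) (v : ι → E) : Matrix ι ι ℝ := ri b v * fm b v

/-- the coefficients `th w a = g (w, v a)` -/
def th (b : Basis n ℝ E) (v : ι → E) (w : E) : ι → ℝ := ri b v *ᵥ b.repr w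

/-- the Riemannian density relative to the basis -/
def rjb (b : Basis n ℝ E) (v : ι → E) : ℝ := (√(gm b v).det)⁻¹

variable {b : Basis n ℝ E} {v : ι → E}

omit [Fintype ι] [Fintype n] [DecidableEq n] in
@[simp] theorem fm_apply (i : n) (a : ι) : fm b v i a = b.repr (v a) i := rfl

omit [Fintype n] [DecidableEq n] in
theorem fm_mulVec (c : ι → ℝ) : fm b v *ᵥ c = b.repr (∑ a, c a • v a) := by
  funext i
  simp [mulVec, dotProduct, map_sum, Finsupp.finsetSum_apply, mul_comm]

omit [Fintype n] [DecidableEq n] in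
theorem gm_apply (i j : n) : gm b v i j = ∑ a, b.repr (v a) i * b.repr (v a) j := by
  simp [gm, mul_apply]

omit [Fintype n] [DecidableEq n] in
theorem gm_transpose : (gm b v)ᵀ = gm b v := by simp [gm, transpose_mul]

omit [DecidableEq n] in
theorem Sp.vecMul_inj (h : Sp v) : Function.Injective fun x => x ᵥ* fm b v := by
  intro x y hxy
  have h0 : (x - y) ᵥ* fm b v = 0 := by rw [sub_vecMul]; exact sub_eq_zero.2 hxy
  obtain ⟨c, hc⟩ := h (b.equivFun.symm (x - y))
  have h1 : fm b v *ᵥ c = x - y := by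
    rw [fm_mulVec, ← hc]; funext i; exact congrFun (b.equivFun.apply_symm_apply (x - y)) i
  have h2 : (x - y) ⬝ᵥ (x - y) = 0 := by
    conv_lhs => rw [← h1, dotProduct_mulVec, h1, h0]
    simp
  exact sub_eq_zero.1 (dotProduct_self_eq_zero.1 h2)

omit [DecidableEq n] in
theorem Sp.posDef (h : Sp v) : (gm b v).PosDef := by
  have := Matrix.PosDef.mul_conjTranspose_self (fm b v) h.vecMul_inj
  rwa [conjTranspose_eq_transpose_of_trivial] at this

theorem Sp.det_pos (h : Sp v) : 0 < (gm b v).det := h.posDef.det_pos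

theorem Sp.unit (h : Sp v) : IsUnit (gm b v).det := h.det_pos.ne'.isUnit

theorem Sp.rjb_pos (h : Sp v) : 0 < rjb b v := inv_pos.2 (Real.sqrt_pos.2 h.det_pos)

theorem Sp.fm_ri (h : Sp v) : fm b v * ri b v = 1 := by
  rw [ri, ← Matrix.mul_assoc]; exact mul_nonsing_inv _ h.unit

theorem prj_transpose : (prj b v)ᵀ = prj b v := by
  simp [prj, ri, transpose_mul, transpose_nonsing_inv, gm_transpose, Matrix.mul_assoc]

theorem prj_symm (a c : ι) : prj b v a c = prj b v c a := by
  conv_lhs => rw [← prj_transpose]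
  rfl

theorem Sp.fm_prj (h : Sp v) : fm b v * prj b v = fm b v := by
  rw [prj, ← Matrix.mul_assoc, h.fm_ri, Matrix.one_mul]

theorem Sp.prj_ri (h : Sp v) : prj b v * ri b v = ri b v := by
  rw [prj, Matrix.mul_assoc, h.fm_ri, Matrix.mul_one]

theorem Sp.prj_prj (h : Sp v) : prj b v * prj b v = prj b v := by
  conv_lhs => enter [2]; rw [prj]
  rw [← Matrix.mul_assoc, h.prj_ri]; rfl

theorem Sp.trace_prj (h : Sp v) : (prj b v).trace = Fintype.card n := by
  rw [prj, trace_mul_comm, h.fm_ri, trace_one]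

theorem Sp.sum_th (h : Sp v) (w : E) : ∑ a, th b v w a • v a = w := by
  apply b.repr.injective
  apply DFunLike.coe_injective
  change ⇑(b.repr _) = ⇑(b.repr w)
  rw [← fm_mulVec, th, mulVec_mulVec, h.fm_ri, one_mulVec]

theorem th_sum (c : ι → ℝ) : th b v (∑ a, c a • v a) = prj b v *ᵥ c := by
  rw [th, ← fm_mulVec, mulVec_mulVec, prj]

theorem th_self (a c : ι) : th b v (v a) c = prj b v c a := by
  simp [th, prj, mulVec, dotProduct, mul_apply]

theorem Sp.prj_th (h : Sp v) (w : E) : prj b v *ᵥ th b v w = th b v w := by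
  rw [th, mulVec_mulVec, h.prj_ri]

theorem Sp.sum_prj (h : Sp v) (a : ι) : ∑ c, prj b v a c • v c = v a := by
  simp only [prj_symm a, ← th_self]; exact h.sum_th _

theorem th_add (w w' : E) : th b v (w + w') = th b v w + th b v w' := by
  simp [th, mulVec_add]

theorem th_smul (r : ℝ) (w : E) : th b v (r • w) = r • th b v w := by
  simp [th, mulVec_smul]

theorem th_sub (w w' : E) : th b v (w - w') = th b v w - th b v w' := by
  simp [th, mulVec_sub]

/-- basis-free description of the projector -/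
structure IsP (v : ι → E) (P : Matrix ι ι ℝ) : Prop where
  symm : Pᵀ = P
  fix : ∀ a, ∑ c, P a c • v c = v a
  ker : ∀ c : ι → ℝ, ∑ a, c a • v a = 0 → P *ᵥ c = 0

theorem Sp.isP (h : Sp v) : IsP v (prj b v) :=
  ⟨prj_transpose, h.sum_prj, fun c hc => by rw [← th_sum, hc]; simp [th]⟩

theorem IsP.sy {P : Matrix ι ι ℝ} (h : IsP v P) (a c : ι) : P a c = P c a := by
  conv_lhs => rw [← h.symm]
  rfl

theorem IsP.comb {P : Matrix ι ι ℝ} (h : IsP v P) (c : ι → ℝ) :
    ∑ a, (P *ᵥ c) a • v a = ∑ a, c a • v a := by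
  simp only [mulVec, dotProduct, sum_smul]
  rw [sum_comm]
  refine sum_congr rfl fun a _ => ?_
  rw [← h.fix a, smul_sum]
  exact sum_congr rfl fun k _ => by rw [smul_smul, h.sy a k, mul_comm]

theorem IsP.mul {P Q : Matrix ι ι ℝ} (h : IsP v P) (h' : IsP v Q) : Q * P = Q := by
  classical
  refine Matrix.ext_of_mulVec_single fun a => ?_
  have := h'.ker (P *ᵥ Pi.single a 1 - Pi.single a 1) (by
    simp only [Pi.sub_apply, sub_smul, sum_sub_distrib, h.comb, sub_self])
  rwa [mulVec_sub, mulVec_mulVec, sub_eq_zero] at this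

theorem IsP.unique {P Q : Matrix ι ι ℝ} (h : IsP v P) (h' : IsP v Q) : P = Q := by
  have h1 := congrArg transpose (h.mul h')
  rw [transpose_mul, h.symm, h'.symm] at h1
  rw [← h1, h'.mul h]

theorem IsP.eq_prj {P : Matrix ι ι ℝ} (h : IsP v P) (hs : Sp v) (b : Basis n ℝ E) :
    P = prj b v := h.unique hs.isP

theorem Sp.map (h : Sp v) {A : E →ₗ[ℝ] E'} (hA : Function.Surjective A) :
    Sp fun a => A (v a) := fun w => by
  obtain ⟨u, rfl⟩ := hA w
  obtain ⟨c, rfl⟩ := h u
  exact ⟨c, by simp [map_sum]⟩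

theorem IsP.map {P : Matrix ι ι ℝ} (h : IsP v P) {A : E →ₗ[ℝ] E'} (hA : Function.Injective A) :
    IsP (fun a => A (v a)) P :=
  ⟨h.symm, fun a => by rw [← h.fix a]; simp [map_sum], fun c hc => h.ker c (hA (by
    simpa [map_sum] using hc))⟩

theorem IsP.of_map {P : Matrix ι ι ℝ} {A : E →ₗ[ℝ] E'} (h : IsP (fun a => A (v a)) P)
    (hA : Function.Injective A) : IsP v P :=
  ⟨h.symm, fun a => hA (by rw [← h.fix a]; simp [map_sum]), fun c hc => h.ker c (by
    simpa [map_sum] using congrArg A hc)⟩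

variable {n' : Type*} [Fintype n'] [DecidableEq n']

theorem Sp.prj_map (h : Sp v) {A : E →ₗ[ℝ] E'} (hA : Function.Bijective A) (b : Basis n ℝ E)
    (b' : Basis n' ℝ E') : prj b' (fun a => A (v a)) = prj b v :=
  (((h.isP (b := b)).map hA.1).eq_prj (h.map hA.2) b').symm

/-- the coefficient vector is the only one in the range of the projector -/
theorem IsP.eq_th {P : Matrix ι ι ℝ} (h : IsP v P) (hs : Sp v) (b : Basis n ℝ E) {c : ι → ℝ}
    (hc : P *ᵥ c = c) {w : E} (hw : ∑ a, c a • v a = w) : c = th b v w := by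
  rw [← hw, th_sum, ← h.eq_prj hs b, hc]

theorem Sp.th_map (h : Sp v) {A : E →ₗ[ℝ] E'} (hA : Function.Bijective A) (b : Basis n ℝ E)
    (b' : Basis n' ℝ E') (w : E) : th b' (fun a => A (v a)) (A w) = th b v w := by
  refine (((h.isP (b := b)).map hA.1).eq_th (h.map hA.2) b' (h.prj_th w) ?_).symm
  conv_rhs => rw [← h.sum_th (b := b) w]
  simp [map_sum]

omit [Fintype ι] [Fintype n'] [DecidableEq n'] in
theorem fm_map (A : E →ₗ[ℝ] E') (b : Basis n ℝ E) (b' : Basis n' ℝ E') [Finite n'] :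
    fm b' (fun a => A (v a)) = LinearMap.toMatrix b b' A * fm b v := by
  ext i a
  have := congrFun (LinearMap.toMatrix_mulVec_repr b b' A (v a)) i
  simpa [mulVec, dotProduct, mul_apply] using this.symm

theorem rjb_map (A : E →ₗ[ℝ] E') (b : Basis n ℝ E) (b' : Basis n ℝ E') :
    rjb b' (fun a => A (v a)) = |(LinearMap.toMatrix b b' A).det|⁻¹ * rjb b v := by
  have : (gm b' fun a => A (v a)).det = (LinearMap.toMatrix b b' A).det ^ 2 * (gm b v).det := by
    rw [gm, fm_map A b b', transpose_mul, Matrix.mul_assoc, ← Matrix.mul_assoc (fm b v),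
      det_mul, det_mul, det_transpose, gm]
    ring
  rw [rjb, this, Real.sqrt_mul (sq_nonneg _), Real.sqrt_sq_eq_abs, mul_inv, rjb]

/-! ### the cometric -/

/-- two families define the same cometric -/
def Co (v : ι → E) (w : κ → E) : Prop :=
  ∀ α β : E →ₗ[ℝ] ℝ, ∑ a, α (v a) * β (v a) = ∑ a, α (w a) * β (w a)

omit [Fintype n] [DecidableEq n] in
theorem Co.gm_eq {w : κ → E} (h : Co v w) (b : Basis n ℝ E) : gm b v = gm b w := by
  ext i j
  rw [gm_apply, gm_apply]
  exact h (b.coord i) (b.coord j)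

theorem Co.rjb_eq {w : κ → E} (h : Co v w) (b : Basis n ℝ E) : rjb b v = rjb b w := by
  rw [rjb, h.gm_eq b, rjb]

theorem Co.symm {w : κ → E} (h : Co v w) : Co w v := fun α β => (h α β).symm

theorem Co.map {w : κ → E} (h : Co v w) (A : E →ₗ[ℝ] E') :
    Co (fun a => A (v a)) fun a => A (w a) := fun α β => h (α ∘ₗ A) (β ∘ₗ A)

omit [DecidableEq n] in
theorem sum_eq_gm (b : Basis n ℝ E) (v : ι → E) (α β : E →ₗ[ℝ] ℝ) : ∑ a, α (v a) * β (v a) =
    ∑ i, ∑ j, α (b i) * β (b j) * gm b v i j := by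
  simp only [gm_apply, mul_sum]
  symm
  rw [sum_congr rfl fun i _ => sum_comm, sum_comm]
  refine sum_congr rfl fun a _ => ?_
  conv_rhs => rw [← b.sum_repr (v a)]
  simp only [map_sum, map_smul, smul_eq_mul, sum_mul_sum]
  exact sum_congr rfl fun i _ => sum_congr rfl fun j _ => by ring

omit [DecidableEq n] in
theorem co_of_gm {w : κ → E} (h : gm b v = gm b w) : Co v w := fun α β => by
  rw [sum_eq_gm b v, sum_eq_gm b w, h]

theorem sp_of_unit (h : IsUnit (gm b v).det) : Sp v := fun w => ⟨th b v w, by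
  apply b.repr.injective
  apply DFunLike.coe_injective
  change ⇑(b.repr w) = ⇑(b.repr _)
  rw [← fm_mulVec, th, mulVec_mulVec, ri, ← Matrix.mul_assoc, ← gm, mul_nonsing_inv _ h,
    one_mulVec]⟩

theorem Co.sp {w : κ → E} (h : Co v w) (hv : Sp v) (b : Basis n ℝ E) : Sp w :=
  sp_of_unit (b := b) (h.gm_eq b ▸ hv.unit)

/-! ### linear recombination of a family -/

/-- `(mix S v) a = ∑ c, S a c • v c` -/
def mix (S : Matrix κ ι ℝ) (v : ι → E) : κ → E := fun a => ∑ c, S a c • v c

omit [Fintype κ] [Fintype n] [DecidableEq n] in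
theorem fm_mix (S : Matrix κ ι ℝ) : fm b (mix S v) = fm b v * Sᵀ := by
  ext i a
  simp [mix, mul_apply, map_sum, Finsupp.finsetSum_apply, mul_comm]

theorem sum_mix (S : Matrix κ ι ℝ) (c : κ → ℝ) :
    ∑ a, c a • mix S v a = ∑ a, (Sᵀ *ᵥ c) a • v a := by
  simp only [mix, smul_sum, smul_smul, mulVec, dotProduct, sum_smul, transpose_apply]
  rw [sum_comm]
  exact sum_congr rfl fun _ _ => sum_congr rfl fun _ _ => by rw [mul_comm]

omit [Fintype κ] in
theorem mix_mix {κ' : Type*} [Fintype κ] (T : Matrix κ' κ ℝ) (S : Matrix κ ι ℝ) :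
    mix T (mix S v) = mix (T * S) v := by
  funext a
  simp only [mix, smul_sum, smul_smul, mul_apply, sum_smul]
  rw [sum_comm]

theorem IsP.mix_self {P : Matrix ι ι ℝ} (h : IsP v P) : mix P v = v := funext h.fix

theorem mix_one [DecidableEq ι] : mix 1 v = v := by
  funext a; simp [mix, one_apply]

omit [Fintype κ] in
theorem mix_map (S : Matrix κ ι ℝ) (A : E →ₗ[ℝ] E') (a : κ) :
    A (mix S v a) = mix S (fun c => A (v c)) a := by simp [mix, map_sum]

/-- a partial isometry with initial projector `P` keeps the cometric -/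
theorem IsP.co_mix {P : Matrix ι ι ℝ} (h : IsP v P) {U : Matrix κ ι ℝ} (hU : Uᵀ * U = P) :
    Co v (mix U v) := by
  intro α β
  have e : ∀ γ : E →ₗ[ℝ] ℝ, (fun a => γ (mix U v a)) = U *ᵥ fun c => γ (v c) := by
    intro γ; funext a; simp [mix, map_sum, mulVec, dotProduct]
  have e2 : P *ᵥ (fun c => β (v c)) = fun c => β (v c) := by
    funext a
    conv_rhs => rw [← h.fix a]
    simp [map_sum, mulVec, dotProduct]
  change (fun a => α (v a)) ⬝ᵥ (fun a => β (v a)) =
    (fun a => α (mix U v a)) ⬝ᵥ fun a => β (mix U v a)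
  rw [e α, e β, dotProduct_mulVec, vecMul_mulVec, ← dotProduct_mulVec, hU, e2]

/-- ... and the new projector is the final projector -/
theorem IsP.isP_mix {P : Matrix ι ι ℝ} (h : IsP v P) {U : Matrix κ ι ℝ} (hU : Uᵀ * U = P)
    (hP : U * P = U) : IsP (mix U v) (U * Uᵀ) := by
  refine ⟨by simp [transpose_mul], fun a => ?_, fun c hc => ?_⟩
  · change mix (U * Uᵀ) (mix U v) a = _
    rw [mix_mix, Matrix.mul_assoc, hU, hP]
  · rw [sum_mix] at hc
    have := h.ker _ hc
    rw [← mulVec_mulVec, ← hP, ← mulVec_mulVec]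
    conv_lhs => enter [2, 2, 1]; rw [hP]
    rw [this, mulVec_zero]

/-- an invertible matrix commuting with `P` keeps the projector -/
theorem IsP.isP_mix_comm [DecidableEq ι] {P : Matrix ι ι ℝ} (h : IsP v P) {S : Matrix ι ι ℝ}
    (hS : IsUnit S.det) (hc : S * P = P * S) : IsP (mix S v) P := by
  refine ⟨h.symm, fun a => ?_, fun c hc' => ?_⟩
  · change mix P (mix S v) a = _
    rw [mix_mix, ← hc, ← mix_mix, h.mix_self]
  · rw [sum_mix] at hc'
    have h1 := h.ker _ hc'
    have h2 : P * Sᵀ = Sᵀ * P := by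
      have := congrArg transpose hc
      rwa [transpose_mul, transpose_mul, h.symm] at this
    rw [mulVec_mulVec, h2, ← mulVec_mulVec] at h1
    have h3 : IsUnit (Sᵀ).det := by rwa [det_transpose]
    have := congrArg (fun z => (Sᵀ)⁻¹ *ᵥ z) h1
    simpa [mulVec_mulVec, ← Matrix.mul_assoc, nonsing_inv_mul _ h3] using this

theorem Sp.mix [DecidableEq ι] (h : Sp v) {S : Matrix ι ι ℝ} (hS : IsUnit S.det) :
    Sp (mix S v) := fun w => by
  obtain ⟨c, rfl⟩ := h w
  have h3 : IsUnit (Sᵀ).det := by rwa [det_transpose]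
  exact ⟨(Sᵀ)⁻¹ *ᵥ c, by rw [sum_mix, mulVec_mulVec, mul_nonsing_inv _ h3, one_mulVec]⟩

end Crest.Agent.X212.Met55
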