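import Crest.Agent.X212.Met55.Lin
import Crest.Agent.X212.Pj41.Sm

/-! Cometrics relative to a fixed frame: admissible matrices, square roots, rotations. -/

open Matrix Module Finset
open scoped MatrixOrder

noncomputable section
namespace Crest.Agent.X212.Met55

variable {E E' : Type*} [AddCommGroup E] [Module ℝ E] [AddCommGroup E'] [Module ℝ E']
  {ι κ n : Type*} [Fintype ι] [Fintype κ] [Fintype n] [DecidableEq n]
  {b : Basis n ℝ E} {v : ι → E} {w : κ → E}

/-- the cometric `∑ H a c • v a ⊗ v c` -/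
def hb (v : ι → E) (H : Matrix ι ι ℝ) (α β : E →ₗ[ℝ] ℝ) : ℝ :=
  (fun a => α (v a)) ⬝ᵥ (H *ᵥ fun a => β (v a))

theorem hb_apply (H : Matrix ι ι ℝ) (α β : E →ₗ[ℝ] ℝ) :
    hb v H α β = ∑ a, ∑ c, H a c * (α (v a) * β (v c)) := by
  simp only [hb, dotProduct, mulVec, mul_sum]
  exact sum_congr rfl fun _ _ => sum_congr rfl fun _ _ => by ring

theorem hb_one [DecidableEq ι] (α β : E →ₗ[ℝ] ℝ) : hb v 1 α β = ∑ a, α (v a) * β (v a) := by
  simp [hb, dotProduct]

theorem hb_add (H K : Matrix ι ι ℝ) (α β : E →ₗ[ℝ] ℝ) :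
    hb v (H + K) α β = hb v H α β + hb v K α β := by simp [hb, add_mulVec]

theorem hb_sub (H K : Matrix ι ι ℝ) (α β : E →ₗ[ℝ] ℝ) :
    hb v (H - K) α β = hb v H α β - hb v K α β := by simp [hb, sub_mulVec]

theorem hb_smul (r : ℝ) (H : Matrix ι ι ℝ) (α β : E →ₗ[ℝ] ℝ) :
    hb v (r • H) α β = r * hb v H α β := by simp [hb, smul_mulVec]

theorem hb_sum {σ : Type*} (s : Finset σ) (H : σ → Matrix ι ι ℝ) (α β : E →ₗ[ℝ] ℝ) :
    hb v (∑ i ∈ s, H i) α β = ∑ i ∈ s, hb v (H i) α β := by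
  simp [hb, sum_mulVec, dotProduct_sum]

theorem hb_map (H : Matrix ι ι ℝ) (A : E →ₗ[ℝ] E') (α β : E' →ₗ[ℝ] ℝ) :
    hb (fun a => A (v a)) H α β = hb v H (α ∘ₗ A) (β ∘ₗ A) := rfl

omit [Fintype κ] in
theorem map_mix (S : Matrix κ ι ℝ) (γ : E →ₗ[ℝ] ℝ) :
    (fun a => γ (mix S v a)) = S *ᵥ fun c => γ (v c) := by
  funext a; simp [mix, map_sum, mulVec, dotProduct]

theorem hb_mix (S : Matrix κ ι ℝ) (D : Matrix κ κ ℝ) (α β : E →ₗ[ℝ] ℝ) :
    hb (mix S v) D α β = hb v (Sᵀ * D * S) α β := by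
  rw [hb, map_mix, map_mix, hb, dotProduct_mulVec, dotProduct_mulVec, vecMul_mulVec,
    dotProduct_mulVec, vecMul_vecMul]

theorem IsP.hb_P [DecidableEq ι] {P : Matrix ι ι ℝ} (h : IsP v P) (α β : E →ₗ[ℝ] ℝ) :
    hb v P α β = hb v 1 α β := by
  rw [hb, ← map_mix, h.mix_self, hb, one_mulVec]

theorem co_iff [DecidableEq ι] [DecidableEq κ] : Co v w ↔ hb v 1 = hb w 1 := by
  simp only [Co, funext_iff, hb_one]

theorem Co.refl (v : ι → E) : Co v v := fun _ _ => rfl

theorem Co.trans {κ' : Type*} [Fintype κ'] {u : κ' → E} (h : Co v w) (h' : Co w u) : Co v u :=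
  fun α β => (h α β).trans (h' α β)

theorem Co.of_map {A : E →ₗ[ℝ] E'} (hA : Function.Bijective A)
    (h : Co (fun a => A (v a)) fun a => A (w a)) : Co v w := fun α β => by
  let L := LinearEquiv.ofBijective A hA
  have := h (α ∘ₗ L.symm.toLinearMap) (β ∘ₗ L.symm.toLinearMap)
  have e : ∀ x, L.symm (A x) = x := L.symm_apply_apply
  simpa [e] using this

/-! ### admissible matrices -/

variable [DecidableEq ι]

/-- positive definite and commuting with `P` -/
structure Adm (P H : Matrix ι ι ℝ) : Prop where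
  pos : H.PosDef
  comm : H * P = P * H

/-- the positive square root -/
def sq (H : Matrix ι ι ℝ) : Matrix ι ι ℝ := CFC.sqrt H

omit [Fintype ι] [DecidableEq ι] in
theorem posDef_symm {H : Matrix ι ι ℝ} (h : H.PosDef) : Hᵀ = H := by
  have := h.isHermitian.eq
  rwa [conjTranspose_eq_transpose_of_trivial] at this

theorem sq_pos {H : Matrix ι ι ℝ} (h : H.PosDef) : (sq H).PosDef := Pj41.posDef_sqrt h

theorem sq_mul_sq {H : Matrix ι ι ℝ} (h : H.PosDef) : sq H * sq H = H :=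
  CFC.sqrt_mul_sqrt_self H h.posSemidef.nonneg

theorem sq_mul_self {S : Matrix ι ι ℝ} (h : S.PosDef) : sq (S * S) = S :=
  CFC.sqrt_unique rfl h.posSemidef.nonneg

@[simp] theorem sq_one : sq (1 : Matrix ι ι ℝ) = 1 := by
  simpa using sq_mul_self (S := (1 : Matrix ι ι ℝ)) PosDef.one

theorem sq_comm {H Q : Matrix ι ι ℝ} (h : H.PosDef) (hc : H * Q = Q * H) :
    sq H * Q = Q * sq H := by
  rw [← sub_eq_zero]
  refine Pj41.sylvester_inj (sq_pos h) ?_
  have : sq H * (sq H * Q - Q * sq H) + (sq H * Q - Q * sq H) * sq H =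
      sq H * sq H * Q - Q * (sq H * sq H) := by noncomm_ring
  rw [this, sq_mul_sq h, hc, sub_self]

namespace Adm
variable {P H K : Matrix ι ι ℝ}

theorem one : Adm P 1 := ⟨PosDef.one, by simp⟩

theorem sq (h : Adm P H) : Adm P (sq H) := ⟨sq_pos h.pos, sq_comm h.pos h.comm⟩

theorem unit (h : Adm P H) : IsUnit H.det := h.pos.det_pos.ne'.isUnit

omit [DecidableEq ι] in
theorem symm (h : Adm P H) : Hᵀ = H := posDef_symm h.pos

theorem inv (h : Adm P H) : Adm P H⁻¹ := ⟨h.pos.inv, by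
  have := congrArg (fun X => H⁻¹ * X * H⁻¹) h.comm
  simp only [← Matrix.mul_assoc, nonsing_inv_mul _ h.unit, Matrix.one_mul] at this
  rw [this, Matrix.mul_assoc _ H, mul_nonsing_inv _ h.unit, Matrix.mul_one]⟩

theorem smul (h : Adm P H) {r : ℝ} (hr : 0 < r) : Adm P (r • H) :=
  ⟨h.pos.smul hr, by simp [h.comm]⟩

omit [DecidableEq ι] in
theorem add (h : Adm P H) (h' : Adm P K) : Adm P (H + K) :=
  ⟨h.pos.add h'.pos, by rw [Matrix.add_mul, Matrix.mul_add, h.comm, h'.comm]⟩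

theorem conj (h : Adm P H) (h' : Adm P K) : Adm P (K * H * K) := ⟨by
  have := (Matrix.IsUnit.posDef_star_left_conjugate_iff (x := H) h'.pos.isUnit).2 h.pos
  rwa [star_eq_conjTranspose, h'.pos.isHermitian.eq] at this, by
  rw [Matrix.mul_assoc, h'.comm, ← Matrix.mul_assoc, Matrix.mul_assoc K, h.comm,
    ← Matrix.mul_assoc, h'.comm]
  simp only [Matrix.mul_assoc]⟩

/-- a combination with nonnegative weights, one of them positive -/
theorem sum {σ : Type*} {s : Finset σ} {r : σ → ℝ} {H : σ → Matrix ι ι ℝ} (hr : ∀ i ∈ s, 0 ≤ r i)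
    (h : ∀ i ∈ s, r i ≠ 0 → Adm P (H i)) (h0 : ∃ i ∈ s, r i ≠ 0) : Adm P (∑ i ∈ s, r i • H i) := by
  classical
  obtain ⟨i, hi, h0⟩ := h0
  constructor
  · rw [← add_sum_erase _ _ hi]
    refine ((h i hi h0).pos.smul ((hr i hi).lt_of_ne' h0)).add_posSemidef
      (posSemidef_sum _ fun j hj => ?_)
    have hj := mem_of_mem_erase hj
    by_cases h1 : r j = 0
    · rw [h1, zero_smul]; exact PosSemidef.zero
    · exact (h j hj h1).pos.posSemidef.smul (hr j hj)
  · rw [Matrix.sum_mul, Matrix.mul_sum]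
    refine sum_congr rfl fun j hj => ?_
    by_cases h1 : r j = 0
    · simp [h1]
    · simp [(h j hj h1).comm]

theorem convex (h : Adm P H) (h' : Adm P K) {t : ℝ} (h0 : 0 ≤ t) (h1 : t ≤ 1) :
    Adm P ((1 - t) • H + t • K) := by
  rcases h0.eq_or_lt with rfl | h0
  · simpa using h
  rcases h1.eq_or_lt with rfl | h1
  · simpa using h'
  exact (h.smul (sub_pos.2 h1)).add (h'.smul h0)

/-- the blend `∏ (1 - λ i) + ∑ λ i • H i` -/
theorem blend {σ : Type*} [Fintype σ] {r : σ → ℝ} {H : σ → Matrix ι ι ℝ} (h0 : ∀ i, 0 ≤ r i)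
    (h1 : ∀ i, r i ≤ 1) (h : ∀ i, r i ≠ 0 → Adm P (H i)) (hK : Adm P K) :
    Adm P ((∏ i, (1 - r i)) • K + ∑ i, r i • H i) := by
  by_cases hr : ∀ i, r i = 0
  · simpa [hr] using hK
  push Not at hr
  obtain ⟨i, hi⟩ := hr
  have h2 := sum (s := univ) (fun i _ => h0 i) (fun i _ => h i) ⟨i, mem_univ _, hi⟩
  have h3 : 0 ≤ ∏ i, (1 - r i) := prod_nonneg fun i _ => sub_nonneg.2 (h1 i)
  rcases h3.eq_or_lt with h3 | h3
  · rwa [← h3, zero_smul, zero_add]
  · exact (hK.smul h3).add h2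

theorem isP (h : Adm P H) (hv : IsP v P) : IsP (mix H v) P := hv.isP_mix_comm h.unit h.comm

theorem hb_sq (h : Adm P H) : hb (mix (Met55.sq H) v) 1 = hb v H := by
  funext α β
  rw [hb_mix, h.sq.symm, Matrix.mul_one, sq_mul_sq h.pos]

end Adm

omit [Fintype ι] [DecidableEq ι] in
theorem blend_single {σ : Type*} [Fintype σ] {r : σ → ℝ} (H : σ → Matrix ι ι ℝ) (K : Matrix ι ι ℝ)
    (i : σ) (h : ∀ j, j ≠ i → r j = 0) :
    (∏ i, (1 - r i)) • K + ∑ i, r i • H i = (1 - r i) • K + r i • H i := by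
  rw [prod_eq_single i (fun j _ hj => by simp [h j hj]) (by simp),
    sum_eq_single i (fun j _ hj => by simp [h j hj]) (by simp)]

/-! ### one family in terms of another -/

/-- the coefficient matrix of `w` in the frame `v` -/
def tm (b : Basis n ℝ E) (v : ι → E) (w : κ → E) : Matrix ι κ ℝ := ri b v * fm b w

omit [DecidableEq ι] [Fintype κ] in
theorem tm_apply (a : ι) (k : κ) : tm b v w a k = th b v (w k) a := by
  simp [tm, th, mul_apply, mulVec, dotProduct]

omit [DecidableEq ι] [Fintype κ] in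
theorem Sp.mix_tm (h : Sp v) : Met55.mix (tm b v w)ᵀ v = w := by
  funext k
  simp only [Met55.mix, transpose_apply, tm_apply]
  exact h.sum_th _

omit [DecidableEq ι] [Fintype κ] in
theorem Sp.prj_tm (h : Sp v) : prj b v * tm b v w = tm b v w := by
  rw [tm, ← Matrix.mul_assoc, h.prj_ri]

omit [DecidableEq ι] [Fintype κ] in
theorem Sp.tm_prj (h : Sp v) : (tm b v w)ᵀ * prj b v = (tm b v w)ᵀ := by
  rw [← prj_transpose, ← transpose_mul, h.prj_tm]

omit [DecidableEq ι] in
theorem tm_self : tm b v v = prj b v := rfl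

omit [DecidableEq ι] [Fintype κ] in
theorem tm_mix (S : Matrix κ ι ℝ) : tm b v (mix S v) = prj b v * Sᵀ := by
  rw [tm, fm_mix, prj, Matrix.mul_assoc]

omit [DecidableEq ι] in
theorem tm_mix_right {κ' : Type*} (S : Matrix κ' κ ℝ) : tm b v (mix S w) = tm b v w * Sᵀ := by
  rw [tm, fm_mix, tm, Matrix.mul_assoc]

omit [DecidableEq ι] in
theorem Co.tm_mul (h : Co v w) (hv : Sp v) : tm b v w * (tm b v w)ᵀ = prj b v := by
  have h1 : fm b w * (fm b w)ᵀ = gm b v := (h.gm_eq b).symm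
  rw [tm, transpose_mul, Matrix.mul_assoc, ← Matrix.mul_assoc (fm b w), h1, prj]
  congr 1
  rw [ri, transpose_mul, transpose_transpose, transpose_nonsing_inv, gm_transpose,
    ← Matrix.mul_assoc, mul_nonsing_inv _ hv.unit, Matrix.one_mul]

omit [DecidableEq ι] in
theorem Co.mul_tm (h : Co v w) (hv : Sp v) : (tm b v w)ᵀ * tm b v w = prj b w := by
  have h1 : (ri b v)ᵀ * ri b v = (gm b v)⁻¹ := by
    conv_lhs => enter [1]; rw [ri]
    rw [transpose_mul, transpose_transpose, transpose_nonsing_inv, gm_transpose, Matrix.mul_assoc,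
      hv.fm_ri, Matrix.mul_one]
  rw [tm, transpose_mul, Matrix.mul_assoc, ← Matrix.mul_assoc (ri b v)ᵀ, h1, h.gm_eq b, prj, ri,
    Matrix.mul_assoc]

/-- the matrix of the cometric `∑ D k l • w k ⊗ w l` in the frame `v` -/
def coH (b : Basis n ℝ E) (v : ι → E) (w : κ → E) (D : Matrix κ κ ℝ) : Matrix ι ι ℝ :=
  tm b v w * D * (tm b v w)ᵀ + (1 - prj b v)

theorem Sp.hb_coH (h : Sp v) (D : Matrix κ κ ℝ) : hb v (coH b v w D) = hb w D := by
  funext α β
  rw [coH, hb_add, hb_sub, (h.isP (b := b)).hb_P, sub_self, add_zero]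
  conv_rhs => rw [← h.mix_tm (b := b) (w := w), hb_mix, transpose_transpose]

theorem Sp.adm_coH (h : Sp v) (hw : Sp w) {D : Matrix κ κ ℝ} (hD : D.PosDef) :
    Adm (prj b v) (coH b v w D) := by
  have hQ : (1 - prj b v) = (1 - prj b v)ᵀ * (1 - prj b v) := by
    rw [transpose_sub, transpose_one, prj_transpose, Matrix.sub_mul, Matrix.mul_sub,
      Matrix.mul_sub, h.prj_prj]; simp
  constructor
  · refine PosDef.of_dotProduct_mulVec_pos ?_ fun x hx => ?_
    · rw [IsHermitian, conjTranspose_eq_transpose_of_trivial, coH, transpose_add, transpose_mul,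
        transpose_mul, transpose_transpose, posDef_symm hD, transpose_sub, transpose_one,
        prj_transpose, Matrix.mul_assoc]
    · have e1 : x ⬝ᵥ ((tm b v w * D * (tm b v w)ᵀ) *ᵥ x) =
          ((tm b v w)ᵀ *ᵥ x) ⬝ᵥ (D *ᵥ ((tm b v w)ᵀ *ᵥ x)) := by
        rw [← mulVec_mulVec, ← mulVec_mulVec, dotProduct_mulVec, mulVec_transpose]
      have e2 : x ⬝ᵥ ((1 - prj b v) *ᵥ x) = ((1 - prj b v) *ᵥ x) ⬝ᵥ ((1 - prj b v) *ᵥ x) := by
        conv_lhs => rw [hQ, ← mulVec_mulVec, dotProduct_mulVec, vecMul_transpose]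
      rw [star_trivial, coH, add_mulVec, dotProduct_add, e1, e2]
      by_cases h0 : (tm b v w)ᵀ *ᵥ x = 0
      · have h1 : x ᵥ* ri b v = 0 := hw.vecMul_inj (b := b) (by
          simpa [vecMul_vecMul, ← mulVec_transpose, tm] using h0)
        have h2 : prj b v *ᵥ x = 0 := by
          rw [← prj_transpose, mulVec_transpose, prj, ← vecMul_vecMul, h1, zero_vecMul]
        rw [h0, sub_mulVec, h2, one_mulVec, sub_zero, zero_dotProduct, zero_add]
        simpa using dotProduct_star_self_pos_iff.2 hx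
      · exact add_pos_of_pos_of_nonneg (by simpa using hD.dotProduct_mulVec_pos h0)
          (sum_nonneg fun _ _ => mul_self_nonneg _)
  · rw [coH, Matrix.add_mul, Matrix.mul_add, Matrix.mul_assoc _ _ (prj b v), h.tm_prj,
      ← Matrix.mul_assoc, ← Matrix.mul_assoc, h.prj_tm, Matrix.sub_mul, Matrix.mul_sub, h.prj_prj]
    simp

theorem coH_self_comm (h : Sp v) {D : Matrix ι ι ℝ} (hD : D * prj b v = prj b v * D)
    (hD' : D * (1 - prj b v) = 1 - prj b v) : coH b v v D = D := by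
  rw [coH, tm_self, prj_transpose, ← hD, Matrix.mul_assoc, h.prj_prj, ← hD', ← Matrix.mul_add]
  simp

theorem coH_one (h : Co v w) (hv : Sp v) [DecidableEq κ] : coH b v w 1 = 1 := by
  rw [coH, Matrix.mul_one, h.tm_mul hv]; simp

/-- two normalised matrices with the same cometric are equal -/
theorem eq_of_hb (h : Sp v) {H K : Matrix ι ι ℝ} (hH : H * prj b v = prj b v * H)
    (hK : K * prj b v = prj b v * K) (hQ : H * (1 - prj b v) = K * (1 - prj b v))
    (e : hb v H = hb v K) : H = K := by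
  have h1 : ∀ H : Matrix ι ι ℝ, fm b v * H * (fm b v)ᵀ =
      Matrix.of fun i j => hb v H (b.coord i) (b.coord j) := fun H => by
    ext i j
    simp only [hb_apply, mul_apply, of_apply, sum_mul, transpose_apply, fm_apply]
    rw [sum_comm]
    exact sum_congr rfl fun _ _ => sum_congr rfl fun _ _ => by simp; ring
  have h2 : ∀ H : Matrix ι ι ℝ, H * prj b v = prj b v * H →
      H * prj b v = ri b v * (fm b v * H * (fm b v)ᵀ) * (ri b v)ᵀ := fun H hH => by
    have : (fm b v)ᵀ * (ri b v)ᵀ = prj b v := by rw [← transpose_mul]; exact prj_transpose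
    rw [Matrix.mul_assoc, Matrix.mul_assoc, this, ← Matrix.mul_assoc, ← Matrix.mul_assoc, ← prj,
      ← hH, Matrix.mul_assoc, h.prj_prj]
  have h3 : H * prj b v = K * prj b v := by rw [h2 H hH, h2 K hK, h1, h1, e]
  rw [Matrix.mul_sub, Matrix.mul_sub, h3, Matrix.mul_one, Matrix.mul_one] at hQ
  exact sub_left_injective hQ

/-! ### isometric embeddings of the index set -/

theorem IsP.mix_iso {P : Matrix ι ι ℝ} (h : IsP v P) {U : Matrix κ ι ℝ} (hU : Uᵀ * U = 1) :
    Co v (mix U v) ∧ IsP (mix U v) (U * P * Uᵀ) := by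
  have hP : P * P = P := h.mul h
  have h1 : (U * P)ᵀ * (U * P) = P := by
    rw [transpose_mul, Matrix.mul_assoc, ← Matrix.mul_assoc Uᵀ, hU, Matrix.one_mul, h.symm, hP]
  have h2 : mix (U * P) v = mix U v := by rw [← mix_mix, h.mix_self]
  have h3 := h.isP_mix h1 (by rw [Matrix.mul_assoc, hP])
  rw [h2, transpose_mul, h.symm, Matrix.mul_assoc, ← Matrix.mul_assoc P, hP,
    ← Matrix.mul_assoc] at h3
  exact ⟨h2 ▸ h.co_mix h1, h3⟩

/-- the matrix of a map of index sets -/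
def emb [DecidableEq κ] (g : ι → κ) : Matrix κ ι ℝ := Matrix.of fun k a => if g a = k then 1 else 0

omit [Fintype ι] in
theorem emb_iso [DecidableEq κ] {g : ι → κ} (hg : Function.Injective g) :
    (emb g)ᵀ * emb g = 1 := by
  ext a c
  simp [emb, mul_apply, one_apply, hg.eq_iff, eq_comm]

omit [Fintype κ] in
theorem mix_emb [DecidableEq κ] {g : ι → κ} (hg : Function.Injective g) :
    mix (emb g) v = Function.extend g v 0 := by
  funext k
  by_cases hk : ∃ a, g a = k
  · obtain ⟨a, rfl⟩ := hk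
    simp [mix, emb, hg.extend_apply, hg.eq_iff]
  · rw [Function.extend_apply' _ _ _ hk]
    push Not at hk
    simp [mix, emb, hk]

omit [DecidableEq ι] in
theorem Sp.of_range (h : Sp v) (hw : ∀ a, ∃ c : ℝ, ∃ k, v a = c • w k) : Sp w := by
  classical
  choose c g hg using hw
  intro x
  obtain ⟨d, rfl⟩ := h x
  refine ⟨fun k => ∑ a, if g a = k then d a * c a else 0, ?_⟩
  simp only [sum_smul, ite_smul, zero_smul]
  rw [sum_comm]
  exact sum_congr rfl fun a _ => by simp [hg a, smul_smul]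

/-- the density after a deformation -/
theorem Adm.rjb_mix {H : Matrix ι ι ℝ} (hv : Sp v) (h : Adm (prj b v) H)
    (hQ : H * (1 - prj b v) = 1 - prj b v) : rjb b (mix (Met55.sq H) v) = (√H.det)⁻¹ * rjb b v := by
  have h1 : gm b (mix (Met55.sq H) v) = fm b v * H * (fm b v)ᵀ := by
    rw [gm, fm_mix, transpose_mul, transpose_transpose, h.sq.symm, Matrix.mul_assoc,
      ← Matrix.mul_assoc (Met55.sq H), sq_mul_sq h.pos, Matrix.mul_assoc]
  have h2 : H = 1 + ri b v * (fm b v * (H - 1)) := by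
    rw [← Matrix.mul_assoc, ← prj, Matrix.mul_sub, ← h.comm, Matrix.mul_one]
    rw [Matrix.mul_sub, Matrix.mul_one] at hQ
    rw [← add_sub_assoc, add_sub_right_comm, ← hQ, sub_add_cancel]
  have h3 : fm b v * H * (fm b v)ᵀ = (1 + fm b v * (H - 1) * ri b v) * gm b v := by
    rw [Matrix.mul_sub, Matrix.sub_mul, Matrix.mul_one, hv.fm_ri, add_sub_cancel, ri,
      Matrix.mul_assoc _ _ (gm b v), Matrix.mul_assoc _ _ (gm b v), nonsing_inv_mul _ hv.unit,
      Matrix.mul_one]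
  rw [rjb, h1, h3, det_mul, det_one_add_mul_comm, ← h2, Real.sqrt_mul h.pos.det_pos.le, mul_inv,
    rjb]

end Crest.Agent.X212.Met55
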