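import Crest.Agent.X212.Met55.Trf
import Crest.Agent.X212.M.World

/-! The hub: the family of cometrics on `X` of a mark. -/

set_option linter.unusedSectionVars false

open scoped Manifold ContDiff Topology InnerProductSpace Classical
open Set Filter Function Module Matrix

noncomputable section
namespace Crest.Agent.X212.Met55

open Sob92 Pj41 An Cyl58 Prm93 M Cyf70

variable {X : Mf 4} {A κ : Type} [Fintype A] [Fintype κ] (M : Mark X A κ)

/-- the product frame of a band -/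
def bF (a : A) : Option κ → VF X.I X.M := fun i =>
  pfv (IC (M.bn a).Y.I) X.I (M.bn a).j (ce (M.gY a).e i)

/-- the model frame of a neck, on `X` -/
def nF (a : A) (t : ℝ) : Option κ → VF X.I X.M := fun i x =>
  M.wt a t ((M.bn a).s x) i • bF M a i x

/-- the weight of a neck -/
def lam (a : A) (t : ℝ) (x : X.M) : ℝ := tau t * chi ((M.bn a).s x)

/-- the weights of the hub -/
def hl (t : A → ℝ) : Option A → X.M → ℝ
  | none => fun x => ∏ a, (1 - lam M a (t a) x)
  | some a => lam M a (t a)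

/-- the frames of the hub -/
def hw (k : Option κ → VF X.I X.M) (t : A → ℝ) : Option A → Option κ → VF X.I X.M
  | none => k
  | some a => nF M a (t a)

/-- **the hub** over the base family `k0` -/
def hub (k0 : ℝ → Option κ → VF X.I X.M) (p : Prm A) : Option κ → VF X.I X.M :=
  eF (k0 p.1) (fun _ => 1) (hl M p.2) (hw M (k0 p.1) p.2)

/-- `x` is off the broken cores -/
def Gd (t : A → ℝ) (x : X.M) : Prop := ∀ a, (t a, (M.bn a).s x) ∈ Off

variable {M} {a : A} {t : ℝ} {x : X.M} {q : (M.bn a).Y.M × ℝ}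

theorem fAt_ce {E : Type} [NormedAddCommGroup E] [NormedSpace ℝ E] [FiniteDimensional ℝ E]
    [MeasurableSpace E] [BorelSpace E] {H : Type} [TopologicalSpace H]
    {I : ModelWithCorners ℝ E H} {Y : Type} [TopologicalSpace Y] [ChartedSpace H Y]
    [IsManifold I ∞ Y] [MeasurableSpace Y] (G : Pre I Y κ) (q : Y × ℝ) : FAt (ce G.e) q :=
  ⟨fun i => ce_sm G.sm i q, sp_iff.2 (ce_span G.span q)⟩

theorem fAt_bF (q : (M.bn a).Y.M × ℝ) : FAt (bF M a) ((M.bn a).j q) :=
  (fAt_ce (M.gY a).toPre q).pfv (M.bn a).oe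

theorem wt_pos {s : ℝ} (h : (t, s) ∈ Off) (i : Option κ) : 0 < M.wt a t s i := by
  cases i <;> simp only [Mark.wt] <;> split_ifs
  exacts [one_pos, sig_pos h, inv_pos.2 (rad_pos h), one_pos]

theorem contDiffAt_wt {p : ℝ × ℝ} (h : p ∈ Off) (i : Option κ) :
    ContDiffAt ℝ ∞ (fun q : ℝ × ℝ => M.wt a q.1 q.2 i) p := by
  cases i <;> simp only [Mark.wt] <;> split_ifs
  exacts [contDiffAt_const, contDiffAt_sig h, (contDiffAt_rad h).inv (rad_pos h).ne',
    contDiffAt_const]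

theorem atx_nF (h : |q.2| ≤ 3) (t : ℝ) : atx (nF M a t) ((M.bn a).j q) =
    fun i => Dr59.mf (IC (M.bn a).Y.I) X.I (M.bn a).j q (M.nf a t q i) := by
  funext i
  rw [Mark.nf, map_smul, atx, nF, (M.bn a).s_j_of_le h]
  exact congrArg _ (pfv_rel (I := IC (M.bn a).Y.I) (I' := X.I) (M.bn a).oe.inj _ q).symm

theorem sp_nF (h : |(M.bn a).s x| < 3) (ho : (t, (M.bn a).s x) ∈ Off) : Sp (atx (nF M a t) x) := by
  obtain ⟨y, hy⟩ := (M.bn a).exists_of_abs_s_lt h
  have := (fAt_bF (M := M) (y, (M.bn a).s x)).sp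
  rw [hy] at this
  exact this.of_range fun i => ⟨(M.wt a t ((M.bn a).s x) i)⁻¹, i,
    (inv_smul_smul₀ (wt_pos ho i).ne' (atx (bF M a) x i)).symm⟩

theorem vJ_nF (h : |(M.bn a).s x| < 3) (ho : (t, (M.bn a).s x) ∈ Off) (i : Option κ) :
    VJ X.I (fun s => nF M a s i) t x := by
  obtain ⟨y, hy⟩ := (M.bn a).exists_of_abs_s_lt h
  have := (fAt_bF (M := M) (y, (M.bn a).s x)).sm i
  rw [hy] at this
  refine VJ.smul (f := fun s y => M.wt a s ((M.bn a).s y) i) ?_ (VJ.of_fixed this)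
  exact ContDiffAt.comp_contMDiffAt (f := fun z : ℝ × X.M => (z.1, (M.bn a).s z.2)) (x := (t, x))
    (contDiffAt_wt (M := M) (a := a) ho i)
    (contMDiffAt_fst.prodMk_space (((M.bn a).contMDiff_s _).comp _ contMDiffAt_snd))

theorem lam_nonneg : 0 ≤ lam M a t x := mul_nonneg (tau_nonneg _) (chi_nonneg _)

theorem lam_le_one : lam M a t x ≤ 1 := mul_le_one₀ (tau_le_one _) (chi_nonneg _) (chi_le_one _)

theorem abs_lt_of_lam (h : lam M a t x ≠ 0) : |(M.bn a).s x| < 2 :=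
  not_le.1 fun h' => h (by rw [lam, chi_eq_zero h', mul_zero])

theorem mem_slab_of_lam (h : lam M a t x ≠ 0) : x ∈ (M.bn a).slab (Icc (-2) 2) := by
  have h1 := abs_lt_of_lam h
  obtain ⟨y, hy⟩ := (M.bn a).exists_of_abs_s_lt (h1.trans (by norm_num))
  exact hy ▸ (M.bn a).j_mem_slab.2 (abs_le.1 h1.le)

theorem pos_of_lam (h : lam M a t x ≠ 0) : 0 < t :=
  not_le.1 fun h' => h (by rw [lam, tau_eq_zero h', zero_mul])

theorem lam_eq_one (ht : 1 / 2 ≤ t) (h : |q.2| ≤ 1) : lam M a t ((M.bn a).j q) = 1 := by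
  rw [lam, tau_eq_one ht, (M.bn a).s_j_of_le (h.trans (by norm_num)), chi_eq_one h, one_mul]

theorem jAt_lam : JAt X.I (lam M a) t x :=
  FSm.mul' (JAt.of_par contDiff_tau.contDiffAt)
    (JAt.of_fixed (contDiff_chi.contDiffAt.comp_contMDiffAt ((M.bn a).contMDiff_s x)))

variable {t t' : A → ℝ} {k : Option κ → VF X.I X.M} {k0 : ℝ → Option κ → VF X.I X.M} {p : Prm A}

theorem eOk_hub (hk : Sp (atx k x)) (h : Gd M t x) :
    EOk k (fun _ => 1) (hl M t) (hw M k t) x := by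
  refine ⟨hk, Adm.one, ?_, ?_, ?_⟩
  · rintro (_ | a)
    exacts [Finset.prod_nonneg fun a _ => sub_nonneg.2 lam_le_one, lam_nonneg]
  · by_cases h0 : ∀ a, lam M a (t a) x = 0
    · exact ⟨none, by simp [hl, h0]⟩
    · obtain ⟨a, ha⟩ := not_forall.1 h0
      exact ⟨some a, ha⟩
  · rintro (_ | a) h0
    exacts [hk, sp_nF ((abs_lt_of_lam h0).trans (by norm_num)) (h a)]

theorem sp_hub (hk : Sp (atx (k0 p.1) x)) (h : Gd M p.2 x) : Sp (atx (hub M k0 p) x) :=
  (eOk_hub hk h).sp_eF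

theorem fP_hub (hk : Sp (atx (k0 p.1) x)) (h : Gd M p.2 x) : fP (hub M k0 p) x = fP (k0 p.1) x :=
  (eOk_hub hk h).fP_eF

theorem vJ_hub (hk : Sp (atx (k0 p.1) x)) (hs : ∀ i, VJ X.I (fun u => k0 u i) p.1 x)
    (h : Gd M p.2 x) (i : Option κ) : VJ X.I (fun p => hub M k0 p i) p x := by
  have h1 : ∀ i, VJ X.I (fun s : Prm A => k0 s.1 i) p x := fun i =>
    VJ.reparam (X := fun u => k0 u i) contDiffAt_fst (hs i)
  have h2 : ∀ a, ContDiffAt ℝ ∞ (fun s : Prm A => s.2 a) p := fun a => by fun_prop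
  have h3 : ∀ a, JAt X.I (fun s : Prm A => lam M a (s.2 a)) p x := fun a =>
    JAt.reparam (f := lam M a) (h2 a) jAt_lam
  refine vJ_eF (r := fun s : Prm A => k0 s.1) (S := fun _ _ => 1) (l := fun s => hl M s.2)
    (w := fun s => hw M (k0 s.1) s.2) (eOk_hub hk h) h1 (MSm.const 1)
    (.of_forall fun _ => transpose_one) ?_ i
  rintro (_ | a)
  · exact .inr ⟨FSm.prod' fun a _ => contMDiffAt_const.sub (h3 a), h1⟩
  · by_cases h4 : |(M.bn a).s x| < 3
    · exact .inr ⟨h3 a, fun i => VJ.reparam (X := fun s => nF M a s i) (h2 a) (vJ_nF h4 (h a) i)⟩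
    · refine .inl ((ev_snd (p := fun y => 2 < |(M.bn a).s y|)
        ((isOpen_lt continuous_const (M.bn a).contMDiff_s.continuous.abs).mem_nhds
          (show 2 < |(M.bn a).s x| by linarith [not_lt.1 h4]))).mono fun z hz => ?_)
      exact by_contra fun h0 => (abs_lt_of_lam h0).not_gt hz

/-- the cometric of the hub -/
theorem hb_hub (hk : Sp (atx (k0 p.1) x)) (h : Gd M p.2 x) (α β : X.E →ₗ[ℝ] ℝ) :
    hb (atx (hub M k0 p) x) 1 α β = (∏ a, (1 - lam M a (p.2 a) x)) * hb (atx (k0 p.1) x) 1 α β +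
      ∑ a, lam M a (p.2 a) x * hb (atx (nF M a (p.2 a)) x) 1 α β := by
  rw [hub, (eOk_hub hk h).hb_eF rfl, Fintype.sum_option]; rfl

/-- locality in `t` -/
theorem hub_loc {u : ℝ} (h : ∀ a, x ∈ (M.bn a).slab (Icc (-2) 2) → t a = t' a) (i : Option κ) :
    hub M k0 (u, t) i x = hub M k0 (u, t') i x := by
  have h1 : ∀ a, lam M a (t a) x = lam M a (t' a) x := fun a => by
    by_cases ha : x ∈ (M.bn a).slab (Icc (-2) 2)
    · rw [h a ha]
    · rw [of_not_not (mt mem_slab_of_lam ha), of_not_not (mt mem_slab_of_lam ha)]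
  refine eF_congr (fun _ => rfl) rfl ?_ ?_ i
  · rintro (_ | a)
    exacts [Finset.prod_congr rfl fun a _ => by rw [h1], h1 a]
  · rintro (_ | a) h0
    · exact Co.refl _
    · simp only [hw, h a (mem_slab_of_lam h0)]; exact Co.refl _

/-- off the active necks the hub is the base frame -/
theorem hub_of_zero (hk : Sp (atx (k0 p.1) x)) (h : Gd M p.2 x)
    (h0 : ∀ a, lam M a (p.2 a) x = 0) (i : Option κ) : hub M k0 p i x = k0 p.1 i x := by
  refine (eOk_hub hk h).eF_eq ?_ ?_ rfl i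
  · rintro (_ | a) ha
    exacts [Co.refl _, (ha (h0 a)).elim]
  · simp [Fintype.sum_option, hl, h0]

theorem lam_eq_zero (hc : M.sys.Cell (support t)) (ha : t a ≠ 0) (hx : x ∈ range (M.bn a).j)
    {b : A} (hb : b ≠ a) : lam M b (t b) x = 0 := by
  by_contra h0
  exact disjoint_left.1 (hc (pos_of_lam h0).ne' ha hb)
    ((M.bn b).slab_subset _ (mem_slab_of_lam h0)) hx

theorem gd_of_cell (hc : M.sys.Cell (support t)) (ha : t a ≠ 0) (hx : x ∈ range (M.bn a).j)
    (ho : (t a, (M.bn a).s x) ∈ Off) : Gd M t x := fun b => by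
  by_cases hb : b = a
  · exact hb ▸ ho
  by_cases h0 : t b = 0
  · exact .inl (by simp [h0])
  · exact .inr fun h => disjoint_left.1 (hc h0 ha hb)
      ((M.bn b).wall.core_subset ((M.bn b).s_eq_zero.1 h)) hx

/-- on an active neck the cometric is the model -/
theorem co_neck {q : (M.bn a).Y.M × ℝ} (hk : Sp (atx (k0 p.1) ((M.bn a).j q)))
    (h : Gd M p.2 ((M.bn a).j q)) (h0 : ∀ b, b ≠ a → lam M b (p.2 b) ((M.bn a).j q) = 0)
    (ht : 1 / 2 ≤ p.2 a) (hq : |q.2| ≤ 1) :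
    Co (atx (nF M a (p.2 a)) ((M.bn a).j q)) (atx (hub M k0 p) ((M.bn a).j q)) := by
  refine co_iff.2 (funext₂ fun α β => ?_)
  rw [hb_hub hk h, Finset.prod_eq_zero (Finset.mem_univ a) (by rw [lam_eq_one ht hq, sub_self]),
    Finset.sum_eq_single a (fun b _ hb => by rw [h0 b hb, zero_mul]) (by simp), lam_eq_one ht hq]
  simp

/-- the pinched neck at `t = 1` is flat -/
theorem co_flat (ha : M.pin a) (b : Bool) (y : (M.bn a).Y.M) {r : ℝ} (hr : 0 < r) :
    Co (fun i => Dr59.mf (IC (M.bn a).Y.I) 𝓘(ℝ, V4) (fun q => (pm b * q.2) • M.th a q.1)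
      (y, pm b * r) (M.nf a 1 (y, pm b * r) i))
      fun i : Fin 4 => (EuclideanSpace.single i 1 : V4) := by
  have h := M.rnd a ha
  have hθ : ContMDiff (M.bn a).Y.I 𝓘(ℝ, V4) ∞ (M.th a) := by
    simpa using sm_slice_fst h.oe.contMDiff 0
  have hf : MDifferentiableAt (IC (M.bn a).Y.I) 𝓘(ℝ, V4)
      (fun q : (M.bn a).Y.M × ℝ => (pm b * q.2) • M.th a q.1) (y, pm b * r) :=
    (((contMDiff_const.mul contMDiff_snd).smul (hθ.comp contMDiff_fst)) _).mdifferentiableAt
      (by simp)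
  have e1 : Dr59.mf (IC (M.bn a).Y.I) 𝓘(ℝ, V4) (fun q => (pm b * q.2) • M.th a q.1)
      (y, pm b * r) (M.nf a 1 (y, pm b * r) none) = pm b • M.th a y := by
    rw [Mark.nf, map_smul, Mark.wt, if_pos ha, one_smul]
    refine (dv_none (e := (M.gY a).e) hf).trans ?_
    exact (((hasDerivAt_id _).const_mul (pm b)).smul_const (M.th a y)).deriv.trans (by simp)
  have e2 : ∀ k, Dr59.mf (IC (M.bn a).Y.I) 𝓘(ℝ, V4) (fun q => (pm b * q.2) • M.th a q.1)
      (y, pm b * r) (M.nf a 1 (y, pm b * r) (some k)) = (M.gY a).D k (M.th a) y := fun k => by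
    rw [Mark.nf, map_smul, Mark.wt, if_pos ha, rad_one, abs_mul, abs_pm, one_mul, abs_of_pos hr]
    refine (congrArg _ ((dv_some (e := (M.gY a).e) hf k).trans
      (dv_const_smul (pm b * (pm b * r)) ((hθ y).mdifferentiableAt (by simp))))).trans ?_
    rw [← mul_assoc, pm_mul_pm, one_mul, smul_smul, inv_mul_cancel₀ hr.ne', one_smul]; rfl
  refine co_std fun v w => ?_
  rw [Fintype.sum_option]
  simp only [e1, e2, h.gram, inner_smul_right]
  linear_combination (⟪v, M.th a y⟫_ℝ * ⟪w, M.th a y⟫_ℝ) * pm_mul_pm b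

end Crest.Agent.X212.Met55
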