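import Crest.Agent.X212.Met55.Pul
import Crest.Agent.X212.Cyl58.Cps

/-! **IND**: two worlds over diffeomorphic marks are joined by a family. -/

set_option linter.unusedSectionVars false

open scoped Manifold ContDiff Topology InnerProductSpace Classical
open Set Filter Function Module Matrix
open Crest.Agent.R208.F (Ext)

noncomputable section
namespace Crest.Agent.X212.Met55

open Sob92 Pj41 An Cyl58 Prm93 M Cyf70
open Dr59 (mf)
open Line51 (Ln Uni J1 aZ)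

local notation "σ" => Real.smoothTransition

section lin
variable {E E' ι κ : Type} [AddCommGroup E] [Module ℝ E] [AddCommGroup E'] [Module ℝ E']
  [Fintype ι] [Fintype κ] {s : ℝ} {v v0 v1 : ι → E} {w w0 w1 : κ → E}

/-- the cometric of `v` is the convex combination of those of `v0` and `v1` -/
def Bl (s : ℝ) (v0 v1 v : ι → E) : Prop := ∀ α β, cm v α β = (1 - s) * cm v0 α β + s * cm v1 α β

theorem Bl.map (h : Bl s v0 v1 v) (A : E →ₗ[ℝ] E') :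
    Bl s (fun a => A (v0 a)) (fun a => A (v1 a)) fun a => A (v a) := fun α β => h (α ∘ₗ A) (β ∘ₗ A)

theorem Bl.co (h : Bl s v0 v1 v) (h' : Bl s w0 w1 w) (h0 : Co v0 w0) (h1 : Co v1 w1) : Co v w :=
  fun α β => (h α β).trans (Eq.trans (congrArg₂ (fun a b => (1 - s) * a + s * b) (h0 α β) (h1 α β))
    (h' α β).symm)

theorem Bl.same (s : ℝ) (v : ι → E) : Bl s v v v := fun _ _ => by ring

theorem Bl.zero (h : Bl 0 v0 v1 v) : Co v v0 := fun α β => (h α β).trans (by simp [cm])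

theorem Bl.one (h : Bl 1 v0 v1 v) : Co v v1 := fun α β => (h α β).trans (by simp [cm])

theorem Sp.of_map {A : E →ₗ[ℝ] E'} (hA : Injective A) (h : Sp fun a => A (v a)) : Sp v := fun x =>
  (h (A x)).imp fun c hc => hA (by simpa only [map_sum, map_smul] using hc)

end lin

section bl
variable {Z : Mf 4} {ι : Type} [Fintype ι] {s : ℝ} {e0 e1 : ι → VF Z.I Z.M} {x : Z.M}

/-- the frame of the convex combination of two metrics -/
def bl (s : ℝ) (e0 e1 : ι → VF Z.I Z.M) : ι → VF Z.I Z.M :=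
  eF e0 (fun _ => 1) (fun b _ => cond b (σ s) (1 - σ s)) fun b => cond b e1 e0

theorem bl_ok (s : ℝ) (h0 : Sp (atx e0 x)) (h1 : Sp (atx e1 x)) :
    EOk e0 (fun _ => 1) (fun b _ => cond b (σ s) (1 - σ s)) (fun b => cond b e1 e0) x where
  sp := h0
  adm := Adm.one
  nn b := by
    cases b
    exacts [sub_nonneg.2 (Real.smoothTransition.le_one s), Real.smoothTransition.nonneg s]
  ne := by
    by_cases h : σ s = 0
    exacts [⟨false, by simp [h]⟩, ⟨true, h⟩]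
  spw b _ := by cases b <;> assumption

theorem bl_bl (s : ℝ) (h0 : Sp (atx e0 x)) (h1 : Sp (atx e1 x)) :
    Bl (σ s) (atx e0 x) (atx e1 x) (atx (bl s e0 e1) x) := fun α β => by
  have := (bl_ok s h0 h1).hb_eF rfl α β
  simp only [hb_one, Fintype.sum_bool, cond] at this
  exact this.trans (add_comm _ _)

theorem bl_eq (s : ℝ) (h0 : Sp (atx e0 x)) (h : Co (atx e0 x) (atx e1 x)) (k : ι) :
    bl s e0 e1 k x = e0 k x :=
  (bl_ok s h0 (h.sp h0 (finBasis ℝ Z.E))).eF_eq (fun b _ => by cases b; exacts [.refl _, h])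
    (by simp) rfl k

theorem bl_congr (s : ℝ) {e0' e1' : ι → VF Z.I Z.M} (h0 : atx e0 x = atx e0' x)
    (h1 : atx e1 x = atx e1' x) : atx (bl s e0 e1) x = atx (bl s e0' e1') x :=
  funext (eF_congr (congrFun h0) rfl (fun _ => rfl) fun b _ => by
    cases b
    exacts [h0 ▸ .refl _, h1 ▸ .refl _])

variable {o : Z.M → Ext Z.E} {T : Type} [NormedAddCommGroup T] [NormedSpace ℝ T]
  {Ω : Set ((ℝ × T) × Z.M)} (hΩ : ∀ s p z, (p, z) ∈ Ω → ((s, p.2), z) ∈ Ω) (u u' : ℝ)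

theorem jAt_σ (p : ℝ × T) : JAt Z.I (fun (p : ℝ × T) _ => σ p.1) p x :=
  JAt.of_par (c := fun p : ℝ × T => σ p.1)
    (Real.smoothTransition.contDiff.contDiffAt.comp _ contDiffAt_fst)

theorem jAt_σ' (p : ℝ × T) : JAt Z.I (fun (p : ℝ × T) _ => 1 - σ p.1) p x :=
  contMDiffAt_const.sub (jAt_σ p)

theorem cd_par (u : ℝ) (p : ℝ × T) : ContDiffAt ℝ ∞ (fun p : ℝ × T => (u, p.2)) p := by fun_prop

/-- the convex combination of two layers -/
def mLay (L0 L1 : Lay Z o (ℝ × T) ι Ω) : Lay Z o (ℝ × T) ι Ω where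
  F0 := L0.F0
  vol := L0.vol
  e p := bl p.1 (L0.e (u, p.2)) (L1.e (u', p.2))
  sm p z h k := by
    have h0 := fun a => VJ.reparam (X := fun p => L0.e p a) (cd_par u p) (L0.sm _ _ (hΩ u p z h) a)
    have h1 := fun a => VJ.reparam (X := fun p => L1.e p a) (cd_par u' p) (L1.sm _ _ (hΩ u' p z h) a)
    refine vJ_eF (r := fun p : ℝ × T => L0.e (u, p.2)) (S := fun _ _ => 1)
      (l := fun p b _ => cond b (σ p.1) (1 - σ p.1))
      (w := fun p b => cond b (L1.e (u', p.2)) (L0.e (u, p.2)))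
      (bl_ok p.1 (L0.sp _ _ (hΩ u p z h)) (L1.sp _ _ (hΩ u' p z h))) h0 (MSm.const 1)
      (.of_forall fun _ => transpose_one) (fun b => .inr ?_) k
    cases b
    exacts [⟨jAt_σ' p, h0⟩, ⟨jAt_σ p, h1⟩]
  sp p z h := (bl_ok p.1 (L0.sp _ _ (hΩ u p z h)) (L1.sp _ _ (hΩ u' p z h))).sp_eF
  P p z h := (bl_ok p.1 (L0.sp _ _ (hΩ u p z h)) (L1.sp _ _ (hΩ u' p z h))).fP_eF.trans
    (L0.P _ _ (hΩ u p z h))
  ob p z h a b c d := ((bl_ok p.1 (L0.sp _ _ (hΩ u p z h)) (L1.sp _ _ (hΩ u' p z h))).oc_eF Z.dim o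
    a b c d).trans (L0.ob _ _ (hΩ u p z h) a b c d)

variable {L0 L1 : Lay Z o (ℝ × T) ι Ω} {lam : Type} [Fintype lam]

/-- the convex combination of two line layers -/
def mLL (Λ0 : LLay L0 lam) (Λ1 : LLay L1 lam) {δ : Z.M → Ext Z.E}
    (hδ : Dr59.Sm Z.I univ δ ∧ Dr59.Dg 1 univ δ) : LLay (mLay hΩ u u' L0 L1) lam where
  p := Λ0.p
  a p := (1 - σ p.1) • Λ0.a (u, p.2) + σ p.1 • (Λ1.a (u', p.2) + δ)
  ok _ := ⟨(Λ0.ok 0).sm, (Λ0.ok 0).prj, (Λ0.ok 0).tr,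
    ((Λ0.ok _).sa.smul _).add (((Λ1.ok _).sa.add hδ.1).smul _),
    ((Λ0.ok _).dg.smul _).add (((Λ1.ok _).dg.add hδ.2).smul _)⟩
  sm k p z := ((J1.smul (jAt_σ' p) (J1.reparam (a := Λ0.a) (cd_par u p) fun _ he =>
    Λ0.jAt_a (VJ.of_fixed he))).add (J1.smul (jAt_σ p) ((J1.reparam (a := Λ1.a) (cd_par u' p)
      fun _ he => Λ1.jAt_a (VJ.of_fixed he)).add (Line51.j1_fixed (hδ.1 z trivial)
        (.of_forall fun y => hδ.2 y trivial))))) _ (L0.F0.sm k z)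

end bl

variable {X : Mf 4} {A κ lam : Type} [Fintype A] [Fintype κ] [Fintype lam] {M : Mark X A κ}

theorem sp_k (W : World M) {p : Prm A} (hp : p.2 ∈ M.sys.Par) {x : X.M}
    (hx : x ∉ M.sys.cores (Sys.inf p.2)) : Sp (W.k p x) :=
  Sp.of_map (A := dmp X.I (W.Z M.c0).I (W.φ M.c0) x) (ld_bij (W.ld (c := M.c0)
    fun h => hx (biUnion_subset_biUnion_left (empty_subset _) h))).1
    ((W.co M.c0 M.c0 p (Mark.mem_Br_c0 hp) x hx).symm.sp
      ((W.L _ _).sp _ _ (W.mem_Ω_of_br (Mark.mem_Br_c0 hp) hx)) (finBasis ℝ _))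

/-- the convex combination of two hubs -/
def mK (s : ℝ) (k0 k1 : X.M → Option κ → X.E) (x : X.M) : Option κ → X.E :=
  if Sp (k0 x) ∧ Sp (k1 x) then atx (bl (Z := X) s (fun i y => k0 y i) fun i y => k1 y i) x else 0

theorem mK_bl (s : ℝ) {k0 k1 : X.M → Option κ → X.E} {x : X.M} (h0 : Sp (k0 x)) (h1 : Sp (k1 x)) :
    Bl (σ s) (k0 x) (k1 x) (mK s k0 k1 x) := by
  rw [mK, if_pos ⟨h0, h1⟩]
  exact bl_bl (Z := X) (e0 := fun i y => k0 y i) (e1 := fun i y => k1 y i) s h0 h1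

theorem mK_all (s : ℝ) (k0 k1 : X.M → Option κ → X.E) (x : X.M) :
    Bl (σ s) (mK 0 k0 k1 x) (mK 1 k0 k1 x) (mK s k0 k1 x) := fun α β => by
  by_cases h : Sp (k0 x) ∧ Sp (k1 x)
  · rw [mK_bl s h.1 h.2, mK_bl 0 h.1 h.2, mK_bl 1 h.1 h.2]
    simp
  · simp [mK, h, cm]

/-- the difference of two gauges extends over the caps -/
theorem sm_δ (C : Caps M) (c : M.Cl) {p q0 q1 v0 v1 : X.M → Matrix lam lam ℂ}
    (h0 : Uni X.I p q0 v0 (C.φ c).source) (h1 : Uni X.I p q1 v1 (C.φ c).source)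
    (h : ∀ a ∈ c.1, ∀ q : (M.bn a).Y.M × ℝ, q.2 ≠ 0 → |q.2| ≤ 1 →
      v1 ((M.bn a).j q) = v0 ((M.bn a).j q)) :
    Dr59.Sm (C.Z c).I univ (aZ C c (Line51.th X.I v1 - Line51.th X.I v0)) ∧
      Dr59.Dg 1 univ (aZ C c (Line51.th X.I v1 - Line51.th X.I v0)) := by
  refine ⟨fun z _ => ?_, fun z _ => ?_⟩
  · by_cases hz : z ∈ (C.φ c).target
    · refine (Dr59.SmAt.pm ((C.φ c).symm.contMDiffOn.contMDiffAt ((C.φ c).open_target.mem_nhds hz))
        ((h1.sm_th.sub h0.sm_th) _ ((C.φ c).map_target hz))).congr ?_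
      filter_upwards [(C.φ c).open_target.mem_nhds hz] with y k using if_pos k
    obtain ⟨⟨a, s⟩, k1, k2, rfl⟩ := Line51.exists_cap C hz
    refine Dr59.cAt_zero.congr ((Line51.ev_cap C k1 k2 s).mono ?_)
    rintro _ (rfl | ⟨q, q1, q2, rfl⟩)
    · exact if_neg hz
    refine Line51.aZ_zero C (Line51.j_mem_src C k1 q1) (sub_eq_zero.2 (Line51.th_congr ?_))
    refine eventually_of_mem (((M.bn a).isOpen_slab (s := Ioo (-1) 1 ∩ {0}ᶜ)
      (isOpen_Ioo.inter isOpen_compl_singleton)).mem_nhds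
        ((M.bn a).j_mem_slab.2 ⟨abs_lt.1 q2, q1⟩)) ?_
    rintro _ ⟨q', k, rfl⟩
    exact h a k1 q' k.2.2 (abs_lt.2 k.2.1).le
  · unfold aZ
    split_ifs
    exacts [((Line51.dg_th v1).sub (Line51.dg_th v0)).pm (mapsTo_univ _ univ) z trivial, .zero]

theorem exists_mix (W0 W1 : World M) (h : W1.toCaps = W0.toCaps) (u u' : ℝ) : ∃ W : World M,
    (∀ p, W.k p = mK p.1 (W0.k (u, p.2)) (W1.k (u', p.2))) ∧
    ∀ (N : ML M lam) (Λ0 : Lns W0 N) (Λ1 : Lns W1 N), ∃ Λ : Lns W N,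
      ∀ p, Λ.a0 p = (1 - σ p.1) • Λ0.a0 (u, p.2) + σ p.1 • Λ1.a0 (u', p.2) := by
  obtain ⟨C, k1, L1, loc1, co1, neck1, lit1⟩ := W1
  obtain rfl : C = W0.toCaps := h
  have hk := fun {p : Prm A} (hp : p.2 ∈ M.sys.Par) x hx => mK_bl p.1
    (sp_k W0 (p := (u, p.2)) hp (x := x) hx)
    (sp_k ⟨_, k1, L1, loc1, co1, neck1, lit1⟩ (p := (u', p.2)) hp hx)
  refine ⟨{
    toCaps := W0.toCaps
    k := fun p => mK p.1 (W0.k (u, p.2)) (k1 (u', p.2))
    L := fun m c => mLay (fun _ _ _ h => h) u u' (W0.L m c) (L1 m c)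
    loc := fun m c s t t' z h => bl_congr s (W0.loc m c u t t' z h) (loc1 m c u' t t' z h)
    co := fun m c p hp x hx => ((hk hp.1 x hx).map (dmp X.I (W0.Z c).I (W0.φ c) x)).co
      (bl_bl p.1 ((W0.L m c).sp _ _ (W0.mem_Ω_of_br (p := (u, p.2)) hp hx))
        ((L1 m c).sp _ _ (W0.mem_Ω_of_br (p := (u', p.2)) hp hx)))
      (W0.co m c (u, p.2) hp x hx) (co1 m c (u', p.2) hp x hx)
    neck := fun a p hp ht q hq ho => (Bl.same _ _).co (hk hp _ (Mark.not_mem_inf hp ht ho))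
      (W0.neck a (u, p.2) hp ht q hq ho) (neck1 a (u', p.2) hp ht q hq ho)
    lit := fun m c a ha p hp ht q hq ho i => ?_ }, fun _ => rfl, fun N Λ0 Λ1 => ?_⟩
  · have h0 := W0.lit m c a ha (u, p.2) hp ht q hq ho
    refine (bl_eq p.1 ((W0.L m c).sp _ _ (W0.mem_Ω_of_br (p := (u, p.2)) hp
      (Mark.not_mem_inf hp.1 ht ho))) ?_ i).trans (h0 i)
    rw [funext h0, funext (lit1 m c a ha (u', p.2) hp ht q hq ho)]
    exact .refl _
  refine ⟨{
    a0 := fun p => (1 - σ p.1) • Λ0.a0 (u, p.2) + σ p.1 • Λ1.a0 (u', p.2)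
    Λ := fun m c => mLL (fun _ _ _ h => h) u u' (Λ0.Λ m c) (Λ1.Λ m c) (sm_δ W0.toCaps c (Λ0.uni m c) (Λ1.uni m c)
      fun a ha q h1 h2 => (Λ1.lit m c a q ⟨h2, .inl ⟨ha, h1⟩⟩).trans
        (Λ0.lit m c a q ⟨h2, .inl ⟨ha, h1⟩⟩).symm)
    v := Λ0.v
    ok0 := fun _ => ⟨N.ok.sm, N.ok.prj, N.ok.tr, ((Λ0.ok0 _).sa.smul _).add ((Λ1.ok0 _).sa.smul _),
      ((Λ0.ok0 _).dg.smul _).add ((Λ1.ok0 _).dg.smul _)⟩
    loc := fun m c s t t' z h => congrArg₂ (fun a b => (1 - σ s) • a + σ s • (b + _))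
      (Λ0.loc m c u t t' z h) (Λ1.loc m c u' t t' z h)
    iso := fun m c p hp => ⟨Λ0.uni m c, fun x hx => ?_⟩
    neck := fun a p hp ht => ⟨(Λ0.neck a (u, p.2) hp ht).toUni, fun q hq => ?_⟩
    lit := Λ0.lit }, fun _ => rfl⟩
  · have h0 : _ + Dr59.pm X.I (W0.Z c).I (W0.φ c) ((Λ0.Λ m c).a (u, p.2)) x = Λ0.a0 (u, p.2) x :=
      (Λ0.iso m c (u, p.2) hp).par x hx
    have h1 : _ + Dr59.pm X.I (W0.Z c).I (W0.φ c) ((Λ1.Λ m c).a (u', p.2)) x = Λ1.a0 (u', p.2) x :=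
      (Λ1.iso m c (u', p.2) hp).par x hx
    show _ + Dr59.pm X.I (W0.Z c).I (W0.φ c) ((1 - σ p.1) • _ + σ p.1 • (_ + _)) x =
      (1 - σ p.1) • Λ0.a0 (u, p.2) x + σ p.1 • Λ1.a0 (u', p.2) x
    simp only [Dr59.pm_add, Dr59.pm_smul, Pi.add_apply, Pi.smul_apply]
    rw [Line51.pm_aZ W0.toCaps hx, ← h0, ← h1, Pi.sub_apply]
    module
  · have h0 : _ = Dr59.pm _ X.I (M.bn a).j (Λ0.a0 (u, p.2)) q := (Λ0.neck a (u, p.2) hp ht).par q hq
    have h1 : _ = Dr59.pm _ X.I (M.bn a).j (Λ1.a0 (u', p.2)) q :=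
      (Λ1.neck a (u', p.2) hp ht).par q hq
    show _ = Dr59.pm _ X.I (M.bn a).j ((1 - σ p.1) • _ + σ p.1 • _) q
    simp only [Dr59.pm_add, Dr59.pm_smul, Pi.add_apply, Pi.smul_apply]
    rw [← h0, ← h1]
    module

/-- **IND** -/
theorem ind : IndStmt := by
  intro X X' A A' A₀ κ lam _ _ _ _ _ M M' I W W' u u' hI
  obtain ⟨C⟩ := Cyl58.caps X A₀ κ (M.res I.f)
  have s0 : Surjective (M.resId I.f).f := surjective_id
  have s1 : Surjective I.res.f := surjective_id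
  have g0 : (M.resId I.f).Glob := ⟨rfl, rfl⟩
  have g1 : I.res.Glob := hI
  obtain ⟨W₀, h1, h2⟩ := exists_mix (lam := lam) (pW s0 g0 C W) (pW s1 g1 C W') rfl u u'
  have hk := fun s {t : A₀ → ℝ} (ht : t ∈ (M.res I.f).sys.Par) x hx => mK_bl s
    (sp_k (pW s0 g0 C W) (p := (u, t)) ht (x := x) hx) (sp_k (pW s1 g1 C W') (p := (u', t)) ht hx)
  refine ⟨W₀, fun t t' h x hx hx' => ?_, fun t t' h x hx hx' => ?_, fun s t x => ?_,
    fun N N' w Λ Λ' hw => ?_⟩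
  · have := hk 0 h.par x hx'
    rw [Real.smoothTransition.zero] at this
    rw [h1]
    exact (this.zero.map (dmp X.I X.I (M.resId I.f).ψ x)).trans (wId_pW s0 g0 u t t' h x hx hx')
  · have := hk 1 h.par x hx'
    rw [Real.smoothTransition.one] at this
    rw [h1]
    exact (this.one.map (dmp X.I X'.I I.res.ψ x)).trans (wId_pW s1 g1 u' t t' h x hx hx')
  · simp only [h1]
    exact mK_all s _ _ x
  obtain ⟨Λ₀, h3⟩ := h2 _ (pL s0 g0 C (LId.res N I.f) Λ) (pL s1 g1 C hw.toRes Λ')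
  refine ⟨Λ₀, fun t t' h => ?_, fun t t' h => ?_, fun s t x => by simp [h3]⟩
  · simpa [h3] using cId_pL s0 g0 (C := C) (LId.res N I.f) Λ u t t' h
  · simpa [h3] using cId_pL s1 g1 (C := C) hw.toRes Λ' u' t t' h

end Crest.Agent.X212.Met55
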