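import Crest.Agent.X212.Sob92.Lim
import Crest.Agent.X212.Pj41.Sm
import Crest.Agent.X212.Cyl58.OE

/-! Smooth vector fields: chart criterion, coordinate fields, bracket, related fields. -/

open scoped Manifold ContDiff Topology
open Set Filter Function

noncomputable section
namespace Crest.Agent.X212.Met55

open Sob92 Pj41 Cyl58

variable {E H : Type*} [NormedAddCommGroup E] [NormedSpace ℝ E] [TopologicalSpace H]
  {I : ModelWithCorners ℝ E H} {M : Type*} [TopologicalSpace M] [ChartedSpace H M]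
  {E' H' : Type*} [NormedAddCommGroup E'] [NormedSpace ℝ E'] [TopologicalSpace H']
  {I' : ModelWithCorners ℝ E' H'} {M' : Type*} [TopologicalSpace M'] [ChartedSpace H' M']
  {V : Type*} [NormedAddCommGroup V] [NormedSpace ℝ V] {ι : Type*}

theorem two_le : (2 : WithTop ℕ∞) ≤ ∞ := by
  have : ((2 : ℕ∞) : WithTop ℕ∞) ≤ ((⊤ : ℕ∞) : WithTop ℕ∞) := WithTop.coe_le_coe.2 le_top
  exact this

variable (I M) in
/-- vector fields -/
abbrev VF := Π x : M, TangentSpace I x

theorem dv_vsum (s : Finset ι) (X : ι → VF I M) (u : M → V) (x : M) :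
    dv I (fun y => ∑ a ∈ s, X a y) u x = ∑ a ∈ s, dv I (X a) u x := map_sum _ _ _

theorem dv_vsmul (f : M → ℝ) (X : VF I M) (u : M → V) (x : M) :
    dv I (fun y => f y • X y) u x = f x • dv I X u x := map_smul _ _ _

theorem dv_vadd (X Y : VF I M) (u : M → V) (x : M) :
    dv I (fun y => X y + Y y) u x = dv I X u x + dv I Y u x := map_add _ _ _

theorem dv_vcomb [Fintype ι] (f : ι → M → ℝ) (X : ι → VF I M) (u : M → V) (x : M) :
    dv I (fun y => ∑ a, f a y • X a y) u x = ∑ a, f a x • dv I (X a) u x := by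
  rw [dv_vsum]; exact Finset.sum_congr rfl fun a _ => dv_vsmul _ _ _ _

theorem dv_vcongr {X Y : VF I M} {x : M} (h : X x = Y x) (u : M → V) :
    dv I X u x = dv I Y u x := by unfold dv; rw [h]

theorem dv_of_eq_zero {X : VF I M} {x : M} (h : X x = 0) (u : M → V) : dv I X u x = 0 := by
  unfold dv; rw [h]; exact map_zero _

/-- the chain rule for related vectors -/
theorem dv_rel {f : M → M'} {X : VF I M} {X' : VF I' M'} {x : M}
    (hf : MDifferentiableAt I I' f x) (h : mfderiv I I' f x (X x) = X' (f x)) {u : M' → V}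
    (hu : MDifferentiableAt I' 𝓘(ℝ, V) u (f x)) : dv I X (u ∘ f) x = dv I' X' u (f x) := by
  unfold dv
  rw [mfderiv_comp x hu hf, ← h]; rfl

variable [IsManifold I ∞ M] [IsManifold I' ∞ M']

variable (I) in
/-- the vector field is smooth at `x` -/
abbrev VAt (X : VF I M) (x : M) : Prop :=
  ContMDiffAt I I.tangent ∞ (fun x => (⟨x, X x⟩ : TangentBundle I M)) x

theorem vAt_iff {X : VF I M} {p x : M} (hx : x ∈ (chartAt H p).source) :
    VAt I X x ↔ FSm I (dv I X (extChartAt I p)) x := by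
  refine ⟨fun h => dv_smoothAt h (contMDiffAt_extChartAt' hx), fun h => ?_⟩
  refine ((trivializationAt E (TangentSpace I) p).contMDiffAt_section_iff (by simpa using hx)).2
    (h.congr_of_eventuallyEq ?_)
  filter_upwards [(chartAt H p).open_source.mem_nhds hx] with y hy
  have := TangentBundle.continuousLinearMapAt_trivializationAt (I := I) hy
  have h2 := Bundle.Trivialization.continuousLinearMapAt_apply_of_mem ℝ
    (trivializationAt E (TangentSpace I) p) (b := y) (by simpa using hy) (X y)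
  rw [this] at h2
  exact h2.symm

theorem vAt_iff_self {X : VF I M} {x : M} : VAt I X x ↔ FSm I (dv I X (extChartAt I x)) x :=
  vAt_iff (mem_chart_source H x)

theorem dv_chart_self (X : VF I M) (x : M) : dv I X (extChartAt I x) x = X x := by
  unfold dv; rw [mfderiv_extChartAt_self]; rfl

namespace VAt
variable {X Y : VF I M} {x : M}

theorem congr (h : VAt I X x) (e : ∀ᶠ y in 𝓝 x, Y y = X y) : VAt I Y x :=
  h.congr_of_eventuallyEq (e.mono fun y hy => by simp only [hy])

theorem zero : VAt I (fun _ => 0) x := vAt_iff_self.2 <|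
  (contMDiffAt_const (c := 0)).congr_of_eventuallyEq (.of_forall fun _ => dv_of_eq_zero rfl _)

theorem add (h : VAt I X x) (h' : VAt I Y x) : VAt I (fun y => X y + Y y) x := vAt_iff_self.2 <|
  ((vAt_iff_self.1 h).add (vAt_iff_self.1 h')).congr_of_eventuallyEq
    (.of_forall fun _ => dv_vadd _ _ _ _)

theorem smul {f : M → ℝ} (hf : FSm I f x) (h : VAt I X x) : VAt I (fun y => f y • X y) x :=
  vAt_iff_self.2 <| (hf.smul (vAt_iff_self.1 h)).congr_of_eventuallyEq
    (.of_forall fun _ => dv_vsmul _ _ _ _)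

theorem sum {s : Finset ι} {X : ι → VF I M} (h : ∀ a ∈ s, VAt I (X a) x) :
    VAt I (fun y => ∑ a ∈ s, X a y) x := vAt_iff_self.2 <|
  (FSm.sum' fun a ha => vAt_iff_self.1 (h a ha)).congr_of_eventuallyEq
    (.of_forall fun _ => dv_vsum _ _ _ _)

theorem comb [Fintype ι] {f : ι → M → ℝ} {X : ι → VF I M} (hf : ∀ a, FSm I (f a) x)
    (h : ∀ a, VAt I (X a) x) : VAt I (fun y => ∑ a, f a y • X a y) x :=
  sum fun a _ => smul (hf a) (h a)

theorem cutoff {χ : M → ℝ} {U : Set M} (hχ : FSm I χ x) (hU : tsupport χ ⊆ U)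
    (h : x ∈ U → VAt I X x) : VAt I (fun y => χ y • X y) x := by
  by_cases hx : x ∈ tsupport χ
  · exact smul hχ (h (hU hx))
  · refine zero.congr ?_
    filter_upwards [notMem_tsupport_iff_eventuallyEq.1 hx] with y hy
    simp [hy]

end VAt

/-- a tangent vector is determined by one chart -/
theorem tan_ext {p x : M} (hx : x ∈ (chartAt H p).source) {X Y : VF I M}
    (h : dv I X (extChartAt I p) x = dv I Y (extChartAt I p) x) : X x = Y x := by
  obtain ⟨L, hL⟩ := isInvertible_mfderiv_extChartAt (I := I) (x := p) (y := x) (by simpa using hx)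
  unfold dv at h
  rw [← hL] at h
  exact L.injective h

theorem bij_chart {p x : M} (hx : x ∈ (chartAt H p).source) :
    Bijective (mfderiv I 𝓘(ℝ, E) (extChartAt I p) x) := by
  obtain ⟨L, hL⟩ := isInvertible_mfderiv_extChartAt (I := I) (x := p) (y := x) (by simpa using hx)
  rw [← hL]; exact L.bijective

variable (I) in
/-- the constant field `v` of the chart at `p` -/
def cf (p : M) (v : E) : VF I M := fun y => (mfderiv I 𝓘(ℝ, E) (extChartAt I p) y).inverse v

theorem dv_cf {p x : M} (hx : x ∈ (chartAt H p).source) (v : E) :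
    dv I (cf I p v) (extChartAt I p) x = v :=
  (isInvertible_mfderiv_extChartAt (I := I) (x := p) (y := x)
    (by simpa using hx)).self_apply_inverse v

theorem vAt_cf {p x : M} (hx : x ∈ (chartAt H p).source) (v : E) : VAt I (cf I p v) x := by
  refine (vAt_iff hx).2 ((contMDiffAt_const (c := v)).congr_of_eventuallyEq ?_)
  filter_upwards [(chartAt H p).open_source.mem_nhds hx] with y hy using dv_cf hy v

theorem cf_self (x : M) (v : E) : cf I x v x = v := by
  rw [← dv_chart_self (cf I x v) x]; exact dv_cf (mem_chart_source H x) v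

/-! ### the bracket -/

variable (I) in
/-- the Lie bracket -/
def br (X Y : VF I M) : VF I M := fun x =>
  (dv I X (dv I Y (extChartAt I x)) x - dv I Y (dv I X (extChartAt I x)) x : E)

variable [I.Boundaryless]

theorem chart_contDiffAt {n : WithTop ℕ∞} (hn : n ≤ ∞) {p x : M} (hx : x ∈ (chartAt H p).source)
    {f : M → V} (hf : ContMDiffAt I 𝓘(ℝ, V) n f x) :
    ContDiffAt ℝ n (f ∘ (extChartAt I p).symm) (extChartAt I p x) := by
  have h := (chart_symm_smoothAt (I := I) hx).of_le hn
  have h2 : ContMDiffAt I 𝓘(ℝ, V) n f ((extChartAt I p).symm (extChartAt I p x)) := by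
    rwa [(extChartAt I p).left_inv (by simpa using hx)]
  exact (h2.comp _ h).contDiffAt

theorem dv_dv {X Y : VF I M} {x : M} (hY : VAt I Y x) {f : M → V}
    (hf : ContMDiffAt I 𝓘(ℝ, V) 2 f x) :
    dv I X (dv I Y f) x = fderiv ℝ (fderiv ℝ (f ∘ (extChartAt I x).symm)) (extChartAt I x x)
      (X x) (Y x) + fderiv ℝ (f ∘ (extChartAt I x).symm) (extChartAt I x x)
        (dv I X (dv I Y (extChartAt I x)) x) := by
  have hx := mem_chart_source H x
  set g := f ∘ (extChartAt I x).symm
  have hg : ContDiffAt ℝ 2 g (extChartAt I x x) :=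
    chart_contDiffAt two_le hx hf
  have hφ : MDifferentiableAt I 𝓘(ℝ, E) (extChartAt I x) x := mdifferentiableAt_extChartAt hx
  have h1 : dv I Y f =ᶠ[𝓝 x] fun y => fderiv ℝ g (extChartAt I x y) (dv I Y (extChartAt I x) y) := by
    filter_upwards [(chartAt H x).open_source.mem_nhds hx,
      hφ.continuousAt.eventually (hg.eventually (by simp))] with y hy hy'
    exact (of_chart_hasFDerivAt hy (hy'.differentiableAt (by simp)).hasFDerivAt).2 Y
  have h2 : HasFDerivAt (fderiv ℝ g) (fderiv ℝ (fderiv ℝ g) (extChartAt I x x))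
      (extChartAt I x x) :=
    ((hg.fderiv_right (m := 1) (by norm_num)).differentiableAt (by simp)).hasFDerivAt
  rw [dv_congr h1, dv_app (f := fun y => fderiv ℝ g (extChartAt I x y))
    (h2.differentiableAt.mdifferentiableAt.comp x hφ)
    ((vAt_iff_self.1 hY).mdifferentiableAt (by simp)), dv_comp hφ h2, dv_chart_self,
    dv_chart_self]

theorem dv_br {X Y : VF I M} {x : M} (hX : VAt I X x) (hY : VAt I Y x) {f : M → V}
    (hf : ContMDiffAt I 𝓘(ℝ, V) 2 f x) :
    dv I (br I X Y) f x = dv I X (dv I Y f) x - dv I Y (dv I X f) x := by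
  have hx := mem_chart_source H x
  have hg : ContDiffAt ℝ 2 (f ∘ (extChartAt I x).symm) (extChartAt I x x) :=
    chart_contDiffAt two_le hx hf
  rw [dv_dv hY hf, dv_dv hX hf, (hg.isSymmSndFDerivAt (by simp)).eq (X x) (Y x),
    (of_chart_hasFDerivAt hx (hg.differentiableAt (by simp)).hasFDerivAt).2, dv_chart_self]
  simp only [br, add_sub_add_left_eq_sub]
  exact map_sub _ _ _

theorem VAt.eventually_dv_br {X Y : VF I M} {p : M} {U : Set M} (hU : IsOpen U)
    (hX : ∀ y ∈ U, VAt I X y) (hY : ∀ y ∈ U, VAt I Y y) {x : M} (hx : x ∈ U)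
    (hp : x ∈ (chartAt H p).source) :
    dv I (br I X Y) (extChartAt I p) =ᶠ[𝓝 x] fun y =>
      dv I X (dv I Y (extChartAt I p)) y - dv I Y (dv I X (extChartAt I p)) y := by
  filter_upwards [hU.mem_nhds hx, (chartAt H p).open_source.mem_nhds hp] with y hy hy'
  exact dv_br (hX y hy) (hY y hy) ((contMDiffAt_extChartAt' (n := ∞) hy').of_le two_le)

theorem vAt_br {X Y : VF I M} {U : Set M} (hU : IsOpen U) (hX : ∀ y ∈ U, VAt I X y)
    (hY : ∀ y ∈ U, VAt I Y y) {x : M} (hx : x ∈ U) : VAt I (br I X Y) x := by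
  refine vAt_iff_self.2 (ContMDiffAt.congr_of_eventuallyEq ?_
    (VAt.eventually_dv_br hU hX hY hx (mem_chart_source H x)))
  exact (dv_smoothAt (hX x hx) (vAt_iff_self.1 (hY x hx))).sub
    (dv_smoothAt (hY x hx) (vAt_iff_self.1 (hX x hx)))

omit [IsManifold I ∞ M] [I.Boundaryless] in
theorem br_congr {X Y X' Y' : VF I M} {x : M} (hX : ∀ᶠ y in 𝓝 x, X y = X' y)
    (hY : ∀ᶠ y in 𝓝 x, Y y = Y' y) : br I X Y x = br I X' Y' x := by
  have h1 : dv I X (extChartAt I x) =ᶠ[𝓝 x] dv I X' (extChartAt I x) :=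
    hX.mono fun y hy => dv_vcongr hy _
  have h2 : dv I Y (extChartAt I x) =ᶠ[𝓝 x] dv I Y' (extChartAt I x) :=
    hY.mono fun y hy => dv_vcongr hy _
  unfold br
  rw [dv_congr h1, dv_congr h2, dv_vcongr hX.self_of_nhds, dv_vcongr hY.self_of_nhds]

/-- related fields have related brackets -/
theorem br_rel [I'.Boundaryless] {f : M → M'} {X Y : VF I M} {X' Y' : VF I' M'} {x : M}
    (hf : ContMDiffAt I I' ∞ f x) (hX : VAt I X x) (hY : VAt I Y x) (hX' : VAt I' X' (f x))
    (hY' : VAt I' Y' (f x)) (h1 : ∀ᶠ y in 𝓝 x, mfderiv I I' f y (X y) = X' (f y))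
    (h2 : ∀ᶠ y in 𝓝 x, mfderiv I I' f y (Y y) = Y' (f y)) :
    mfderiv I I' f x (br I X Y x) = br I' X' Y' (f x) := by
  have hx := mem_chart_source H' (f x)
  have hφ : ContMDiffAt I' 𝓘(ℝ, E') ∞ (extChartAt I' (f x)) (f x) := contMDiffAt_extChartAt
  have hd : ∀ᶠ y in 𝓝 x, MDifferentiableAt I I' f y :=
    ((contMDiffAt_iff_contMDiffAt_nhds (n := 1) (by simp)).1 (hf.of_le (by simp))).mono
      fun y hy => hy.mdifferentiableAt (by simp)
  have hs : ∀ᶠ y in 𝓝 x, f y ∈ (chartAt H' (f x)).source :=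
    hf.continuousAt.eventually ((chartAt H' (f x)).open_source.mem_nhds hx)
  have key : ∀ {Z : VF I M} {Z' : VF I' M'}, (∀ᶠ y in 𝓝 x, mfderiv I I' f y (Z y) = Z' (f y)) →
      dv I Z (extChartAt I' (f x) ∘ f) =ᶠ[𝓝 x] dv I' Z' (extChartAt I' (f x)) ∘ f := by
    intro Z Z' h
    filter_upwards [h, hd, hs] with y a b c using dv_rel b a (mdifferentiableAt_extChartAt c)
  have h3 := dv_br hX hY ((hφ.comp x hf).of_le two_le)
  rw [dv_congr (key h1), dv_congr (key h2),
    dv_rel hd.self_of_nhds h1.self_of_nhds ((vAt_iff_self.1 hY').mdifferentiableAt (by simp)),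
    dv_rel hd.self_of_nhds h2.self_of_nhds ((vAt_iff_self.1 hX').mdifferentiableAt (by simp)),
    dv_rel (X' := fun _ => mfderiv I I' f x (br I X Y x)) hd.self_of_nhds rfl
      (mdifferentiableAt_extChartAt hx), dv_chart_self] at h3
  exact h3

/-! ### fields related by a local diffeomorphism -/

omit [I.Boundaryless] [IsManifold I ∞ M] [IsManifold I' ∞ M'] in
theorem ld_bij {f : M → M'} {x : M} (h : IsLocalDiffeomorphAt I I' ∞ f x) :
    Bijective (mfderiv I I' f x) := (h.mfderivToContinuousLinearEquiv (by simp)).bijective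

omit [I.Boundaryless] [IsManifold I ∞ M] [IsManifold I' ∞ M'] in
theorem ld_inv {f : M → M'} {x : M} (h : IsLocalDiffeomorphAt I I' ∞ f x) :
    (mfderiv I I' f x).IsInvertible := ⟨h.mfderivToContinuousLinearEquiv (by simp), rfl⟩

omit [I.Boundaryless] [IsManifold I ∞ M] [IsManifold I' ∞ M'] in
theorem ld_eventually {f : M → M'} {x : M} (h : IsLocalDiffeomorphAt I I' ∞ f x) :
    ∀ᶠ y in 𝓝 x, IsLocalDiffeomorphAt I I' ∞ f y := by
  obtain ⟨Φ, hx, hΦ⟩ := h
  filter_upwards [Φ.open_source.mem_nhds hx] with y hy using ⟨Φ, hy, hΦ⟩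

omit [I.Boundaryless] in
theorem vAt_rel {f : M → M'} {x : M} (h : IsLocalDiffeomorphAt I I' ∞ f x) {X : VF I M}
    {X' : VF I' M'} (hr : ∀ᶠ y in 𝓝 x, mfderiv I I' f y (X y) = X' (f y)) :
    VAt I X x ↔ VAt I' X' (f x) := by
  have hd : ∀ᶠ y in 𝓝 x, MDifferentiableAt I I' f y :=
    (ld_eventually h).mono fun y hy => hy.contMDiffAt.mdifferentiableAt (by simp)
  constructor
  · intro hX
    refine vAt_iff_self.2 (contMDiffAt_of_comp h ?_)
    refine (dv_smoothAt hX ((contMDiffAt_extChartAt (x := f x)).comp x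
      h.contMDiffAt)).congr_of_eventuallyEq ?_
    filter_upwards [hr, hd, h.contMDiffAt.continuousAt.eventually
      ((chartAt H' (f x)).open_source.mem_nhds (mem_chart_source H' (f x)))] with y a b c
    exact (dv_rel b a (mdifferentiableAt_extChartAt c)).symm
  · intro hX
    have e1 : ∀ᶠ y in 𝓝 x, h.localInverse (f y) = y := h.localInverse_eventuallyEq_left
    have e2 : ContMDiffAt I' 𝓘(ℝ, E) ∞ (extChartAt I x ∘ h.localInverse) (f x) := by
      refine ContMDiffAt.comp _ ?_ h.localInverse_contMDiffAt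
      rw [e1.self_of_nhds]; exact contMDiffAt_extChartAt
    have e3 : ∀ᶠ z in 𝓝 (f x), MDifferentiableAt I' 𝓘(ℝ, E) (extChartAt I x ∘ h.localInverse) z :=
      ((contMDiffAt_iff_contMDiffAt_nhds (n := 1) (by simp)).1 (e2.of_le (by simp))).mono
        fun y hy => hy.mdifferentiableAt (by simp)
    refine vAt_iff_self.2 (((dv_smoothAt hX e2).comp x h.contMDiffAt).congr_of_eventuallyEq ?_)
    filter_upwards [hr, hd, e1.eventually_nhds, h.contMDiffAt.continuousAt.eventually e3]
      with y a b c d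
    rw [comp_apply, ← dv_rel b a d]
    exact dv_congr (c.mono fun z hz => by simp only [comp_apply, hz])

variable (I I') in
/-- pull-back of a vector field -/
def pbv (f : M → M') (X' : VF I' M') : VF I M := fun y => (mfderiv I I' f y).inverse (X' (f y))

variable (I I') in
/-- push-forward of a vector field along an injective map, extended by zero -/
def pfv (f : M → M') (X : VF I M) : VF I' M' := fun z =>
  extend f (fun y => (mfderiv I I' f y (X y) : E')) (fun _ => 0) z

omit [I.Boundaryless] [IsManifold I ∞ M] [IsManifold I' ∞ M'] in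
theorem pbv_rel {f : M → M'} {x : M} (h : IsLocalDiffeomorphAt I I' ∞ f x) (X' : VF I' M') :
    mfderiv I I' f x (pbv I I' f X' x) = X' (f x) := (ld_inv h).self_apply_inverse _

omit [I.Boundaryless] in
theorem vAt_pbv {f : M → M'} {x : M} (h : IsLocalDiffeomorphAt I I' ∞ f x) {X' : VF I' M'}
    (hX : VAt I' X' (f x)) : VAt I (pbv I I' f X') x :=
  (vAt_rel h ((ld_eventually h).mono fun _ hy => pbv_rel hy X')).2 hX

omit [I.Boundaryless] [IsManifold I ∞ M] [IsManifold I' ∞ M'] in
theorem pfv_rel {f : M → M'} (hf : Injective f) (X : VF I M) (x : M) :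
    mfderiv I I' f x (X x) = pfv I I' f X (f x) :=
  (hf.extend_apply (fun y => (mfderiv I I' f y (X y) : E')) (fun _ => 0) x).symm

omit [I.Boundaryless] [IsManifold I ∞ M] [IsManifold I' ∞ M'] in
theorem pfv_of_notMem {f : M → M'} (X : VF I M) {z : M'} (hz : z ∉ range f) :
    pfv I I' f X z = 0 := extend_apply' _ _ _ hz

omit [I.Boundaryless] in
theorem vAt_pfv {f : M → M'} (hf : IsOE I I' f) {X : VF I M} {x : M} (hX : VAt I X x) :
    VAt I' (pfv I I' f X) (f x) :=
  (vAt_rel (hf.loc x) (.of_forall (pfv_rel hf.inj X))).1 hX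

end Crest.Agent.X212.Met55
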